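import Mathlib

open Filter Topology Finset
open scoped RealInnerProductSpace

namespace Vale.Agent.P099

lemma sum_range_le {f : ℤ → ℝ} {c : ℝ} (h : ∀ S : Finset ℤ, ∑ k ∈ S, f k ≤ c) {e : ℕ → ℤ}
    (he : Function.Injective e) (n : ℕ) : ∑ j ∈ range n, f (e j) ≤ c := by
  have := h ((range n).map ⟨e, he⟩)
  rwa [sum_map] at this

lemma tendsto_shift {f : ℤ → ℝ} {c : ℝ} (h0 : ∀ k, 0 ≤ f k)
    (h : ∀ S : Finset ℤ, ∑ k ∈ S, f k ≤ c) (k : ℤ) :
    Tendsto (fun n : ℕ => f (k + n)) atTop (𝓝 0) :=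
  (summable_of_sum_range_le (fun _ => h0 _)
    (sum_range_le h fun a b hab => by simpa using hab)).tendsto_atTop_zero

lemma convex_small {x : ℤ → ℝ} {M δ : ℝ} (hδ : 0 ≤ δ) (h : ∀ S : Finset ℤ, ∑ k ∈ S, x k ≤ M)
    (hc : ∀ k, 2 * x k ≤ x (k + 1) + x (k - 1) + δ) (k : ℤ) {K : ℕ} (hK : 0 < K) :
    x k ≤ M / K + δ * K ^ 2 / 2 := by
  have h1 : ∀ j : ℕ, -δ * (2 * j + 1) ≤
      x (k + (j + 1 : ℕ)) + x (k - (j + 1 : ℕ)) - (x (k + j) + x (k - j)) := fun j => by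
    induction j with
    | zero => simpa using by linarith [hc k]
    | succ j ih =>
      have a := hc (k + (j + 1 : ℕ))
      have b := hc (k - (j + 1 : ℕ))
      push_cast at *
      ring_nf at *
      linarith
  have h2 : ∀ j : ℕ, 2 * x k ≤ x (k + j) + x (k - j) + δ * j ^ 2 := fun j => by
    induction j with
    | zero => simpa using by linarith
    | succ j ih =>
      have := h1 j
      push_cast at *
      linarith
  have h3 := sum_le_sum fun j (hj : j ∈ range K) => (h2 j).trans (add_le_add le_rfl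
    (mul_le_mul_of_nonneg_left (pow_le_pow_left₀ (Nat.cast_nonneg j)
      (Nat.cast_le.2 (mem_range.1 hj).le : (j : ℝ) ≤ K) 2) hδ))
  simp only [sum_add_distrib, sum_const, card_range, nsmul_eq_mul] at h3
  have h4 := sum_range_le h (e := fun j => k + j) (fun a b hab => by simpa using hab) K
  have h5 := sum_range_le h (e := fun j => k - j) (fun a b hab => by simpa using hab) K
  have K0 : (0 : ℝ) < K := by exact_mod_cast hK
  rw [div_add' _ _ _ K0.ne', le_div_iff₀ K0]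
  linarith

theorem alg {V : Type} [NormedAddCommGroup V] [InnerProductSpace ℝ V] (P Q α g : ℤ → V)
    {γ β M R : ℝ} (γ0 : 0 ≤ γ) (β0 : 0 ≤ β) (M0 : 0 ≤ M) (hN : ∀ k, ‖P k‖ = ‖Q k‖)
    (hS : ∀ k, ⟪α k, P (k - 1)⟫ = ⟪α (k - 1), Q k⟫) (hg : ∀ k, g k = P (k - 1) + Q (k + 1) + α k)
    (h1 : ∀ S : Finset ℤ, ∑ k ∈ S, ‖g k‖ ^ 2 ≤ γ ^ 2)
    (h2 : ∀ S : Finset ℤ, ∑ k ∈ S, ‖Q (k + 1) - P (k - 1)‖ ^ 2 ≤ β ^ 2)
    (h3 : ∀ S : Finset ℤ, ∑ k ∈ S, ‖α k‖ ^ 2 ≤ M ^ 2)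
    (h4 : ∀ S : Finset ℤ, ∑ k ∈ S, ‖P k‖ ^ 2 ≤ R) (k : ℤ) {K : ℕ} (hK : 0 < K) :
    ‖P k‖ ^ 2 ≤ M ^ 2 / K + 4 * K ^ 2 * (γ * β + γ * M) := by
  let E : ℤ → ℝ := fun k => ‖P (k + 1)‖ ^ 2 + ‖P k‖ ^ 2 + ⟪α k, Q (k + 1)⟫
  have e1 : ∀ k, E k = E (k - 1) + ⟪g k, Q (k + 1) - P (k - 1)⟫ := fun k => by
    simp only [E, sub_add_cancel, hg, ← hS, hN (k + 1), inner_add_left, inner_sub_right,
      real_inner_self_eq_norm_sq, real_inner_comm (P (k - 1)) (Q (k + 1))]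
    ring
  have e2 : ∀ k (n : ℕ), E (k + n) = E k +
      ∑ j ∈ range n, ⟪g (k + j + 1), Q (k + j + 1 + 1) - P (k + j + 1 - 1)⟫ := fun k n => by
    induction n with
    | zero => simp
    | succ n ih =>
      rw [sum_range_succ, ← add_assoc, ← ih, Nat.cast_succ, ← add_assoc, e1, add_sub_cancel_right]
  have e3 : ∀ k, E k ≤ γ * β := fun k => by
    have t1 := tendsto_shift (fun _ => sq_nonneg _) h4 k
    have t2 := tendsto_shift (fun _ => sq_nonneg _) h4 (k + 1)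
    have t3 := tendsto_shift (fun _ => sq_nonneg _) h3 k
    have t := (((t2.const_mul 2).add t1).add t3).add_const (γ * β)
    simp only [mul_zero, add_zero, zero_add] at t
    refine ge_of_tendsto' t fun n => ?_
    have inj : Function.Injective fun j : ℕ => k + j + 1 := fun a b hab => by simpa using hab
    have a1 := sum_range_le h1 inj n
    have a2 := sum_range_le h2 inj n
    have a3 : ∑ j ∈ range n, ‖g (k + j + 1)‖ * ‖Q (k + j + 1 + 1) - P (k + j + 1 - 1)‖ ≤ γ * β := by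
      refine (abs_le_of_sq_le_sq' ((sum_mul_sq_le_sq_mul_sq _ _ _).trans ?_) (by positivity)).2
      rw [mul_pow]
      exact mul_le_mul a1 a2 (sum_nonneg fun _ _ => sq_nonneg _) (sq_nonneg _)
    have a4 := sum_le_sum fun j (_ : j ∈ range n) => (neg_le_abs _).trans
      (abs_real_inner_le_norm (g (k + j + 1)) (Q (k + j + 1 + 1) - P (k + j + 1 - 1)))
    rw [sum_neg_distrib] at a4
    have a5 := real_inner_le_norm (α (k + n)) (Q (k + n + 1))
    have a6 := e2 k n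
    rw [← hN] at a5
    rw [add_right_comm k 1]
    simp only [E] at a6 ⊢
    nlinarith [sq_nonneg (‖α (k + n)‖ - ‖P (k + n + 1)‖)]
  have b1 : ∀ k, |⟪α k, g k⟫| ≤ γ * M := fun k => by
    have a1 := h1 {k}
    have a3 := h3 {k}
    rw [sum_singleton] at a1 a3
    rw [mul_comm]
    exact (abs_real_inner_le_norm _ _).trans (mul_le_mul (abs_le_of_sq_le_sq' a3 M0).2
      (abs_le_of_sq_le_sq' a1 γ0).2 (norm_nonneg _) M0)
  have b2 : ∀ k, ‖P (k + 1)‖ ^ 2 + 2 * ‖P k‖ ^ 2 + ‖P (k - 1)‖ ^ 2 ≤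
      ‖α k‖ ^ 2 + 2 * (γ * β) + γ * M := fun k => by
    have a1 := e3 k
    have a2 := e3 (k - 1)
    have a3 := (abs_le.1 (b1 k)).1
    simp only [E, sub_add_cancel, ← hS] at a1 a2
    rw [hg, inner_add_right, inner_add_right, real_inner_self_eq_norm_sq] at a3
    linarith
  have b3 : ∀ k, ‖α k‖ ^ 2 ≤ 2 * ‖P (k - 1)‖ ^ 2 + 2 * ‖P (k + 1)‖ ^ 2 + 2 * (γ * M) := fun k => by
    have a1 : P (k - 1) + Q (k + 1) = g k - α k := by rw [hg, add_sub_cancel_right]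
    have a2 := norm_sub_sq_real (g k) (α k)
    have a3 := norm_add_le (P (k - 1)) (Q (k + 1))
    have a4 := (abs_le.1 (b1 k)).2
    rw [real_inner_comm] at a4
    rw [← a1] at a2
    rw [← hN] at a3
    nlinarith [sq_nonneg ‖g k‖, sq_nonneg (‖P (k - 1)‖ - ‖P (k + 1)‖),
      pow_le_pow_left₀ (norm_nonneg _) a3 2]
  have b4 := convex_small (δ := 8 * (γ * β) + 12 * (γ * M)) (by positivity) h3 (fun k => by
    have a1 := b2 (k + 1)
    have a2 := b2 (k - 1)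
    have a3 := b3 (k + 1)
    have a4 := b3 k
    have a5 := b3 (k - 1)
    simp only [add_sub_cancel_right, sub_add_cancel] at *
    linarith) k hK
  have K1 : (1 : ℝ) ≤ K ^ 2 := one_le_pow₀ (by exact_mod_cast hK)
  have c1 : 0 ≤ γ * β := by positivity
  have c2 : 0 ≤ γ * M := by positivity
  have c3 : 0 ≤ M ^ 2 / K := by positivity
  nlinarith [b2 k, sq_nonneg ‖P (k + 1)‖, sq_nonneg ‖P (k - 1)‖,
    mul_le_mul_of_nonneg_left K1 c1, mul_le_mul_of_nonneg_left K1 c2]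

end Vale.Agent.P099
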