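import Vale.Agent.P099.Core

open MeasureTheory Filter Topology Set
open scoped ENNReal

namespace Vale.Agent.P099

noncomputable section

section Flow

variable {X : Type} [MeasurableSpace X] {Θ : ℝ → X → X}

def Av (Θ : ℝ → X → X) (h : ℝ) (φ : X → ℝ) (x : X) : ℝ := h⁻¹ * ∫ s in (0 : ℝ)..h, φ (Θ s x)

omit [MeasurableSpace X] in
lemma abs_Av_le {h : ℝ} (h0 : 0 < h) {φ : X → ℝ} (h1 : ∀ x, |φ x| ≤ 1) (x : X) :
    |Av Θ h φ x| ≤ 1 := by
  have := intervalIntegral.norm_integral_le_of_norm_le_const (a := 0) (b := h)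
    (f := fun s => φ (Θ s x)) fun s _ => h1 _
  rw [sub_zero, abs_of_pos h0] at this
  rw [Av, abs_mul, abs_inv, abs_of_pos h0, inv_mul_le_iff₀ h0, mul_comm]
  exact this

variable (hm : Measurable fun q : ℝ × X => Θ q.1 q.2)
include hm

lemma BM.av {h : ℝ} (h0 : 0 < h) {φ : X → ℝ} (b : BM φ) : BM (Av Θ h φ) := by
  have := (BM.const h⁻¹).mul ((b.comp (hm.comp measurable_swap)).integral
    (volume.restrict (Ioc 0 h)))
  simp only [← intervalIntegral.integral_of_le h0.le] at this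
  exact this

lemma BM.locInt {φ : X → ℝ} (b : BM φ) (x : X) : LocallyIntegrable fun s => φ (Θ s x) := by
  obtain ⟨C, hC⟩ := b.2
  exact (memLp_top_of_bound (b.1.comp (hm.comp measurable_prodMk_right)).aestronglyMeasurable C
    (ae_of_all _ fun _ => hC _)).locallyIntegrable le_top

lemma BM.ii {φ : X → ℝ} (b : BM φ) (x : X) (s t : ℝ) :
    IntervalIntegrable (fun s => φ (Θ s x)) volume s t :=
  ((b.locInt hm x).integrableOn_isCompact isCompact_uIcc).intervalIntegrable

variable (ha : ∀ s t x, Θ s (Θ t x) = Θ (s + t) x)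
include ha

lemma Av_sub {φ : X → ℝ} (b : BM φ) (h s : ℝ) (x : X) : Av Θ h φ (Θ s x) - Av Θ h φ x =
    h⁻¹ * ∫ r in (0 : ℝ)..s, φ (Θ r (Θ h x)) - φ (Θ r x) := by
  simp only [Av, ha]
  rw [← mul_sub, intervalIntegral.integral_sub (by simpa only [ha] using b.ii hm (Θ h x) 0 s)
    (b.ii hm x 0 s), intervalIntegral.integral_comp_add_right (fun r => φ (Θ r x)),
    intervalIntegral.integral_comp_add_right (fun r => φ (Θ r x)), zero_add, zero_add, add_comm s h,
    intervalIntegral.integral_interval_sub_interval_comm (b.ii hm x _ _) (b.ii hm x _ _)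
      (b.ii hm x _ _), intervalIntegral.integral_symm s 0, intervalIntegral.integral_symm h]
  ring

lemma Av_lip {h : ℝ} (h0 : 0 < h) {φ : X → ℝ} (b : BM φ) (h1 : ∀ x, |φ x| ≤ 1) (s : ℝ) (x : X) :
    |Av Θ h φ (Θ s x) - Av Θ h φ x| ≤ h⁻¹ * 2 * |s| := by
  have := intervalIntegral.norm_integral_le_of_norm_le_const (a := 0) (b := s) (C := 2)
    (f := fun r => φ (Θ r (Θ h x)) - φ (Θ r x)) fun r _ => by
      rw [Real.norm_eq_abs]
      linarith [abs_sub (φ (Θ r (Θ h x))) (φ (Θ r x)), h1 (Θ r (Θ h x)), h1 (Θ r x)]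
  rw [sub_zero] at this
  rw [Av_sub hm ha b, abs_mul, abs_inv, abs_of_pos h0, mul_assoc]
  exact mul_le_mul_of_nonneg_left this (by positivity)

lemma Av_tay {h : ℝ} (h0 : 0 < h) {φ : X → ℝ} (b : BM φ) {L : ℝ} (L0 : 0 ≤ L)
    (h1 : ∀ s x, |φ (Θ s x) - φ x| ≤ L * |s|) (s : ℝ) (x : X) :
    |Av Θ h φ (Θ s x) - Av Θ h φ x - s * (h⁻¹ * (φ (Θ h x) - φ x))| ≤ h⁻¹ * (2 * L) * s ^ 2 := by
  have := intervalIntegral.norm_integral_le_of_norm_le_const (a := 0) (b := s) (C := 2 * L * |s|)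
    (f := fun r => φ (Θ r (Θ h x)) - φ (Θ r x) - (φ (Θ h x) - φ x)) fun r hr => by
      have a1 : |r| ≤ |s| := by simpa using abs_sub_left_of_mem_uIcc (uIoc_subset_uIcc hr)
      rw [Real.norm_eq_abs, sub_sub_sub_comm]
      linarith [abs_sub (φ (Θ r (Θ h x)) - φ (Θ h x)) (φ (Θ r x) - φ x), h1 r (Θ h x), h1 r x,
        mul_le_mul_of_nonneg_left a1 L0]
  rw [intervalIntegral.integral_sub ((b.ii hm _ _ _).sub (b.ii hm _ _ _)) intervalIntegrable_const,
    intervalIntegral.integral_const, sub_zero, smul_eq_mul, mul_assoc, abs_mul_abs_self] at this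
  rw [Av_sub hm ha b, mul_left_comm, ← mul_sub, abs_mul, abs_inv, abs_of_pos h0, mul_assoc, sq]
  exact mul_le_mul_of_nonneg_left this (by positivity)

variable {μ : Measure X} [SFinite μ] (mp : ∀ t, MeasurePreserving (Θ t) μ μ)
include mp

lemma Av_ae {φ : X → ℝ} (b : BM φ) :
    ∀ᵐ x ∂μ, Tendsto (fun n : ℕ => Av Θ (1 / (n + 1)) φ x) atTop (𝓝 (φ x)) := by
  have n0 : ∀ n : ℕ, (0 : ℝ) < 1 / (n + 1) := fun n => by positivity
  have hS : MeasurableSet {x | Tendsto (fun n : ℕ => Av Θ (1 / (n + 1)) φ x - φ x) atTop (𝓝 0)} :=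
    measurableSet_tendsto _ fun n => (b.av hm (n0 n)).1.sub b.1
  have h1 : ∀ᵐ x ∂μ, ∀ᵐ t : ℝ,
      Tendsto (fun n : ℕ => Av Θ (1 / (n + 1)) φ (Θ t x) - φ (Θ t x)) atTop (𝓝 0) :=
    ae_of_all _ fun x => (LocallyIntegrable.ae_hasDerivAt_integral (b.locInt hm x)).mono fun t ht => by
      have h2 := (ht t).tendsto_slope_zero_right.comp (tendsto_nhdsWithin_iff.2
        ⟨tendsto_one_div_add_atTop_nhds_zero_nat, Eventually.of_forall n0⟩)
      rw [tendsto_sub_nhds_zero_iff]
      refine h2.congr fun n => ?_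
      simp only [Function.comp, Av, ha, intervalIntegral.integral_same, sub_zero, smul_eq_mul]
      rw [intervalIntegral.integral_comp_add_right (fun r => φ (Θ r x)), zero_add, add_comm t]
  obtain ⟨t, ht⟩ := ((Measure.ae_ae_comm (p := fun x t => Tendsto
    (fun n : ℕ => Av Θ (1 / (n + 1)) φ (Θ t x) - φ (Θ t x)) atTop (𝓝 0))
    (hS.preimage (hm.comp measurable_swap))).1 h1).exists
  rw [← (mp t).map_eq]
  simp only [← tendsto_sub_nhds_zero_iff (x := φ _)]
  exact (ae_map_iff (mp t).aemeasurable hS).2 ht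

lemma exact_inv {B : Set X} (hB : NullMeasurableSet B μ)
    (h : ∀ t, μ (symmDiff (Θ t ⁻¹' B) B) = 0) :
    ∃ B', MeasurableSet B' ∧ B' =ᵐ[μ] B ∧ ∀ t x, Θ t x ∈ B' ↔ x ∈ B' := by
  obtain ⟨C, -, hC, e⟩ := hB.exists_measurable_superset_ae_eq
  have h1 : MeasurableSet {q : X × ℝ | Θ q.2 q.1 ∈ C} := hC.preimage (hm.comp measurable_swap)
  refine ⟨{x | ∀ᵐ t : ℝ, Θ t x ∈ C}, ?_, EventuallyEq.trans ?_ e, fun s x => ?_⟩
  · exact measurable_measure_prodMk_left (ν := volume) h1.compl (measurableSet_singleton 0)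
  · have h2 : ∀ᵐ t : ℝ, ∀ᵐ x ∂μ, (Θ t x ∈ C ↔ x ∈ C) := ae_of_all _ fun t =>
      eventuallyEq_set.1 (((mp t).quasiMeasurePreserving.preimage_ae_eq e).trans
        ((measure_symmDiff_eq_zero_iff.1 (h t)).trans e.symm))
    have h3 : MeasurableSet {q : ℝ × X | Θ q.1 q.2 ∈ C ↔ q.2 ∈ C} :=
      (hC.preimage hm).iff (hC.preimage measurable_snd)
    refine eventuallyEq_set.2 (((Measure.ae_ae_comm h3).1 h2).mono fun x hx => ⟨fun h4 => ?_,
      fun h4 => hx.mono fun t ht => ht.2 h4⟩)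
    obtain ⟨t, h5, h6⟩ := (hx.and h4).exists
    exact h5.1 h6
  · simp only [mem_ofPred_eq, ha]
    exact eventually_add_right_iff (p := fun t => Θ t x ∈ C) volume s

end Flow

variable {A : Fin 3 → ℂ} (hA : ar A ≠ 0) (hI : ∃ i : Fin 3,
    Irrational (EuclideanGeometry.angle (A (i + 1)) (A i) (A (i + 2)) / Real.pi))
include hA hI

lemma const_of_inv {b : Phase × Phase → ℝ} (hb : BM b) (h1 : ∀ z, |b z| ≤ 1)
    (hi : ∀ s y v, b (y, flow A s v) = b (flow A (-s) y, v)) :
    ∀ᵐ y ∂liouville A, ∃ c, ∀ᵐ v ∂liouville A, b (y, v) = c := by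
  have := prob_liouville hA
  let Θ : ℝ → Phase × Phase → Phase × Phase := fun t z => (flow A t z.1, z.2)
  have hm : Measurable fun q : ℝ × Phase × Phase => Θ q.1 q.2 :=
    ((measurable_flow hA).comp (f := fun q : ℝ × Phase × Phase => (q.1, q.2.1))
      (by fun_prop)).prodMk (by fun_prop)
  have ha : ∀ s t x, Θ s (Θ t x) = Θ (s + t) x := fun s t x => by simp only [Θ, flow_add hA]
  have mp : ∀ t, MeasurePreserving (Θ t) ((liouville A).prod (liouville A)) _ := fun t =>
    (mp_flow hA t).prod (MeasurePreserving.id _)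
  have n0 : ∀ n : ℕ, (0 : ℝ) < 1 / (n + 1) := fun n => by positivity
  have lim : ∀ φ : Phase × Phase → ℝ, BM φ → (∀ h, 0 < h → ∀ᵐ y ∂liouville A, ∃ c,
      ∀ᵐ v ∂liouville A, Av Θ h φ (y, v) = c) →
      ∀ᵐ y ∂liouville A, ∃ c, ∀ᵐ v ∂liouville A, φ (y, v) = c := fun φ b H => by
    filter_upwards [ae_all_iff.2 fun n => H _ (n0 n),
      Measure.ae_ae_of_ae_prod (Av_ae hm ha mp b)] with y h2 h3
    choose c hc using h2
    have h4 := h3.and (ae_all_iff.2 hc)
    obtain ⟨v0, h5, h6⟩ := h4.exists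
    exact ⟨_, h4.mono fun v hv => tendsto_nhds_unique hv.1
      (h5.congr fun n => (h6 n).trans (hv.2 n).symm)⟩
  have inv : ∀ (φ : Phase × Phase → ℝ) h, (∀ s y v, φ (y, flow A s v) = φ (flow A (-s) y, v)) →
      ∀ s y v, Av Θ h φ (y, flow A s v) = Av Θ h φ (flow A (-s) y, v) := fun φ h H s y v => by
    simp only [Av, Θ, H, flow_add hA, add_comm]
  refine lim b hb fun h h0 => lim _ (hb.av hm h0) fun k k0 => ?_
  have b1 := hb.av hm h0
  have l1 := Av_lip hm ha h0 hb h1
  have t1 := Av_tay hm ha k0 b1 (by positivity) l1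
  have M1 : ∀ s : ℝ, k⁻¹ * (2 * (h⁻¹ * 2)) * s ^ 2 ≤
      max (k⁻¹ * (h⁻¹ * 2 * |k|)) (k⁻¹ * (2 * (h⁻¹ * 2))) * s ^ 2 := fun s =>
    mul_le_mul_of_nonneg_right (le_max_right _ _) (sq_nonneg s)
  refine core hA hI (Ψ := flow A) (f := fun y v => Av Θ k (Av Θ h b) (y, v))
    (f' := fun y v => k⁻¹ * (Av Θ h b (Θ k (y, v)) - Av Θ h b (y, v)))
    ⟨mp_flow hA, b1.av hm k0, (BM.const _).mul ((b1.comp (mp k).measurable).sub b1),
      fun y v => abs_Av_le k0 (abs_Av_le h0 h1) _, fun y v => le_max_of_le_left ?_,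
      fun s y v => (t1 s (y, v)).trans (M1 s), fun y s v => ?_⟩
  · rw [abs_mul, abs_inv, abs_of_pos k0]
    simpa only [abs_of_pos k0] using mul_le_mul_of_nonneg_left (l1 k (y, v)) (inv_pos.2 k0).le
  · have := t1 (-s) (y, v)
    rw [neg_mul, sub_neg_eq_add, neg_sq] at this
    rw [inv _ k (inv b h hi)]
    exact this.trans (M1 s)

lemma sec_of_inv {B : Set (Phase × Phase)} (hB : MeasurableSet B)
    (hi : ∀ t y v, (flow A t y, flow A t v) ∈ B ↔ (y, v) ∈ B) : ∀ᵐ y ∂liouville A,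
      (∀ᵐ v ∂liouville A, (y, v) ∈ B) ∨ ∀ᵐ v ∂liouville A, (y, v) ∉ B := by
  have := const_of_inv hA hI (b := B.indicator 1) ⟨measurable_const.indicator hB, 1, fun z =>
    (norm_indicator_le_norm_self _ _).trans (by simp)⟩
    (fun z => by by_cases h : z ∈ B <;> simp [h]) fun s y v => by
      have := hi (-s) y (flow A s v)
      rw [flow_add hA, neg_add_cancel, flow_zero] at this
      by_cases h : (y, flow A s v) ∈ B
      · simp [h, this.2 h]
      · simp [h, mt this.1 h]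
  filter_upwards [this] with y ⟨c, hc⟩
  by_cases h : c = 0
  · exact Or.inr (hc.mono fun v hv hB => by simp [hB, h] at hv)
  · exact Or.inl (hc.mono fun v hv => by_contra fun hB => h (by simpa [hB] using hv.symm))

theorem weak_mixing : IsErgodicFlow (fun t => Prod.map (flow A t) (flow A t))
    ((liouville A).prod (liouville A)) := by
  have := prob_liouville hA
  intro B0 hB0 h0
  obtain ⟨B, hB, e, hi⟩ := exact_inv (Θ := fun t => Prod.map (flow A t) (flow A t))
    (((measurable_flow hA).comp (f := fun q : ℝ × Phase × Phase => (q.1, q.2.1))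
      (by fun_prop)).prodMk ((measurable_flow hA).comp
      (f := fun q : ℝ × Phase × Phase => (q.1, q.2.2)) (by fun_prop)))
    (fun s t x => by simp only [Prod.map, flow_add hA])
    (fun t => (mp_flow hA t).prod (mp_flow hA t)) hB0 h0
  rw [← measure_congr e]
  have h1 := sec_of_inv hA hI hB fun t y v => hi t (y, v)
  have h2 := sec_of_inv hA hI (hB.preimage measurable_swap) fun t y v => hi t (v, y)
  have hS : MeasurableSet {y | ∀ᵐ v ∂liouville A, (y, v) ∈ B} :=
    measurable_measure_prodMk_left (ν := liouville A) hB.compl (measurableSet_singleton 0)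
  have h3 : ∀ᵐ y ∂liouville A, ∀ᵐ v ∂liouville A,
      ((y, v) ∈ B ↔ ∀ᵐ v ∂liouville A, (y, v) ∈ B) := h1.mono fun y hy => by
    rcases hy with h | h
    · exact h.mono fun v hv => iff_of_true hv h
    · refine h.mono fun v hv => iff_of_false hv fun h' => ?_
      obtain ⟨w, a1, a2⟩ := (h.and h').exists
      exact a1 a2
  obtain ⟨v, h4, h5⟩ := (h2.and ((Measure.ae_ae_comm
    (hB.iff (hS.preimage measurable_fst))).1 h3)).exists
  rcases h4 with h4 | h4
  · right
    rw [← mem_ae_iff_prob_eq_one hB]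
    refine (Measure.ae_prod_iff_ae_ae hB).2 ?_
    filter_upwards [h4, h5] with y a1 a2 using a2.1 a1
  · left
    rw [measure_eq_zero_iff_ae_notMem]
    refine (Measure.ae_prod_iff_ae_ae hB.compl).2 ?_
    filter_upwards [h1, h4, h5] with y a0 a1 a2 using a0.resolve_left fun h => a1 (a2.2 h)

theorem ergodic : IsErgodicFlow (flow A) (liouville A) := by
  have := prob_liouville hA
  intro B hB h
  have h1 := weak_mixing hA hI (B ×ˢ univ) (hB.prod nullMeasurableSet_univ) fun t => by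
    have e : symmDiff (Prod.map (flow A t) (flow A t) ⁻¹' (B ×ˢ univ)) (B ×ˢ univ) =
        symmDiff (flow A t ⁻¹' B) B ×ˢ univ := by
      ext z
      simp [mem_symmDiff]
    rw [e, Measure.prod_prod, h t, zero_mul]
  simpa using h1

omit hA hI in
lemma ar_ne (h : AffineIndependent ℝ A) : ar A ≠ 0 := fun h0 => by
  have key : ∀ a b : ℝ, a • (A 1 - A 0) + b • (A 2 - A 0) = 0 → b = 0 := fun a b e =>
    affineIndependent_iff.1 h Finset.univ ![-a - b, a, b] (by
        simp only [Fin.sum_univ_three, Matrix.cons_val]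
        ring)
      (by
        simp only [Fin.sum_univ_three, Matrix.cons_val]
        rw [← e]
        module) 2 (Finset.mem_univ _)
  simp only [ar, Complex.mul_im, Complex.conj_re, Complex.conj_im] at h0
  have h1 := key (A 2 - A 0).re (-(A 1 - A 0).re) (by
    apply Complex.ext <;> simp only [Complex.add_re, Complex.add_im, Complex.smul_re,
      Complex.smul_im, smul_eq_mul, Complex.zero_re, Complex.zero_im] <;> linarith)
  have h2 := key (A 2 - A 0).im (-(A 1 - A 0).im) (by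
    apply Complex.ext <;> simp only [Complex.add_re, Complex.add_im, Complex.smul_re,
      Complex.smul_im, smul_eq_mul, Complex.zero_re, Complex.zero_im] <;> linarith)
  have h3 : A 1 = A 0 := sub_eq_zero.1 (Complex.ext (neg_eq_zero.1 h1) (neg_eq_zero.1 h2))
  exact absurd (h.injective h3) (by decide)

end

end Vale.Agent.P099
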