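import Vale.Agent.P099.Main

open MeasureTheory Filter Topology Set Complex Metric
open scoped RealInnerProductSpace ComplexConjugate ENNReal

namespace Vale.Agent.P099

noncomputable section

lemma int_le_of_sq {α : Type} [MeasurableSpace α] {μ : Measure α} [IsProbabilityMeasure μ]
    {F : α → ℝ} (h : BM F) {δ : ℝ} (δ0 : 0 < δ) (h1 : ∫ a, F a ^ 2 ∂μ ≤ δ ^ 2) :
    ∫ a, F a ∂μ ≤ δ := by
  have h2 := integral_mono (((BM.const (2 * δ)).mul h).int μ)
    (((BM.const (δ ^ 2)).add h.sq).int μ) fun a => by nlinarith [sq_nonneg (F a - δ)]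
  rw [integral_const_mul, integral_add (integrable_const _) (h.sq.int μ)] at h2
  simp only [integral_const, probReal_univ, smul_eq_mul, one_mul] at h2
  nlinarith

variable {A : Fin 3 → ℂ} (hA : ar A ≠ 0)
include hA

lemma exists_ne (hI : ∃ i : Fin 3,
    Irrational (EuclideanGeometry.angle (A (i + 1)) (A i) (A (i + 2)) / Real.pi)) {n : ℤ}
    (hn : n ≠ 0) : ∃ i j, fourier (-n) (be A i) ≠ fourier (-n) (be A j) := by
  have f3 : ∀ i : Fin 3, i + 2 + 2 = i + 1 ∧ i + 2 + 1 = i ∧ i + 1 + 2 = i ∧ i + 1 + 1 = i + 2 := by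
    decide
  obtain ⟨i, hi⟩ := hI
  refine ⟨i + 2, i + 1, fun h => hi ?_⟩
  have t1 := tau_ne hA (i + 1)
  have t2 := tau_ne hA (i + 2)
  have e1 : A (i + 1) - A i = tau A (i + 2) := by
    rw [tau, (f3 i).1, (f3 i).2.1]
  have e2 : A (i + 2) - A i = -tau A (i + 1) := by
    rw [tau, (f3 i).2.2.1, (f3 i).2.2.2, neg_sub]
  rw [EuclideanGeometry.angle, vsub_eq_sub, vsub_eq_sub, e1, e2,
    angle_eq_abs_arg t2 (neg_ne_zero.2 t1)]
  generalize hz : tau A (i + 2) / -tau A (i + 1) = z
  have a1 := vel_be_mul (A := ![0, 0, z]) 0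
  have a2 : tau ![0, 0, z] 0 = z := by simp [tau]
  rw [be, a2] at a1
  have a3 : ((arg z / Real.pi : ℝ) : UnitAddCircle) = be A (i + 2) - be A (i + 1) := by
    have c1 : conj (tau A (i + 1)) ≠ 0 := by simpa using t1
    have c2 : conj z ≠ 0 := by simp [← hz, t1, t2]
    have b1 := vel_be_mul (A := A) (i + 1)
    have b2 := vel_be_mul (A := A) (i + 2)
    have b3 : tau A (i + 2) = -(z * tau A (i + 1)) := by
      rw [← hz]
      field_simp
    rw [b3, map_neg, map_mul] at b2
    rw [eq_sub_iff_add_eq]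
    apply vel_inj
    rw [vel_add]
    apply mul_right_cancel₀ (mul_ne_zero c2 c1)
    rw [mul_mul_mul_comm, a1, b1]
    linear_combination b2
  have a4 : ((-n • (arg z / Real.pi) : ℝ) : UnitAddCircle) = 0 := by
    rw [AddCircle.coe_zsmul, a3, smul_sub, sub_eq_zero]
    exact vel_inj h
  obtain ⟨m, hm⟩ := (AddCircle.coe_eq_zero_iff _).1 a4
  refine ⟨|m / -n|, ?_⟩
  have n0 : (n : ℝ) ≠ 0 := by exact_mod_cast hn
  rw [← abs_of_pos Real.pi_pos, ← abs_div]
  simp only [zsmul_eq_mul, mul_one, Int.cast_neg] at hm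
  push_cast
  rw [hm]
  congr 1
  field_simp

lemma poinc0 : ∃ C : ℝ, 0 ≤ C ∧ ∀ u : ℂ → ℂ, ContDiff ℝ 1 u →
    ∫ x, ‖u x - ∫ x', u x' ∂qq A‖ ∂qq A ≤ C * ∫ x, (‖dz u x‖ + ‖dzb u x‖) ∂qq A := by
  have := prob_qq hA
  have D0 := Dm_nonneg (A := A)
  let m : Measure (ℂ × ℝ) :=
    (volume.restrict (closedBall 0 (2 * Dm A))).prod (volume.restrict (Ioc 0 1))
  have m0 : m univ ≠ ∞ := by
    have : IsFiniteMeasure (volume.restrict (closedBall (0 : ℂ) (2 * Dm A))) :=
      isFiniteMeasure_restrict.2 measure_closedBall_lt_top.ne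
    exact measure_ne_top _ _
  have V0 := ENNReal.inv_ne_top.2 (vol_QQ_ne_zero hA)
  have hQ := (isOpen_QQ (A := A)).measurableSet
  refine ⟨((volume (QQ A))⁻¹ * (ENNReal.ofReal (2 * Dm A) * m univ)).toReal, ENNReal.toReal_nonneg,
    fun u hu => ?_⟩
  have cu := hu.continuous
  have c1 := continuous_dz hu
  have c2 := continuous_dzb hu
  have cD := hu.continuous_fderiv one_ne_zero
  let H : ℂ → ℝ≥0∞ := (QQ A).indicator fun x => ENNReal.ofReal (‖dz u x‖ + ‖dzb u x‖)
  have hH : Measurable H := Measurable.indicator (by fun_prop) hQ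
  have s1 : ∀ x ∈ QQ A, ∀ z, x + z ∈ QQ A → ‖z‖ ≤ 2 * Dm A ∧
      ‖u x - u (x + z)‖ₑ ≤ ENNReal.ofReal (2 * Dm A) * ∫⁻ s in Ioc (0 : ℝ) 1, H (x + s • z) := by
    intro x hx z hz
    have n1 : ‖z‖ ≤ 2 * Dm A := by
      have a1 := mem_closedBall_iff_norm.1 (KK_subset hA fun j => (hx j).le)
      have a2 := mem_closedBall_iff_norm.1 (KK_subset hA fun j => (hz j).le)
      have a3 := norm_sub_le (x + z - A 0) (x - A 0)
      rw [sub_sub_sub_cancel_right, add_sub_cancel_left] at a3
      linarith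
    have e := intervalIntegral.integral_eq_sub_of_hasDerivAt (f := fun s : ℝ => u (x + s • z))
      (f' := fun s => fderiv ℝ u (x + s • z) z) (a := 0) (b := 1) (fun s _ =>
        (hu.differentiable one_ne_zero _).hasFDerivAt.comp_hasDerivAt s
          (by simpa using ((hasDerivAt_id s).smul_const z).const_add x))
      (Continuous.intervalIntegrable (by fun_prop) _ _)
    rw [one_smul, zero_smul, add_zero, intervalIntegral.integral_of_le zero_le_one] at e
    refine ⟨n1, ?_⟩
    rw [enorm_sub_rev, ← e, ← lintegral_const_mul' _ _ ENNReal.ofReal_ne_top]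
    refine (enorm_integral_le_lintegral_enorm _).trans
      (setLIntegral_mono' measurableSet_Ioc fun s hs => ?_)
    have a1 : x + s • z ∈ QQ A := fun j => by
      have b1 := hz j
      rw [lam_add] at b1
      rw [lam_add, dl_smul]
      nlinarith [mul_pos hs.1 b1, mul_nonneg (sub_nonneg.2 hs.2) (hx j).le]
    simp only [H, indicator_of_mem a1]
    rw [← ENNReal.ofReal_mul (by positivity), ← ofReal_norm]
    exact ENNReal.ofReal_le_ofReal ((norm_fderiv_le u _ z).trans
      (mul_le_mul_of_nonneg_right n1 (by positivity)))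
  have s2 : ∀ x ∈ QQ A, ‖u x - ∫ x', u x' ∂qq A‖ₑ ≤
      (volume (QQ A))⁻¹ * (ENNReal.ofReal (2 * Dm A) * ∫⁻ r, H (x + r.2 • r.1) ∂m) := by
    intro x hx
    have e : u x - ∫ x', u x' ∂qq A = ∫ x', u x - u x' ∂qq A := by
      rw [integral_sub (integrable_const _) (integrable_qq hA cu)]
      simp
    rw [e]
    refine (enorm_integral_le_lintegral_enorm _).trans ?_
    rw [qq_eq hA, lintegral_smul_measure, smul_eq_mul, ← lintegral_indicator hQ,
      ← lintegral_add_left_eq_self _ x, lintegral_prod _ (by fun_prop),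
      ← lintegral_const_mul' _ _ ENNReal.ofReal_ne_top,
      ← lintegral_indicator measurableSet_closedBall]
    refine mul_le_mul_right (lintegral_mono fun z => ?_) _
    by_cases h : x + z ∈ QQ A
    · rw [indicator_of_mem h, indicator_of_mem (mem_closedBall_zero_iff.2 (s1 x hx z h).1)]
      exact (s1 x hx z h).2
    · rw [indicator_of_notMem h]
      exact zero_le
  have s3 : ∫⁻ x, ∫⁻ r, H (x + r.2 • r.1) ∂m = m univ * ∫⁻ x, H x := by
    rw [lintegral_lintegral_swap (by fun_prop)]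
    simp only [lintegral_add_right_eq_self, lintegral_const, mul_comm]
  have s4 : (volume (QQ A))⁻¹ * ∫⁻ x, H x =
      ENNReal.ofReal (∫ x, (‖dz u x‖ + ‖dzb u x‖) ∂qq A) := by
    rw [ofReal_integral_eq_lintegral_ofReal (integrable_qq hA (by fun_prop))
      (ae_of_all _ fun x => by positivity), qq_eq hA, lintegral_smul_measure, smul_eq_mul,
      lintegral_indicator hQ]
  rw [← ENNReal.ofReal_le_ofReal_iff (mul_nonneg ENNReal.toReal_nonneg
    (integral_nonneg fun x => by positivity)), ENNReal.ofReal_mul ENNReal.toReal_nonneg,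
    ENNReal.ofReal_toReal (ENNReal.mul_ne_top V0 (ENNReal.mul_ne_top ENNReal.ofReal_ne_top m0)),
    ← s4, ofReal_integral_norm_eq_lintegral_enorm (integrable_qq hA (by fun_prop))]
  refine (lintegral_mono_ae ((ae_qq hA).mono s2)).trans ?_
  rw [lintegral_const_mul' _ _ V0, lintegral_const_mul' _ _ ENNReal.ofReal_ne_top, qq_eq hA,
    lintegral_smul_measure, smul_eq_mul]
  refine (mul_le_mul_right (mul_le_mul_right (mul_le_mul_right
    ((setLIntegral_le_lintegral _ _).trans s3.le) _) _) _).trans (le_of_eq ?_)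
  ring

variable {Y : Type} [MeasurableSpace Y] {ν : Measure Y} [IsProbabilityMeasure ν]
  {Ψ : ℝ → Y → Y} {f f' : Y → Phase → ℝ} {M : ℝ}

lemma mode_ne (H : Hyp A ν Ψ f f' M) {n : ℤ} {i j : Fin 3}
    (h : fourier (-n) (be A i) ≠ fourier (-n) (be A j)) :
    ∀ᵐ q ∂ν.prod (qq A), md n (fun v => f q.1 v) q.2 = 0 := by
  have := prob_qq hA
  have bf := BM.md (F := fun y v => f y v) H.bm.ofReal n
  have a0 : 0 < ‖fourier (-n) (be A i) - fourier (-n) (be A j)‖ ^ 2 :=
    pow_pos (norm_pos_iff.2 (sub_ne_zero.2 h)) 2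
  have key : ∫ q, ‖md n (fun v => f q.1 v) q.2‖ ^ 2 ∂ν.prod (qq A) ≤ 0 := by
    refine ge_of_tendsto (f := fun ε : ℝ => 2 * ε + 2 * (64 * Dm A ^ 2 * ε /
      ‖fourier (-n) (be A i) - fourier (-n) (be A j)‖ ^ 2)) (x := 𝓝[>] 0)
      ((Continuous.tendsto' (by fun_prop) _ _ (by simp)).mono_left nhdsWithin_le_nhds)
      (eventually_mem_nhdsWithin.mono fun ε (ε0 : 0 < ε) => ?_)
    obtain ⟨u, b1, b2, b3, hu, hs, e1, e2, e3⟩ := approx hA H n ε0
    have k1 := integral_mono (((b1.norm.sq.integral (qq A)).int ν).const_mul _)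
      (((((b2.norm.sq.integral (qq A)).add (b3.norm.sq.integral (qq A))).int ν)).const_mul _)
      fun y => poinc1 hA (hu y) (nf _ _) (nf _ _) (hs y i) (hs y j)
    rw [integral_const_mul, integral_const_mul, integral_add ((b2.norm.sq.integral (qq A)).int ν)
      ((b3.norm.sq.integral (qq A)).int ν), ← integral_prod _ (b1.norm.sq.int _),
      ← integral_prod _ (b2.norm.sq.int _), ← integral_prod _ (b3.norm.sq.int _)] at k1
    have k2 := integral_mono (bf.norm.sq.int (ν.prod (qq A)))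
      (((BM.const 2).mul ((b1.sub bf).norm.sq.add b1.norm.sq)).int _) fun q => by
        have c1 := norm_sub_le (u q.1 q.2) (u q.1 q.2 - md n (fun v => f q.1 v) q.2)
        rw [sub_sub_cancel] at c1
        refine (pow_le_pow_left₀ (norm_nonneg _) c1 2).trans ?_
        nlinarith [sq_nonneg (‖u q.1 q.2‖ - ‖u q.1 q.2 - md n (fun v => f q.1 v) q.2‖)]
    rw [integral_const_mul, integral_add ((b1.sub bf).norm.sq.int _) (b1.norm.sq.int _)] at k2
    have k3 : ∫ q, ‖u q.1 q.2‖ ^ 2 ∂ν.prod (qq A) ≤ 64 * Dm A ^ 2 * ε /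
        ‖fourier (-n) (be A i) - fourier (-n) (be A j)‖ ^ 2 := by
      rw [le_div_iff₀' a0]
      nlinarith [sq_nonneg (Dm A)]
    linarith
  filter_upwards [(integral_eq_zero_iff_of_nonneg (fun q => sq_nonneg _) (bf.norm.sq.int _)).1
    (key.antisymm (integral_nonneg fun q => sq_nonneg _))] with q hq
  simpa using hq

lemma mode_zero (H : Hyp A ν Ψ f f' M) : ∀ᵐ q ∂ν.prod (qq A),
    md 0 (fun v => f q.1 v) q.2 = ∫ x, md 0 (fun v => f q.1 v) x ∂qq A := by
  have := prob_qq hA
  have bf := BM.md (F := fun y v => f y v) H.bm.ofReal 0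
  have bc := (bf.integral (qq A)).comp (g := fun q : Y × ℂ => q.1) measurable_fst
  obtain ⟨C, C0, hC⟩ := poinc0 hA
  have key : ∫ q, ‖md 0 (fun v => f q.1 v) q.2 - ∫ x, md 0 (fun v => f q.1 v) x ∂qq A‖
      ∂ν.prod (qq A) ≤ 0 := by
    refine ge_of_tendsto (f := fun δ : ℝ => δ + C * (δ + δ) + δ) (x := 𝓝[>] 0)
      ((Continuous.tendsto' (by fun_prop) _ _ (by simp)).mono_left nhdsWithin_le_nhds)
      (eventually_mem_nhdsWithin.mono fun δ (δ0 : 0 < δ) => ?_)
    obtain ⟨u, b1, b2, b3, hu, -, e1, e2, e3⟩ := approx hA H 0 (pow_pos δ0 2)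
    have f1 := int_le_of_sq b2.norm δ0 e1
    have f2 := int_le_of_sq b3.norm δ0 e2
    have f3 := int_le_of_sq (b1.sub bf).norm δ0 e3
    have b4 := (b1.sub ((b1.integral (qq A)).comp (g := fun q : Y × ℂ => q.1) measurable_fst)).norm
    have b5 := (b1.sub bf).norm.integral (qq A)
    have k1 := integral_mono ((b4.integral (qq A)).int ν)
      ((((b2.norm.add b3.norm).integral (qq A)).int ν).const_mul C) fun y => hC _ (hu y)
    rw [integral_const_mul, ← integral_prod _ (b4.int _),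
      ← integral_prod _ ((b2.norm.add b3.norm).int _),
      integral_add (b2.norm.int _) (b3.norm.int _)] at k1
    have k2 := integral_mono ((bf.sub bc).norm.int (ν.prod (qq A)))
      ((((b1.sub bf).norm.add b4).add (b5.comp measurable_fst)).int _) fun q => by
        have c1 := norm_integral_le_integral_norm (μ := qq A)
          fun x => u q.1 x - md 0 (fun v => f q.1 v) x
        rw [integral_sub ((b1.sec _).int _) ((bf.comp measurable_prodMk_left).int _)] at c1
        refine (norm_sub_le_norm_sub_add_norm_sub _ (∫ x, u q.1 x ∂qq A) _).trans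
          (add_le_add ((norm_sub_le_norm_sub_add_norm_sub _ (u q.1 q.2) _).trans_eq ?_) c1)
        rw [norm_sub_rev]
    rw [integral_add (((b1.sub bf).norm.add b4).int _) ((b5.comp measurable_fst).int _),
      integral_add ((b1.sub bf).norm.int _) (b4.int _),
      integral_fun_fst (fun y => ∫ x, ‖u y x - md 0 (fun v => f y v) x‖ ∂qq A),
      ← integral_prod _ ((b1.sub bf).norm.int _), probReal_univ, one_smul] at k2
    nlinarith [mul_le_mul_of_nonneg_left (add_le_add f1 f2) C0]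
  filter_upwards [(integral_eq_zero_iff_of_nonneg (fun q => norm_nonneg _)
    ((bf.sub bc).norm.int _)).1 (key.antisymm (integral_nonneg fun q => norm_nonneg _))] with q hq
  exact sub_eq_zero.1 (norm_eq_zero.1 hq)

theorem core (hI : ∃ i : Fin 3,
    Irrational (EuclideanGeometry.angle (A (i + 1)) (A i) (A (i + 2)) / Real.pi))
    (H : Hyp A ν Ψ f f' M) : ∀ᵐ y ∂ν, ∃ c, ∀ᵐ v ∂liouville A, f y v = c := by
  have := prob_qq hA
  have h1 : ∀ᵐ q ∂ν.prod (qq A), ∀ n, n ≠ 0 → md n (fun v => f q.1 v) q.2 = 0 :=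
    ae_all_iff.2 fun n => eventually_imp_distrib_left.2 fun hn => by
      obtain ⟨i, j, h⟩ := exists_ne hA hI hn
      exact mode_ne hA H h
  filter_upwards [Measure.ae_ae_of_ae_prod (h1.and (mode_zero hA H))] with y hy
  generalize ∫ x, md 0 (fun v => f y v) x ∂qq A = c at hy
  have b1 := (H.bm.sec y).ofReal
  refine ⟨c.re, (Measure.ae_prod_iff_ae_ae (measurableSet_eq_fun (H.bm.sec y).1
    measurable_const)).2 (hy.mono fun x hx => ?_)⟩
  have h2 := parseval (b1.sub (BM.const c)) x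
  have h3 : ∀ n, md n (fun v => f y v - c) x = 0 := fun n => by
    rw [md_sub b1 (BM.const c), md.eq_1 n fun _ => c, integral_mul_const]
    rcases eq_or_ne n 0 with rfl | hn
    · simp [hx.2]
    · rw [hx.1 n hn, integral_fourier (neg_ne_zero.2 hn), zero_mul, sub_zero]
  simp only [h3, norm_zero, ne_eq, OfNat.ofNat_ne_zero, not_false_eq_true, zero_pow] at h2
  filter_upwards [(integral_eq_zero_iff_of_nonneg (fun q => sq_nonneg _)
    (((b1.sub (BM.const c)).comp measurable_prodMk_left).norm.sq.int hc)).1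
    (h2.unique hasSum_zero)] with θ hθ
  rw [← sub_eq_zero.1 (norm_eq_zero.1 (pow_eq_zero_iff two_ne_zero |>.1 hθ)), ofReal_re]

end

end Vale.Agent.P099
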