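import Vale.Agent.P099.Meas

open MeasureTheory Filter Topology Set Complex
open scoped RealInnerProductSpace ComplexConjugate ENNReal

namespace Vale.Agent.P099

noncomputable section

def kap (η N r : ℝ) : ℝ := min 1 (Real.log (max r η / η) / N)

def Lam (η N r : ℝ) : ℝ := if r ≤ 2 * η * Real.exp N then 2 / (N * max r η) else 0

lemma kap_nonneg {η N : ℝ} (hη : 0 < η) (hN : 0 < N) (r : ℝ) : 0 ≤ kap η N r :=
  le_min zero_le_one (div_nonneg (Real.log_nonneg ((one_le_div hη).2 (le_max_right _ _))) hN.le)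

lemma abs_kap_le {η N : ℝ} (hη : 0 < η) (hN : 0 < N) (r : ℝ) : |kap η N r| ≤ 1 := by
  rw [abs_of_nonneg (kap_nonneg hη hN r)]
  exact min_le_left _ _

lemma kap_zero {η N r : ℝ} (hη : 0 < η) (h : r ≤ η) : kap η N r = 0 := by
  simp [kap, max_eq_right h, hη.ne']

lemma kap_one {η N r : ℝ} (hη : 0 < η) (hN : 0 < N) (h : η * Real.exp N ≤ r) : kap η N r = 1 := by
  refine min_eq_left ((one_le_div hN).2 ?_)
  rw [Real.le_log_iff_exp_le (div_pos (hη.trans_le (le_max_right _ _)) hη), le_div_iff₀ hη]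
  linarith [le_max_left r η]

lemma Lam_nonneg {η N : ℝ} (hη : 0 < η) (hN : 0 < N) (r : ℝ) : 0 ≤ Lam η N r := by
  have := hη.trans_le (le_max_right r η)
  unfold Lam
  split_ifs
  · positivity
  · rfl

@[fun_prop]
lemma measurable_kap (η N : ℝ) : Measurable (kap η N) := by
  unfold kap
  fun_prop

@[fun_prop]
lemma measurable_Lam (η N : ℝ) : Measurable (Lam η N) :=
  Measurable.ite measurableSet_Iic (by fun_prop) measurable_const

lemma log_sub_le {a b m : ℝ} (hm : 0 < m) (ha : m ≤ a) (hb : m ≤ b) :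
    Real.log a - Real.log b ≤ |a - b| / m := by
  have a0 := hm.trans_le ha
  have b0 := hm.trans_le hb
  rw [← Real.log_div a0.ne' b0.ne']
  refine (Real.log_le_sub_one_of_pos (by positivity)).trans ?_
  rw [div_sub_one b0.ne']
  exact (div_le_div_of_nonneg_right (le_abs_self _) b0.le).trans
    (div_le_div_of_nonneg_left (abs_nonneg _) hm hb)

lemma kap_lip {η N r a b : ℝ} (hη : 0 < η) (hN : 0 < N) (ha : |a - r| ≤ η / 2)
    (hb : |b - r| ≤ η / 2) : |kap η N a - kap η N b| ≤ Lam η N r * |a - b| := by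
  rw [abs_le] at ha hb
  unfold Lam
  split_ifs with h
  · have m0 : 0 < max r η / 2 := half_pos (hη.trans_le (le_max_right _ _))
    have k : ∀ c, -(η / 2) ≤ c - r → max r η / 2 ≤ max c η := fun c hc => by
      rcases le_total r η with h | h
      · rw [max_eq_right h]
        linarith [le_max_right c η]
      · rw [max_eq_left h]
        linarith [le_max_left c η]
    have p : ∀ c, max c η ≠ 0 := fun c => (hη.trans_le (le_max_right _ _)).ne'
    have h1 := log_sub_le m0 (k a ha.1) (k b hb.1)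
    have h2 := log_sub_le m0 (k b hb.1) (k a ha.1)
    rw [abs_sub_comm] at h2
    have h3 : |max a η - max b η| / (max r η / 2) ≤ |a - b| / (max r η / 2) :=
      div_le_div_of_nonneg_right (abs_max_sub_max_le_abs _ _ _) m0.le
    refine (abs_min_sub_min_le_max _ _ _ _).trans ?_
    rw [sub_self, abs_zero, max_eq_right (abs_nonneg _), ← sub_div, Real.log_div (p a) hη.ne',
      Real.log_div (p b) hη.ne', abs_div, abs_of_pos hN, div_le_iff₀ hN]
    have e : 2 / (N * max r η) * |a - b| * N = |a - b| / (max r η / 2) := by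
      have := p r
      field_simp
    rw [e, abs_le]
    constructor <;> linarith
  · have h1 : η ≤ η * Real.exp N := le_mul_of_one_le_right hη.le (Real.one_le_exp hN.le)
    push Not at h
    rw [kap_one hη hN (by linarith), kap_one hη hN (by linarith)]
    simp

lemma dyad {η r : ℝ} (hη : 0 < η) (J : ℕ) (h : r ≤ 2 ^ J * η) : 1 / max r η ^ 2 ≤
    ∑ j ∈ Finset.range (J + 1), if r ≤ 2 ^ j * η then 4 / (2 ^ j * η) ^ 2 else 0 := by
  have nn : ∀ j : ℕ, 0 ≤ if r ≤ 2 ^ j * η then 4 / (2 ^ j * η) ^ 2 else 0 := fun j => by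
    split_ifs
    · positivity
    · rfl
  induction J with
  | zero =>
    rw [pow_zero, one_mul] at h
    simp only [zero_add, Finset.sum_range_one, pow_zero, one_mul, if_pos h, max_eq_right h]
    exact div_le_div_of_nonneg_right (by norm_num) (by positivity)
  | succ J ih =>
    rw [Finset.sum_range_succ]
    rcases le_total r (2 ^ J * η) with h1 | h1
    · linarith [ih h1, nn (J + 1)]
    · rw [if_pos h]
      have h2 : 1 / max r η ^ 2 ≤ 1 / (2 ^ J * η) ^ 2 := by
        refine div_le_div_of_nonneg_left zero_le_one (by positivity) ?_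
        exact pow_le_pow_left₀ (by positivity) (h1.trans (le_max_left _ _)) 2
      have h3 : 1 / (2 ^ J * η) ^ 2 = 4 / (2 ^ (J + 1) * η) ^ 2 := by
        field_simp
        ring
      linarith [Finset.sum_nonneg fun j (_ : j ∈ Finset.range (J + 1)) => nn j]

lemma Lam_sq_le {η r : ℝ} (hη : 0 < η) {N : ℕ} (hN : 0 < N) : Lam η N r ^ 2 ≤ 4 / N ^ 2 *
    ∑ j ∈ Finset.range (2 * N + 1 + 1), if r ≤ 2 ^ j * η then 4 / (2 ^ j * η) ^ 2 else 0 := by
  unfold Lam
  split_ifs with h
  · have h1 : Real.exp N ≤ 2 ^ (2 * N) := by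
      rw [pow_mul, ← Real.exp_one_pow]
      exact pow_le_pow_left₀ (Real.exp_pos _).le (by linarith [Real.exp_one_lt_d9]) _
    have h2 := dyad hη (2 * N + 1) (r := r) (by rw [pow_succ]; nlinarith)
    refine le_trans (le_of_eq ?_) (mul_le_mul_of_nonneg_left h2 (by positivity))
    rw [div_pow, mul_pow, div_mul_div_comm]
    norm_num
  · rw [zero_pow two_ne_zero]
    refine mul_nonneg (by positivity) (Finset.sum_nonneg fun j _ => ?_)
    split_ifs
    · positivity
    · rfl

variable (A : Fin 3 → ℂ)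

def Par (b : ℝ) (v v' : Phase) : Prop := ∃ z, ‖z‖ ≤ b ∧ v' = fold A (v.1 + z, v.2)

def DD (w : ℝ) (v : Phase) : ℝ := ⨅ a : ℝ, max (|a| * w) (rad A (flow A a v).1 / w)

variable {A}

lemma DD_bdd {w : ℝ} (hw : 0 < w) (v : Phase) :
    BddBelow (range fun a : ℝ => max (|a| * w) (rad A (flow A a v).1 / w)) :=
  ⟨0, by
    rintro _ ⟨a, rfl⟩
    exact le_max_of_le_left (by positivity)⟩

lemma DD_le {w : ℝ} (hw : 0 < w) (v : Phase) (a : ℝ) :
    DD A w v ≤ max (|a| * w) (rad A (flow A a v).1 / w) := ciInf_le (DD_bdd hw v) a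

lemma DD_le_rad {w : ℝ} (hw : 0 < w) {v : Phase} (h : 0 ≤ rad A v.1) :
    DD A w v ≤ rad A v.1 / w := by
  have := DD_le (A := A) hw v 0
  rwa [abs_zero, zero_mul, flow_zero, max_eq_right (by positivity)] at this

variable (hA : ar A ≠ 0)
include hA

lemma par_step {v v' : Phase} (hv : v ∈ Good A) (hv' : v' ∈ Good A) {s b : ℝ}
    (hs : |s| + b < rad A v.1) (h : Par A b v v') : Par A b (flow A s v) (flow A s v') := by
  obtain ⟨z, hz, rfl⟩ := h
  have hx := (Good.z0 hA hv).1
  obtain ⟨i, hi⟩ := chart hA hx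
  have z0 := norm_nonneg z
  have s0 := abs_nonneg s
  have e : mv s (v.1 + z, v.2) = ((mv s v).1 + z, (mv s v).2) := by
    simp only [mv, add_right_comm]
  have n1 : ∀ p u : ℂ, ‖p - v.1‖ ≤ |s| → ‖u‖ ≤ b → ‖p + u - v.1‖ < rad A v.1 := fun p u h1 h2 => by
    rw [add_sub_right_comm]
    linarith [norm_add_le (p - v.1) u]
  have n2 := n1 _ z (norm_mv s v).le hz
  rw [flow_chart hA hx (by simp only [add_sub_cancel_left]; linarith) hv' (by rwa [e]),
    flow_step hA hv (by linarith), fold_eq (hi _ (by rw [norm_mv]; linarith)), e]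
  have n3 := norm_foldi_le hA (i := i) hx (mv s v)
  rw [norm_mv] at n3
  unfold foldi at n3 ⊢
  split_ifs at n3 ⊢
  · refine ⟨rl A i z, by rwa [norm_rl], ?_⟩
    rw [fold_eq (hi _ n2), fold_eq (hi _ (n1 _ _ n3 (by rwa [norm_rl]))), ← foldi_refl hA]
    simp only [refl, rp_add]
  · exact ⟨z, hz, rfl⟩

lemma par_symm {v v' : Phase} (hv : v ∈ Z0 A) {b : ℝ} (hb : 2 * b < rad A v.1)
    (h : Par A b v v') : Par A b v' v := by
  obtain ⟨z, hz, rfl⟩ := h
  obtain ⟨i, hi⟩ := chart hA hv.1
  have z0 := norm_nonneg z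
  have n3 := norm_foldi_le hA (i := i) hv.1 (v.1 + z, v.2)
  rw [fold_eq (hi _ (by simp only [add_sub_cancel_left]; linarith))]
  simp only [add_sub_cancel_left] at n3
  unfold foldi at n3 ⊢
  split_ifs at n3 ⊢
  · refine ⟨-rl A i z, by rwa [norm_neg, norm_rl], ?_⟩
    have e : ((refl A i (v.1 + z, v.2)).1 + -rl A i z, (refl A i (v.1 + z, v.2)).2) =
        refl A i v := by simp only [refl, rp_add, add_neg_cancel_right]
    have n4 : ‖(refl A i v).1 - v.1‖ < rad A v.1 := by
      rw [← e, add_sub_right_comm]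
      have := norm_add_le ((refl A i (v.1 + z, v.2)).1 - v.1) (-rl A i z)
      rw [norm_neg, norm_rl] at this
      linarith
    rw [e, fold_eq (hi _ n4), foldi_refl hA, foldi, if_neg (hv.2.2 i)]
  · exact ⟨-z, by rwa [norm_neg], by simp [fold_of_not_out hv.2.2]⟩

lemma par_long {v v' : Phase} (hv : v ∈ Good A) (hv' : v' ∈ Good A) {b T : ℝ}
    (hb : ∀ a, |a| < T → b < rad A (flow A a v).1) (h : Par A b v v') {a : ℝ} (ha : |a| < T) :
    Par A b (flow A a v) (flow A a v') := by
  have T0 : 0 < T := (abs_nonneg a).trans_lt ha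
  have key : ∀ s t, |t - s| + b < rad A (flow A s v).1 →
      Par A b (flow A s v) (flow A s v') → Par A b (flow A t v) (flow A t v') := fun s t h1 h2 => by
    have := par_step hA (flow_good hA hv s) (flow_good hA hv' s) h1 h2
    rwa [flow_add hA, flow_add hA, sub_add_cancel] at this
  refine (isPreconnected_Ioo (a := -T) (b := T)).induction₂'
    (fun s t => Par A b (flow A s v) (flow A s v') → Par A b (flow A t v) (flow A t v'))
    (fun t ht => ?_) (fun _ _ _ _ _ _ h1 h2 h3 => h2 (h1 h3)) (x := 0) ⟨by linarith, T0⟩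
    (abs_lt.1 ha) (by rwa [flow_zero, flow_zero])
  refine Eventually.filter_mono nhdsWithin_le_nhds ?_
  have h0 := hb t (abs_lt.2 ht)
  have c1 : Continuous fun s : ℝ => |s - t| + b := by fun_prop
  have c2 : Continuous fun s : ℝ => |t - s| + b := by fun_prop
  filter_upwards [c1.continuousAt.eventually_lt (x₀ := t) continuousAt_const (by simpa using h0),
    c2.continuousAt.eventually_lt (x₀ := t)
      (continuous_rad.comp (continuous_flow_pos hA v)).continuousAt (by simpa using h0)]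
    with s h1 h2
  exact ⟨key t s h1, key s t h2⟩

lemma DD_par_le {w : ℝ} (hw : 0 < w) {v v' : Phase} (hv : v ∈ Good A) (hv' : v' ∈ Good A)
    {b : ℝ} (h : Par A b v v') : DD A w v - b / w ≤ DD A w v' := by
  have b0 : 0 ≤ b := by
    obtain ⟨z, hz, -⟩ := h
    exact (norm_nonneg z).trans hz
  have b1 : 0 ≤ b / w := by positivity
  refine le_ciInf fun a => ?_
  rcases le_or_gt (DD A w v) (b / w) with h0 | h0
  · exact le_max_of_le_left (le_trans (by linarith) (by positivity : 0 ≤ |a| * w))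
  rcases le_or_gt (DD A w v) (|a| * w) with h1 | h1
  · exact le_max_of_le_left (by linarith)
  have k : ∀ a, |a| < DD A w v / w → DD A w v ≤ rad A (flow A a v).1 / w := fun a ha =>
    (le_max_iff.1 (DD_le hw v a)).resolve_left (not_le.2 ((lt_div_iff₀ hw).1 ha))
  have k2 : ∀ a, |a| < DD A w v / w → b < rad A (flow A a v).1 := fun a ha =>
    (div_lt_div_iff_of_pos_right hw).1 (h0.trans_le (k a ha))
  have ha := (lt_div_iff₀ hw).2 h1
  obtain ⟨z, hz, e⟩ := par_long hA hv hv' k2 h ha
  have h2 := norm_fold_le hA (Good.z0 hA (flow_good hA hv a)).1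
    (w := ((flow A a v).1 + z, (flow A a v).2)) (by simpa using hz.trans_lt (k2 a ha))
  have h3 := rad_le hA (flow A a v).1 (flow A a v').1
  rw [← e, add_sub_cancel_left, norm_sub_rev] at h2
  refine le_max_of_le_right ((sub_le_sub_right (k a ha) _).trans ?_)
  rw [← sub_div]
  exact div_le_div_of_nonneg_right (by linarith) hw.le

lemma DD_par {w : ℝ} (hw : 0 < w) {v v' : Phase} (hv : v ∈ Good A) (hv' : v' ∈ Good A)
    {b : ℝ} (hb : 2 * b < rad A v.1) (h : Par A b v v') : |DD A w v' - DD A w v| ≤ b / w := by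
  have h1 := DD_par_le hA hw hv hv' h
  have h2 := DD_par_le hA hw hv' hv (par_symm hA (Good.z0 hA hv) hb h)
  rw [abs_le]
  constructor <;> linarith

lemma DD_flow_le {w : ℝ} (hw : 0 < w) (v : Phase) (t : ℝ) :
    DD A w (flow A t v) - |t| * w ≤ DD A w v := by
  refine le_ciInf fun a => ?_
  have h := DD_le (A := A) hw (flow A t v) (a - t)
  rw [flow_add hA, sub_add_cancel] at h
  have h1 : |a - t| * w ≤ |a| * w + |t| * w := by
    rw [← add_mul]
    exact mul_le_mul_of_nonneg_right (abs_sub _ _) hw.le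
  have h2 : 0 ≤ |t| * w := by positivity
  rcases le_max_iff.1 h with h | h
  · exact le_max_of_le_left (by linarith)
  · exact le_max_of_le_right (by linarith)

lemma DD_flow {w : ℝ} (hw : 0 < w) (v : Phase) (t : ℝ) :
    |DD A w (flow A t v) - DD A w v| ≤ |t| * w := by
  have h1 := DD_flow_le hA hw v t
  have h2 := DD_flow_le hA hw (flow A t v) (-t)
  rw [flow_add hA, neg_add_cancel, flow_zero, abs_neg] at h2
  rw [abs_le]
  constructor <;> linarith

lemma measurable_DD (w : ℝ) : Measurable (DD A w) := by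
  have hS : Dense (range ((↑) : ℚ → ℝ)) := Rat.denseRange_cast
  have : Countable (range ((↑) : ℚ → ℝ)) := (countable_range _).to_subtype
  have e : DD A w = fun v => ⨅ a : range ((↑) : ℚ → ℝ),
      max (|(a : ℝ)| * w) (rad A (flow A a v).1 / w) := by
    ext v
    have c := continuous_flow_pos hA v
    exact (hS.ciInf' (f := fun a : ℝ => max (|a| * w) (rad A (flow A a v).1 / w))
      (by fun_prop)).symm
  rw [e]
  refine Measurable.iInf fun a => measurable_const.max (Measurable.div_const ?_ _)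
  exact continuous_rad.measurable.comp (measurable_flow' hA a).fst

lemma DD_meas : ∃ C : ℝ, 0 ≤ C ∧ ∀ w, 0 < w → w ≤ 1 → ∀ r, 0 < r →
    (liouville A).real {v | DD A w v ≤ r} ≤ C * r ^ 2 := by
  obtain ⟨C, C0, hC⟩ := vol_rad hA
  have := prob_liouville hA
  refine ⟨80 * ((volume (QQ A))⁻¹.toReal * C), by positivity, fun w hw hw1 r hr => ?_⟩
  obtain ⟨h, hh⟩ : ∃ h, h = 2 * r * w := ⟨_, rfl⟩
  have h0 : 0 < h := by rw [hh]; positivity
  let E : Set Phase := {x | x ∈ KK A ∧ rad A x ≤ 2 * h} ×ˢ univ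
  have hE0 : MeasurableSet {x | x ∈ KK A ∧ rad A x ≤ 2 * h} :=
    isClosed_KK.measurableSet.inter (isClosed_le continuous_rad continuous_const).measurableSet
  have hE : MeasurableSet E := hE0.prod MeasurableSet.univ
  have h1 : (liouville A).real E ≤ (volume (QQ A))⁻¹.toReal * (C * (2 * h) ^ 2) := by
    change ((qq A).prod hc).real E ≤ _
    rw [measureReal_def, Measure.prod_prod, measure_univ, mul_one, qq_eq hA, Measure.smul_apply,
      smul_eq_mul, ENNReal.toReal_mul]
    refine mul_le_mul_of_nonneg_left (ENNReal.toReal_le_of_le_ofReal (by positivity) ?_)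
      ENNReal.toReal_nonneg
    exact (Measure.restrict_le_self _).trans (hC _ (by positivity))
  have w2 : 1 ≤ 1 / w ^ 2 := by
    rw [le_div_iff₀ (by positivity)]
    nlinarith
  let M : ℕ := ⌈1 / w ^ 2⌉₊
  have hM : 1 / w ^ 2 ≤ M := Nat.le_ceil _
  have hM' : (M : ℝ) < 1 / w ^ 2 + 1 := Nat.ceil_lt_add_one (by positivity)
  have h2 : {v | DD A w v ≤ r} ≤ᵐ[liouville A]
      (⋃ j ∈ Finset.Icc (-M : ℤ) M, flow A (j * h) ⁻¹' E : Set Phase) := by
    filter_upwards [ae_good hA] with v hv hD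
    obtain ⟨a, ha⟩ := exists_lt_of_ciInf_lt (lt_of_le_of_lt hD (by linarith : r < 2 * r))
    rw [max_lt_iff, div_lt_iff₀ hw, ← hh] at ha
    have a1 : |a / h| < 1 / w ^ 2 := by
      rw [abs_div, abs_of_pos h0, div_lt_div_iff₀ h0 (by positivity), hh]
      nlinarith [mul_lt_mul_of_pos_right ha.1 hw]
    rw [abs_lt] at a1
    have a2 := Int.floor_le (a / h)
    have a3 := Int.lt_floor_add_one (a / h)
    refine mem_iUnion₂.2 ⟨⌊a / h⌋, Finset.mem_Icc.2 ⟨?_, ?_⟩,
      ⟨(Good.z0 hA (flow_good hA hv _)).1, ?_⟩, trivial⟩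
    · rw [Int.le_floor]
      push_cast
      linarith
    · have : (⌊a / h⌋ : ℝ) ≤ (M : ℤ) := by push_cast; linarith
      exact_mod_cast this
    · by_contra hc
      push Not at hc
      rw [le_div_iff₀ h0] at a2
      rw [div_lt_iff₀ h0] at a3
      have a4 : |a - ⌊a / h⌋ * h| ≤ h := abs_le.2 ⟨by linarith, by linarith⟩
      have a5 := norm_flow_le hA (flow_good hA hv (⌊a / h⌋ * h)) (s := a - ⌊a / h⌋ * h)
        (by linarith)
      rw [flow_add hA, sub_add_cancel, norm_sub_rev] at a5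
      linarith [rad_le hA (flow A (⌊a / h⌋ * h) v).1 (flow A a v).1]
  refine (ENNReal.toReal_mono (measure_ne_top _ _) (measure_mono_ae h2)).trans
    ((measureReal_biUnion_finset_le _ _).trans ?_)
  simp only [(mp_flow hA _).measureReal_preimage hE.nullMeasurableSet, Finset.sum_const,
    Int.card_Icc, nsmul_eq_mul]
  have h3 : (((M : ℤ) + 1 - -M).toNat : ℝ) ≤ 5 / w ^ 2 := by
    have : ((M : ℤ) + 1 - -M).toNat = 2 * M + 1 := by omega
    rw [this, show 5 / w ^ 2 = 5 * (1 / w ^ 2) by ring]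
    push_cast
    linarith
  refine (mul_le_mul h3 h1 measureReal_nonneg (by positivity)).trans (le_of_eq ?_)
  rw [hh]
  field_simp
  ring

lemma int_Lam : ∃ C : ℝ, 0 ≤ C ∧ ∀ w, 0 < w → w ≤ 1 → ∀ η, 0 < η → ∀ N : ℕ, 0 < N →
    ∫ v, Lam η N (DD A w v) ^ 2 ∂liouville A ≤ C / N := by
  obtain ⟨C, C0, hC⟩ := DD_meas hA
  have := prob_liouville hA
  refine ⟨64 * C, by positivity, fun w hw hw1 η hη N hN => ?_⟩
  have hm : ∀ j : ℕ, MeasurableSet {v | DD A w v ≤ 2 ^ j * η} := fun j =>
    measurableSet_le (measurable_DD hA w) measurable_const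
  have e : ∀ j : ℕ, (fun v => if DD A w v ≤ 2 ^ j * η then 4 / (2 ^ j * η) ^ 2 else 0) =
      indicator {v | DD A w v ≤ 2 ^ j * η} fun _ => 4 / (2 ^ j * η) ^ 2 := fun j => by
    ext v
    simp [indicator]
  have hi : ∀ j : ℕ, Integrable
      (fun v => if DD A w v ≤ 2 ^ j * η then 4 / (2 ^ j * η) ^ 2 else 0) (liouville A) :=
    fun j => e j ▸ (integrable_const _).indicator (hm j)
  refine (integral_mono_of_nonneg (ae_of_all _ fun v => sq_nonneg _)
    ((integrable_finset_sum _ fun j _ => hi j).const_mul _)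
    (ae_of_all _ fun v => Lam_sq_le hη hN)).trans ?_
  rw [integral_const_mul, integral_finset_sum _ fun j _ => hi j]
  have h1 : ∀ j ∈ Finset.range (2 * N + 1 + 1), ∫ v, (if DD A w v ≤ 2 ^ j * η then
      4 / (2 ^ j * η) ^ 2 else 0) ∂liouville A ≤ 4 * C := fun j _ => by
    rw [e, integral_indicator_const _ (hm j), smul_eq_mul]
    refine (mul_le_mul_of_nonneg_right (hC w hw hw1 _ (by positivity)) (by positivity)).trans
      (le_of_eq ?_)
    field_simp
  refine (mul_le_mul_of_nonneg_left (Finset.sum_le_card_nsmul _ _ _ h1) (by positivity)).trans ?_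
  have N1 : (1 : ℝ) ≤ N := by exact_mod_cast hN
  rw [Finset.card_range, nsmul_eq_mul, div_mul_eq_mul_div, div_le_div_iff₀ (by positivity)
    (by positivity)]
  push_cast
  nlinarith [mul_nonneg (mul_nonneg C0 (sub_nonneg.2 N1)) (zero_le_one.trans N1)]

end

end Vale.Agent.P099
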