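import Mathlib

open MeasureTheory Filter Topology Set
open scoped RealInnerProductSpace

namespace Vale.Agent.P099

noncomputable section

/-- A phase point: a position in the Euclidean plane `ℂ` and a direction in `ℝ/ℤ`. -/
abbrev Phase : Type := ℂ × UnitAddCircle

/-- The unit velocity `exp (2 π i θ)` of the direction `θ`. -/
def vel (θ : UnitAddCircle) : ℂ := (AddCircle.toCircle θ : ℂ)

/-- The open triangle with vertices `A 0, A 1, A 2`. -/
def table (A : Fin 3 → ℂ) : Set ℂ := interior (convexHull ℝ (range A))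

/-- `γ` is a billiard trajectory defined for all times that never meets a vertex. -/
def IsOrbit (A : Fin 3 → ℂ) (γ : ℝ → Phase) : Prop :=
  ∀ t : ℝ,
    ((γ t).1 ∈ table A ∧
      ∀ᶠ s in 𝓝 t, γ s = ((γ t).1 + (s - t) • vel (γ t).2, (γ t).2)) ∨
    ∃ i j, i ≠ j ∧ (γ t).1 ∈ openSegment ℝ (A i) (A j) ∧ ∃ θ : UnitAddCircle,
      ⟪vel θ, A j - A i⟫ = ⟪vel (γ t).2, A j - A i⟫ ∧
      ⟪vel θ, Complex.I * (A j - A i)⟫ = -⟪vel (γ t).2, Complex.I * (A j - A i)⟫ ∧
      (∀ᶠ s in 𝓝[<] t, γ s = ((γ t).1 + (s - t) • vel θ, θ)) ∧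
      ∀ᶠ s in 𝓝[>] t, γ s = ((γ t).1 + (s - t) • vel (γ t).2, (γ t).2)

open Classical in
/-- The billiard flow; points without a global vertex-free trajectory are left fixed. -/
def flow (A : Fin 3 → ℂ) (t : ℝ) (v : Phase) : Phase :=
  if h : ∃ γ, IsOrbit A γ ∧ γ 0 = v then h.choose t else v

/-- Normalized area on the triangle times the uniform measure on directions. -/
def liouville (A : Fin 3 → ℂ) : Measure Phase :=
  ((volume (table A))⁻¹ • volume.restrict (table A)).prod AddCircle.haarAddCircle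

/-- Ergodicity of a flow. -/
def IsErgodicFlow {X : Type} [MeasurableSpace X] (Φ : ℝ → X → X) (μ : Measure X) : Prop :=
  ∀ B : Set X, NullMeasurableSet B μ → (∀ t, μ (symmDiff (Φ t ⁻¹' B) B) = 0) →
    μ B = 0 ∨ μ B = 1

end

end Vale.Agent.P099
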