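import Vale.Agent.P099.Moll
import Vale.Agent.P099.Cut

open MeasureTheory Filter Topology Set Complex Metric
open scoped RealInnerProductSpace ComplexConjugate ENNReal ContDiff

namespace Vale.Agent.P099

noncomputable section

abbrev mB : Measure ℂ := volume.restrict (closedBall 0 1)

lemma fin_mB : IsFiniteMeasure mB := isFiniteMeasure_restrict.2 measure_closedBall_lt_top.ne

lemma real_ball (x : ℂ) {r : ℝ} (hr : 0 ≤ r) : volume.real (closedBall x r) = r ^ 2 * Real.pi := by
  simp [measureReal_def, Complex.volume_closedBall, hr]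

lemma ldt {φ : ℂ → ℝ} (h : BM φ) :
    ∀ᵐ x, Tendsto (fun d : ℝ => ∫ z, |φ (x - d • z) - φ x| ∂mB) (𝓝[>] 0) (𝓝 0) := by
  obtain ⟨C, hC⟩ := h.2
  filter_upwards [IsUnifLocDoublingMeasure.ae_tendsto_average_norm_sub volume
    ((memLp_top_of_bound h.1.aestronglyMeasurable C (ae_of_all _ hC)).locallyIntegrable le_top) 1]
    with x hx
  have h1 := (hx (fun _ => x) id tendsto_id (eventually_mem_nhdsWithin.mono fun d hd =>
    mem_closedBall_self (by simpa using hd.le))).const_mul Real.pi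
  rw [mul_zero] at h1
  refine h1.congr' (eventually_mem_nhdsWithin.mono fun d (hd : 0 < d) => ?_)
  have e := Measure.setIntegral_comp_smul_of_pos volume (fun z => |φ (x - z) - φ x|)
    (closedBall (0 : ℂ) 1) hd
  have e2 := (Measure.measurePreserving_sub_left volume x).setIntegral_preimage_emb
    (MeasurableEquiv.subLeft x).measurableEmbedding (fun y => |φ y - φ x|) (closedBall x d)
  have e3 : (fun t => x - t) ⁻¹' closedBall x d = closedBall 0 d := by
    ext t
    simp [dist_eq_norm]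
  rw [smul_unitClosedBall_of_nonneg hd.le] at e
  dsimp only
  rw [e, ← e3, e2, setAverage_eq, id, real_ball x hd.le, finrank_real_complex]
  simp only [Real.norm_eq_abs, smul_eq_mul]
  have := Real.pi_pos
  field_simp

variable (A : Fin 3 → ℂ)

def lf (d η N w : ℝ) (φ : Phase → ℝ) (q : Phase) : ℂ :=
  if 4 * d ≤ rad A q.1 then ((kap η N (DD A w (fold A q)) * φ (fold A q) : ℝ) : ℂ) else 0

def osc (d : ℝ) (φ : Phase → ℝ) (v : Phase) : ℝ :=
  ∫ z, |φ (fold A (v.1 - d • z, v.2)) - φ v| ∂mB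

def Nice (d : ℝ) (v : Phase) : Prop :=
  v ∈ Good A ∧ ∀ᵐ z : ℂ, fold A (v.1 - d • z, v.2) ∈ Z0 A → fold A (v.1 - d • z, v.2) ∈ Good A

variable {A}

lemma osc_nonneg (d : ℝ) (φ : Phase → ℝ) (v : Phase) : 0 ≤ osc A d φ v :=
  integral_nonneg fun _ => abs_nonneg _

lemma osc_le (d : ℝ) {φ : Phase → ℝ} (h : ∀ v, |φ v| ≤ 1) (v : Phase) : osc A d φ v ≤ 8 := by
  have := fin_mB
  have h1 := norm_integral_le_of_norm_le_const (μ := mB) (C := 2)
    (f := fun z => |φ (fold A (v.1 - d • z, v.2)) - φ v|) (ae_of_all _ fun z => by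
      rw [Real.norm_eq_abs, abs_abs]
      linarith [abs_sub (φ (fold A (v.1 - d • z, v.2))) (φ v), h v, h (fold A (v.1 - d • z, v.2))])
  rw [measureReal_restrict_apply_univ, real_ball _ zero_le_one] at h1
  exact ((le_abs_self _).trans h1).trans (by nlinarith [Real.pi_le_four])

lemma BM.osc {Y : Type} [MeasurableSpace Y] {f : Y → Phase → ℝ}
    (h : BM fun q : Y × Phase => f q.1 q.2) (d : ℝ) :
    BM fun q : Y × Phase => osc A d (f q.1) q.2 :=
  have := fin_mB
  BM.integral (F := fun r : (Y × Phase) × ℂ =>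
    |f r.1.1 (fold A (r.1.2.1 - d • r.2, r.1.2.2)) - f r.1.1 r.1.2|)
    ((h.comp (g := fun r : (Y × Phase) × ℂ => (r.1.1, fold A (r.1.2.1 - d • r.2, r.1.2.2)))
      (by fun_prop)).sub (h.comp measurable_fst)).norm mB

lemma lf_taylor {d η N w : ℝ} (hη : 0 < η) (hN : 0 < N) {φ₁ φ₂ φ₃ : Phase → ℝ} {s e : ℝ}
    (h : ∀ v, |φ₁ v - φ₂ v - s * φ₃ v| ≤ e) (q : Phase) :
    ‖lf A d η N w φ₁ q - lf A d η N w φ₂ q - s * lf A d η N w φ₃ q‖ ≤ e := by
  unfold lf
  split_ifs
  · rw [← ofReal_mul, ← ofReal_sub, ← ofReal_sub, norm_real, Real.norm_eq_abs, mul_left_comm,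
      ← mul_sub, ← mul_sub, abs_mul]
    exact (mul_le_of_le_one_left (abs_nonneg _) (abs_kap_le hη hN _)).trans (h _)
  · simpa using (abs_nonneg _).trans (h q)

lemma norm_lf_le {d η N w : ℝ} (hη : 0 < η) (hN : 0 < N) {φ : Phase → ℝ} {e : ℝ}
    (h : ∀ v, |φ v| ≤ e) (q : Phase) : ‖lf A d η N w φ q‖ ≤ e := by
  have := lf_taylor (A := A) (d := d) (w := w) hη hN (φ₁ := φ) (φ₂ := fun _ => 0)
    (φ₃ := fun _ => 0) (s := 0) (by simpa using h) q
  simpa [lf] using this

variable (hA : ar A ≠ 0)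
include hA

lemma BM.lf {Y : Type} [MeasurableSpace Y] {f : Y → Phase → ℝ}
    (h : BM fun q : Y × Phase => f q.1 q.2) (d : ℝ) {η N : ℝ} (hη : 0 < η) (hN : 0 < N) (w : ℝ) :
    BM fun q : Y × Phase => lf A d η N w (f q.1) q.2 := by
  obtain ⟨C, hC⟩ := h.2
  refine ⟨Measurable.ite (isClosed_le (f := fun _ => 4 * d) (g := fun q : Phase => rad A q.1)
    (by fun_prop) (by fun_prop) |>.measurableSet.preimage measurable_snd)
    (measurable_ofReal.comp (Measurable.mul ?_ ?_)) measurable_const, C,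
    fun q => norm_lf_le hη hN (fun v => hC (q.1, v)) _⟩
  · have := measurable_DD hA w
    fun_prop
  · exact h.1.comp (f := fun q : Y × Phase => (q.1, fold A q.2)) (by fun_prop)

lemma BM.lf' {φ : Phase → ℝ} (h : BM φ) (d : ℝ) {η N : ℝ} (hη : 0 < η) (hN : 0 < N) (w : ℝ) :
    BM (P099.lf A d η N w φ) :=
  (BM.lf hA (f := fun _ : Unit => φ) (h.comp measurable_snd) d hη hN w).comp (g := Prod.mk ())
    measurable_prodMk_left

lemma ae_nice {d : ℝ} (hd : d ≠ 0) : ∀ᵐ v ∂liouville A, Nice A d v := by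
  have h : ∀ᵐ v ∂(qq A).prod hc, ∀ᵐ p : ℂ, fold A (p, v.2) ∈ Z0 A → fold A (p, v.2) ∈ Good A :=
    Measure.quasiMeasurePreserving_snd.ae (ae_fold_good hA)
  filter_upwards [ae_good hA, h] with v h1 h2
  exact ⟨h1, ((quasiMeasurePreserving_sub_left volume v.1).comp
    (Measure.quasiMeasurePreserving_smul volume hd)).ae h2⟩

lemma lf_far {d η N w : ℝ} {x : ℂ} (h : 5 * d < rad A x) {q : Phase} (hq : ‖q.1 - x‖ ≤ 2 * d)
    (φ : Phase → ℝ) :
    lf A d η N w φ q = ((kap η N (DD A w (fold A q)) * φ (fold A q) : ℝ) : ℂ) := by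
  have := rad_le hA x q.1
  rw [norm_sub_rev] at this
  exact if_pos (by linarith)

lemma lf_near {d η N w : ℝ} (hη : 0 < η) (hw : 0 < w) (hd : 6 * d = η * w) {x : ℂ}
    (hx : x ∈ KK A) (h : rad A x ≤ 5 * d) {q : Phase} (hq : ‖q.1 - x‖ ≤ 2 * d) (φ : Phase → ℝ) :
    lf A d η N w φ q = 0 := by
  have d0 : 0 < d := by nlinarith [mul_pos hη hw]
  unfold lf
  split_ifs with h1
  · have h2 : ‖q.1 - x‖ < rad A x := by linarith [rad_le hA q.1 x]
    have h3 := norm_fold_le hA hx h2
    have h4 := rad_le hA (fold A q).1 x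
    have h5 := DD_le_rad hw (fold_mem hA hx h2).2.1.le
    rw [kap_zero hη (h5.trans ((div_le_iff₀ hw).2 (by linarith)))]
    simp
  · rfl

lemma lf_refl {d η N w : ℝ} (hη : 0 < η) (hw : 0 < w) (hd : 6 * d = η * w) {i : Fin 3} {x : ℂ}
    (hx : Side A i x) {q : Phase} (hq : ‖q.1 - x‖ ≤ 2 * d) (φ : Phase → ℝ) :
    lf A d η N w φ (refl A i q) = lf A d η N w φ q := by
  have d0 : 0 < d := by nlinarith [mul_pos hη hw]
  have h0 : x ∈ KK A := fun j => by
    rcases eq_or_ne j i with rfl | h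
    exacts [hx.1.ge, (hx.2 j h).le]
  have h1 : ‖(refl A i q).1 - x‖ ≤ 2 * d := by
    rwa [← rp_eq_self hA hx.1, refl, rp_sub, norm_rl]
  rcases le_or_gt (rad A x) (5 * d) with h | h
  · rw [lf_near hA hη hw hd h0 h hq, lf_near hA hη hw hd h0 h h1]
  obtain ⟨j, hj⟩ := chart hA h0
  obtain rfl : i = j := by
    by_contra hc
    exact (hj x (by simpa using by linarith) i hc).ne' hx.1
  rw [lf_far hA h hq, lf_far hA h h1, fold_eq (hj _ (by linarith)), fold_eq (hj _ (by linarith)),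
    foldi_refl hA]

lemma md_symm {d η N w : ℝ} (hη : 0 < η) (hw : 0 < w) (hd : 6 * d = η * w) {ρ : ℝ → ℝ}
    (hρ : Ker fun z => ρ ‖z‖) {i : Fin 3} {x : ℂ} (hx : Side A i x) (φ : Phase → ℝ) (n : ℤ) :
    md n (cp (fun z => ρ ‖z‖) d (lf A d η N w φ)) x =
      fourier (-n) (be A i) * conj (md n (cp (fun z => ρ ‖z‖) d (lf A d η N w φ)) x) := by
  have d0 : 0 < d := by nlinarith [mul_pos hη hw]
  generalize hU : cp (fun z => ρ ‖z‖) d (lf A d η N w φ) = U
  have h1 : ∀ θ, U (x, be A i - θ) = U (x, θ) := fun θ => by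
    simp only [← hU, cp, cv]
    rw [← (conjLIE.trans (rotation (AddCircle.toCircle (be A i)))).measurePreserving.integral_comp
      (conjLIE.trans (rotation (AddCircle.toCircle (be A i)))).toHomeomorph.measurableEmbedding]
    refine integral_congr_ae (ae_of_all _ fun z => ?_)
    change (ρ ‖rl A i z‖ : ℂ) * lf A d η N w φ (x - d • rl A i z, be A i - θ) = _
    rw [norm_rl]
    by_cases h0 : (ρ ‖z‖ : ℂ) = 0
    · simp only [h0, zero_mul]
    have h2 := hρ.le h0
    dsimp only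
    rw [← lf_refl hA hη hw hd hx (q := (x - d • z, θ)) (by
      rw [sub_sub_cancel_left, norm_neg, norm_smul, Real.norm_of_nonneg d0.le]
      nlinarith), refl, sub_eq_add_neg x (d • z), rp_add, rp_eq_self hA hx.1, ← neg_smul, rl_smul,
      neg_smul, ← sub_eq_add_neg]
  have h2 : ∀ v, conj (U v) = U v := fun v => by
    simp only [← hU, cp, cv, ← integral_conj, map_mul, conj_ofReal]
    congr 1
    ext z
    unfold lf
    split_ifs
    · rw [conj_ofReal]
    · rw [map_zero]
  simp only [md, ← integral_conj, map_mul, h2, ← integral_const_mul]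
  rw [← integral_sub_left_eq_self _ hc (be A i)]
  congr 1
  ext θ
  rw [h1, ← mul_assoc]
  congr 1
  simp only [fourier_apply, smul_sub, sub_eq_add_neg, smul_add, smul_neg, AddCircle.toCircle_add,
    AddCircle.toCircle_neg, Circle.coe_mul, Circle.coe_inv_eq_conj]

lemma est_pt {d η N w : ℝ} (hη : 0 < η) (hN : 0 < N) (hw : 0 < w) (hd : 6 * d = η * w)
    {φ : Phase → ℝ} (h1 : ∀ v, |φ v| ≤ 1) {v : Phase} (hv : v ∈ Good A) {z : ℂ} (hz : ‖z‖ ≤ 1)
    (hg : fold A (v.1 - d • z, v.2) ∈ Z0 A → fold A (v.1 - d • z, v.2) ∈ Good A) :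
    ‖lf A d η N w φ (v.1 - d • z, v.2) - (kap η N (DD A w v) * φ v : ℝ)‖ ≤
      Lam η N (DD A w v) * (η / 6) + |φ (fold A (v.1 - d • z, v.2)) - φ v| := by
  have d0 : 0 < d := by nlinarith [mul_pos hη hw]
  have hZ := Good.z0 hA hv
  have n0 : ‖d • z‖ ≤ d := by
    rw [norm_smul, Real.norm_of_nonneg d0.le]
    nlinarith
  have n1 : ‖(v.1 - d • z, v.2).1 - v.1‖ ≤ d := by rwa [sub_sub_cancel_left, norm_neg]
  have L0 := Lam_nonneg hη hN (DD A w v)
  rcases le_or_gt (rad A v.1) (5 * d) with h | h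
  · rw [lf_near hA hη hw hd hZ.1 h (by linarith), kap_zero hη ((DD_le_rad hw hZ.2.1.le).trans
      ((div_le_iff₀ hw).2 (by linarith)))]
    simp only [zero_mul, ofReal_zero, sub_zero, norm_zero]
    positivity
  have h2 := DD_par hA hw hv (hg (fold_mem hA hZ.1 (by linarith))) (b := d) (by linarith)
    ⟨-(d • z), by rwa [norm_neg], by rw [sub_eq_add_neg]⟩
  rw [show d / w = η / 6 by field_simp; linarith] at h2
  have h3 := kap_lip hη hN (h2.trans (by linarith)) (b := DD A w v) (by simpa using by linarith)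
  rw [lf_far hA h (by linarith), ← ofReal_sub, norm_real, Real.norm_eq_abs]
  generalize fold A (v.1 - d • z, v.2) = v' at *
  rw [show kap η N (DD A w v') * φ v' - kap η N (DD A w v) * φ v =
    (kap η N (DD A w v') - kap η N (DD A w v)) * φ v' + kap η N (DD A w v) * (φ v' - φ v) by ring]
  refine (abs_add_le _ _).trans (add_le_add ?_ ?_)
  · rw [abs_mul]
    exact (mul_le_of_le_one_right (abs_nonneg _) (h1 _)).trans
      (h3.trans (mul_le_mul_of_nonneg_left h2 L0))
  · rw [abs_mul]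
    exact mul_le_of_le_one_left (abs_nonneg _) (abs_kap_le hη hN _)

lemma est_k {d η N w : ℝ} (hη : 0 < η) (hN : 0 < N) (hw : 0 < w) (hd : 6 * d = η * w)
    {φ : Phase → ℝ} (h0 : BM φ) (h1 : ∀ v, |φ v| ≤ 1) {v : Phase} (hv : Nice A d v) {k : ℂ → ℂ}
    (hk : Ker k) {C : ℝ} (hC : ∀ z, ‖k z‖ ≤ C) :
    ‖cp k d (lf A d η N w φ) v - (∫ z, k z) * (kap η N (DD A w v) * φ v : ℝ)‖ ≤
      C * (Lam η N (DD A w v) * η + osc A d φ v) := by
  have := fin_mB
  have C0 := (norm_nonneg _).trans (hC 0)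
  have L0 := Lam_nonneg hη hN (DD A w v)
  have b1 : BM fun z : ℂ => |φ (fold A (v.1 - d • z, v.2)) - φ v| :=
    ((h0.comp (by fun_prop)).sub (BM.const _)).norm
  have b2 := ((BM.const (Lam η N (DD A w v) * (η / 6))).add b1).int mB
  rw [cp, cv, ← integral_mul_const, ← integral_sub (cv_int hk d ((h0.lf' hA d hη hN w).comp
    (g := fun p => (p, v.2)) (by fun_prop)) _) (hk.int.mul_const _)]
  refine (norm_integral_le_of_norm_le ((integrable_indicator_iff measurableSet_closedBall).2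
    (b2.const_mul C)) (hv.2.mono fun z hz => ?_)).trans ?_
  · rw [← mul_sub, norm_mul]
    by_cases h : ‖z‖ ≤ 1
    · rw [indicator_of_mem (by simpa using h)]
      exact mul_le_mul (hC z) (est_pt hA hη hN hw hd h1 hv.1 h hz) (norm_nonneg _) C0
    · rw [indicator_of_notMem (by simpa using h), hk.2 z (not_le.1 h)]
      simp
  · rw [integral_indicator measurableSet_closedBall, integral_const_mul,
      integral_add (integrable_const _) (b1.int mB), integral_const,
      measureReal_restrict_apply_univ, real_ball _ zero_le_one, smul_eq_mul]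
    refine mul_le_mul_of_nonneg_left (add_le_add ?_ le_rfl) C0
    nlinarith [Real.pi_le_four, mul_nonneg L0 hη.le]

lemma est_g {d η N w : ℝ} (hη : 0 < η) (hN : 0 < N) (hw : 0 < w) (hd : 6 * d = η * w)
    {φ φ' : Phase → ℝ} (h0 : BM φ) (h0' : BM φ') (h1 : ∀ v, |φ v| ≤ 1) {M : ℝ}
    (h2 : ∀ s v, |φ (flow A s v) - φ v + s * φ' v| ≤ M * s ^ 2) {v : Phase} (hv : Nice A d v)
    {k : ℂ → ℂ} (hk : Ker k) (hk1 : ∫ z, ‖k z‖ = 1) :
    ‖vel v.2 * ((d : ℂ)⁻¹ * cp (dz k) d (lf A d η N w φ) v) +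
      conj (vel v.2) * ((d : ℂ)⁻¹ * cp (dzb k) d (lf A d η N w φ) v) +
      cp k d (lf A d η N w φ') v‖ ≤ Lam η N (DD A w v) * w := by
  have d0 : 0 < d := by nlinarith [mul_pos hη hw]
  have L0 := Lam_nonneg hη hN (DD A w v)
  have hZ := Good.z0 hA hv.1
  have b := (h0.lf' hA d hη hN w).comp (g := fun p => (p, v.2)) (by fun_prop)
  have b' := (h0'.lf' hA d hη hN w).comp (g := fun p => (p, v.2)) (by fun_prop)
  have a1 : HasDerivAt (fun s : ℝ => v.1 + s • vel v.2) (vel v.2) 0 := by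
    simpa using ((hasDerivAt_id (0 : ℝ)).smul_const (vel v.2)).const_add v.1
  have a2 := (((contDiff_cv hk d0.ne' b).differentiable (by simp)
    v.1).hasFDerivAt.comp_hasDerivAt_of_eq 0 a1 (by simp)).add
    ((hasDerivAt_id (0 : ℝ)).ofReal_comp.mul_const (cp k d (lf A d η N w φ') v))
  rw [fderiv_eq, dz_cv hk d0.ne' b, dzb_cv hk d0.ne' b, ofReal_one, one_mul] at a2
  refine le_of_forall_pos_le_add fun ε ε0 => a2.le_of_lip' (by positivity) ?_
  have c : Continuous fun s : ℝ => M * |s| := by fun_prop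
  filter_upwards [ev_abs_lt 0 d0, c.continuousAt.eventually_lt (x₀ := 0) continuousAt_const
    (by simpa using ε0)] with s s1 s2
  rw [sub_zero] at s1
  have s0 := abs_nonneg s
  have := int3 hk.int (b.comp (g := fun z => v.1 + s • vel v.2 - d • z) (by fun_prop))
    (b.comp (g := fun z => v.1 - d • z) (by fun_prop))
    (b'.comp (g := fun z => v.1 - d • z) (by fun_prop)) (s := -s)
    (e := (Lam η N (DD A w v) * w + ε) * |s|) (hv.2.mono fun z hg hz => ?_)
  · rw [hk1, one_mul] at this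
    simp only [Pi.add_apply, Function.comp, zero_smul, add_zero, id, ofReal_zero, zero_mul,
      sub_zero, Real.norm_eq_abs, cp, cv]
    rwa [neg_mul, sub_neg_eq_add, sub_add_eq_add_sub] at this
  have n0 : ‖d • z‖ ≤ d := by
    rw [norm_smul, Real.norm_of_nonneg d0.le]
    nlinarith [hk.le hz]
  have n1 : ‖(v.1 - d • z, v.2).1 - v.1‖ ≤ d := by rwa [sub_sub_cancel_left, norm_neg]
  have n2 : ‖(v.1 + s • vel v.2 - d • z, v.2).1 - v.1‖ ≤ 2 * d := by
    have := norm_sub_le (s • vel v.2) (d • z)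
    rw [norm_smul, norm_vel, Real.norm_eq_abs] at this
    rw [add_sub_assoc, add_sub_cancel_left]
    linarith
  rcases le_or_gt (rad A v.1) (5 * d) with h | h
  · rw [lf_near hA hη hw hd hZ.1 h n2, lf_near hA hη hw hd hZ.1 h (by linarith),
      lf_near hA hη hw hd hZ.1 h (by linarith)]
    simp only [sub_zero, mul_zero, norm_zero]
    positivity
  have g1 := hg (fold_mem hA hZ.1 (by linarith))
  have e : mv s (v.1 - d • z, v.2) = (v.1 + s • vel v.2 - d • z, v.2) := by
    simp only [mv, sub_add_eq_add_sub]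
  have g2 := flow_chart hA hZ.1 (by linarith) g1 (s := s) (by rw [e]; linarith)
  have h3 := DD_par hA hw hv.1 g1 (b := d) (by linarith)
    ⟨-(d • z), by rwa [norm_neg], by rw [sub_eq_add_neg]⟩
  rw [show d / w = η / 6 by field_simp; linarith] at h3
  have h4 := DD_flow hA hw (fold A (v.1 - d • z, v.2)) s
  have w1 : |s| * w ≤ |s| * w := le_rfl
  have h6 := DD_par hA hw hv.1 (flow_good hA g1 s) (b := 2 * d) (by linarith)
    ⟨s • vel v.2 - d • z, by simpa [add_sub_assoc] using n2, by rw [g2, e, add_sub_assoc]⟩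
  rw [show 2 * d / w = η / 3 by field_simp; linarith] at h6
  have h5 := kap_lip hη hN (h6.trans (by linarith)) (h3.trans (by linarith))
  rw [lf_far hA h n2, lf_far hA h (by linarith), lf_far hA h (by linarith), ← e, ← g2,
    ← ofReal_neg, ← ofReal_mul, ← ofReal_sub, ← ofReal_sub, norm_real, Real.norm_eq_abs]
  generalize fold A (v.1 - d • z, v.2) = v' at *
  rw [show kap η N (DD A w (flow A s v')) * φ (flow A s v') - kap η N (DD A w v') * φ v' -
    -s * (kap η N (DD A w v') * φ' v') = (kap η N (DD A w (flow A s v')) - kap η N (DD A w v')) *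
      φ (flow A s v') + kap η N (DD A w v') * (φ (flow A s v') - φ v' + s * φ' v') by ring,
    add_mul]
  refine (abs_add_le _ _).trans (add_le_add ?_ ?_)
  · rw [abs_mul, mul_assoc, mul_comm w]
    exact (mul_le_of_le_one_right (abs_nonneg _) (h1 _)).trans
      (h5.trans (mul_le_mul_of_nonneg_left h4 L0))
  · rw [abs_mul]
    refine (mul_le_of_le_one_left (abs_nonneg _) (abs_kap_le hη hN _)).trans ((h2 s v').trans ?_)
    rw [← sq_abs]
    nlinarith

lemma osc_tendsto {Y : Type} [MeasurableSpace Y] (ν : Measure Y) [IsProbabilityMeasure ν]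
    {f : Y → Phase → ℝ} (h : BM fun q : Y × Phase => f q.1 q.2) (h1 : ∀ y v, |f y v| ≤ 1) :
    Tendsto (fun d => ∫ y, ∫ v, osc A d (f y) v ∂liouville A ∂ν) (𝓝[>] 0) (𝓝 0) := by
  have := prob_qq hA
  have := prob_liouville hA
  have key : ∀ {X : Type} [MeasurableSpace X] (m : Measure X) [IsProbabilityMeasure m]
      (F : ℝ → X → ℝ), (∀ d, Measurable (F d)) → (∀ d x, ‖F d x‖ ≤ 8) →
      (∀ᵐ x ∂m, Tendsto (fun d => F d x) (𝓝[>] 0) (𝓝 0)) →
      Tendsto (fun d => ∫ x, F d x ∂m) (𝓝[>] 0) (𝓝 0) := fun m _ F a b c => by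
    simpa using tendsto_integral_filter_of_dominated_convergence (fun _ => (8 : ℝ))
      (Eventually.of_forall fun d => (a d).aestronglyMeasurable)
      (Eventually.of_forall fun d => ae_of_all _ (b d)) (integrable_const _) c
  have b1 : ∀ d y v, ‖osc A d (f y) v‖ ≤ 8 := fun d y v => by
    rw [Real.norm_of_nonneg (osc_nonneg _ _ _)]
    exact osc_le d (h1 y) v
  refine key ν _ (fun d => ((h.osc d).integral _).1) (fun d y => by
    simpa using norm_integral_le_of_norm_le_const (ae_of_all (liouville A) (b1 d y)))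
    (ae_of_all _ fun y => ?_)
  have b2 : ∀ d, BM (osc A d (f y)) := fun d =>
    (h.osc (A := A) d).comp (g := Prod.mk y) measurable_prodMk_left
  simp only [fun d => integral_prod_symm _ ((b2 d).int ((qq A).prod hc)),
    show liouville A = (qq A).prod hc from rfl]
  refine key hc _ (fun d => (((b2 d).comp measurable_swap).integral _).1) (fun d θ => by
    simpa using norm_integral_le_of_norm_le_const (ae_of_all (qq A) fun x => b1 d y (x, θ)))
    (ae_of_all _ fun θ => key (qq A) _ (fun d => (b2 d).1.comp measurable_prodMk_right)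
      (fun d x => b1 d y _) ?_)
  have b3 := ldt ((h.sec y).comp (g := fun p => (p, θ)) measurable_prodMk_right)
  have b4 : qq A ≪ volume := by
    rw [qq_eq hA]
    exact Measure.smul_absolutelyContinuous.trans Measure.absolutelyContinuous_restrict
  filter_upwards [b4.ae_le b3, ae_qq hA] with x hx h0
  obtain ⟨r, r0, hr⟩ := Metric.isOpen_iff.1 isOpen_QQ x h0
  refine hx.congr' ?_
  filter_upwards [Ioo_mem_nhdsGT r0] with d hd
  refine setIntegral_congr_fun measurableSet_closedBall fun z hz => ?_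
  dsimp only
  rw [fold_of_not_out fun i => not_out_of_pos (hr ?_ i)]
  rw [mem_ball_iff_norm, sub_sub_cancel_left, norm_neg, norm_smul, Real.norm_of_nonneg hd.1.le]
  have : ‖z‖ ≤ 1 := by simpa using hz
  nlinarith [hd.1, hd.2]

end

end Vale.Agent.P099
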