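import Vale.Agent.P099.Defs

open MeasureTheory Filter Topology Set Complex
open scoped RealInnerProductSpace ComplexConjugate

namespace Vale.Agent.P099

noncomputable section

lemma norm_vel (θ : UnitAddCircle) : ‖vel θ‖ = 1 := Circle.norm_coe _

lemma vel_add (a b : UnitAddCircle) : vel (a + b) = vel a * vel b := by
  simp [vel, AddCircle.toCircle_add]

lemma vel_neg (a : UnitAddCircle) : vel (-a) = conj (vel a) := by
  rw [vel, AddCircle.toCircle_neg, Circle.coe_inv_eq_conj, vel]

lemma vel_mul_conj (a : UnitAddCircle) : vel a * conj (vel a) = 1 := by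
  rw [mul_conj, normSq_eq_norm_sq, norm_vel]
  simp

lemma vel_inj : Function.Injective vel := fun _ _ h =>
  AddCircle.injective_toCircle one_ne_zero (Subtype.ext h)

@[fun_prop]
lemma continuous_vel : Continuous vel :=
  continuous_subtype_val.comp AddCircle.continuous_toCircle

lemma vel_coe (x : ℝ) : vel (x : UnitAddCircle) = exp (2 * Real.pi * x * I) := by
  simp [vel, AddCircle.toCircle_apply_mk]

variable (A : Fin 3 → ℂ)

def tau (i : Fin 3) : ℂ := A (i + 2) - A (i + 1)

def ar : ℝ := (conj (A 1 - A 0) * (A 2 - A 0)).im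

def dl (i : Fin 3) (z : ℂ) : ℝ := (conj (tau A i) * z).im / ar A

def lam (i : Fin 3) (p : ℂ) : ℝ := dl A i (p - A (i + 1))

def be (i : Fin 3) : UnitAddCircle := ((arg (tau A i) / Real.pi : ℝ) : UnitAddCircle)

def rl (i : Fin 3) (z : ℂ) : ℂ := vel (be A i) * conj z

def rp (i : Fin 3) (p : ℂ) : ℂ := A (i + 1) + rl A i (p - A (i + 1))

def refl (i : Fin 3) (w : Phase) : Phase := (rp A i w.1, be A i - w.2)

def out (i : Fin 3) (w : Phase) : Prop :=
  lam A i w.1 < 0 ∨ (lam A i w.1 = 0 ∧ dl A i (vel w.2) < 0)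

open Classical in
def foldi (i : Fin 3) (w : Phase) : Phase := if out A i w then refl A i w else w

open Classical in
def fold (w : Phase) : Phase :=
  if out A 0 w then refl A 0 w else if out A 1 w then refl A 1 w else foldi A 2 w

def Wd (i : Fin 3) : Set ℂ := {p | ∀ j, j ≠ i → 0 < lam A j p}

def KK : Set ℂ := {p | ∀ j, 0 ≤ lam A j p}

def QQ : Set ℂ := {p | ∀ j, 0 < lam A j p}

def mv (s : ℝ) (w : Phase) : Phase := (w.1 + s • vel w.2, w.2)

def Lc : ℝ := (‖tau A 0‖ + ‖tau A 1‖ + ‖tau A 2‖) / |ar A|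

def rad (p : ℂ) : ℝ := min (min (1 - lam A 0 p) (1 - lam A 1 p)) (1 - lam A 2 p) / (2 * Lc A)

def Z0 : Set Phase := {w | w.1 ∈ KK A ∧ 0 < rad A w.1 ∧ ∀ i, ¬ out A i w}

variable {A}

lemma dl_add (i : Fin 3) (z w : ℂ) : dl A i (z + w) = dl A i z + dl A i w := by
  simp only [dl, mul_add, add_im, add_div]

lemma dl_smul (i : Fin 3) (s : ℝ) (z : ℂ) : dl A i (s • z) = s * dl A i z := by
  simp only [dl, mul_smul_comm, smul_im, smul_eq_mul, mul_div_assoc]

lemma dl_neg (i : Fin 3) (z : ℂ) : dl A i (-z) = -dl A i z := by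
  simp only [dl, mul_neg, neg_im, neg_div]

lemma dl_sub (i : Fin 3) (z w : ℂ) : dl A i (z - w) = dl A i z - dl A i w := by
  rw [sub_eq_add_neg, dl_add, dl_neg, sub_eq_add_neg]

lemma lam_add (i : Fin 3) (p z : ℂ) : lam A i (p + z) = lam A i p + dl A i z := by
  rw [lam, lam, ← dl_add]
  congr 1
  ring

lemma lam_sub (i : Fin 3) (p q : ℂ) : lam A i p - lam A i q = dl A i (p - q) := by
  rw [lam, lam, ← dl_sub]
  congr 1
  ring

@[fun_prop]
lemma continuous_dl (i : Fin 3) : Continuous (dl A i) := by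
  unfold dl
  fun_prop

@[fun_prop]
lemma continuous_lam (i : Fin 3) : Continuous (lam A i) := by
  unfold lam
  fun_prop

@[fun_prop]
lemma continuous_rad : Continuous (rad A) := by
  unfold rad
  fun_prop

@[fun_prop]
lemma continuous_rp (i : Fin 3) : Continuous (rp A i) := by
  unfold rp rl
  fun_prop

@[fun_prop]
lemma continuous_refl (i : Fin 3) : Continuous (refl A i) := by
  unfold refl
  fun_prop

@[fun_prop]
lemma continuous_mv : Continuous fun q : ℝ × Phase => mv q.1 q.2 := by
  unfold mv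
  fun_prop

lemma norm_rl (i : Fin 3) (z : ℂ) : ‖rl A i z‖ = ‖z‖ := by
  rw [rl, norm_mul, norm_vel, one_mul, norm_conj]

lemma rl_rl (i : Fin 3) (z : ℂ) : rl A i (rl A i z) = z := by
  simp only [rl, map_mul, conj_conj, ← mul_assoc, vel_mul_conj, one_mul]

lemma rl_add (i : Fin 3) (z w : ℂ) : rl A i (z + w) = rl A i z + rl A i w := by
  simp only [rl, map_add, mul_add]

lemma rl_smul (i : Fin 3) (s : ℝ) (z : ℂ) : rl A i (s • z) = s • rl A i z := by
  simp only [rl, real_smul, map_mul, conj_ofReal]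
  ring

lemma rp_add (i : Fin 3) (p z : ℂ) : rp A i (p + z) = rp A i p + rl A i z := by
  rw [rp, rp, add_assoc, ← rl_add]
  congr 2
  ring

lemma rp_sub (i : Fin 3) (p q : ℂ) : rp A i p - rp A i q = rl A i (p - q) := by
  rw [show p = q + (p - q) by ring, rp_add]
  simp

lemma rp_rp (i : Fin 3) (p : ℂ) : rp A i (rp A i p) = p := by
  rw [rp, rp, add_sub_cancel_left, rl_rl, add_sub_cancel]

lemma refl_refl (i : Fin 3) (w : Phase) : refl A i (refl A i w) = w := by
  simp [refl, rp_rp]

lemma vel_be_sub (i : Fin 3) (θ : UnitAddCircle) : vel (be A i - θ) = rl A i (vel θ) := by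
  rw [sub_eq_add_neg, vel_add, vel_neg, rl]

lemma mv_refl (i : Fin 3) (s : ℝ) (w : Phase) : mv s (refl A i w) = refl A i (mv s w) := by
  simp only [mv, refl, rp_add, rl_smul, vel_be_sub]

lemma mv_mv (s t : ℝ) (w : Phase) : mv s (mv t w) = mv (t + s) w := by
  simp only [mv, add_smul, add_assoc]

lemma mv_zero (w : Phase) : mv 0 w = w := by simp [mv]

lemma norm_mv (s : ℝ) (w : Phase) : ‖(mv s w).1 - w.1‖ = |s| := by
  simp only [mv, add_sub_cancel_left, norm_smul, norm_vel, mul_one, Real.norm_eq_abs]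

lemma vel_be_mul (i : Fin 3) : vel (be A i) * conj (tau A i) = tau A i := by
  rw [be, vel_coe]
  have h := norm_mul_exp_arg_mul_I (tau A i)
  have hp : (Real.pi : ℂ) ≠ 0 := ofReal_ne_zero.2 Real.pi_pos.ne'
  generalize arg (tau A i) = a at *
  generalize ‖tau A i‖ = r at *
  rw [← h, map_mul, conj_ofReal, ← exp_conj, map_mul, conj_ofReal, conj_I, mul_left_comm,
    ← exp_add]
  congr 2
  push_cast
  field_simp
  ring

lemma dl_rl (i : Fin 3) (z : ℂ) : dl A i (rl A i z) = -dl A i z := by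
  rw [dl, dl, rl, ← mul_assoc, mul_comm (conj (tau A i)), vel_be_mul, ← neg_div]
  congr 1
  simp only [mul_im, conj_re, conj_im]
  ring

lemma lam_rp (i : Fin 3) (p : ℂ) : lam A i (rp A i p) = -lam A i p := by
  rw [lam, rp, add_sub_cancel_left, dl_rl, lam]

lemma foldi_refl_aux {i : Fin 3} {w : Phase} (h : out A i w) : ¬ out A i (refl A i w) := by
  simp only [out, refl, lam_rp, vel_be_sub, dl_rl] at *
  rcases h with h | h <;> rintro (h' | h') <;> linarith [h, h']

lemma foldi_mem (i : Fin 3) (w : Phase) : ¬ out A i (foldi A i w) := by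
  unfold foldi
  split_ifs with h
  exacts [foldi_refl_aux h, h]

lemma not_out_of_pos {i : Fin 3} {w : Phase} (h : 0 < lam A i w.1) : ¬ out A i w := by
  rintro (h' | h') <;> linarith [h']

lemma nonneg_of_not_out {i : Fin 3} {w : Phase} (h : ¬ out A i w) : 0 ≤ lam A i w.1 :=
  not_lt.1 fun h' => h (Or.inl h')

lemma fold_eq {i : Fin 3} {w : Phase} (h : w.1 ∈ Wd A i) : fold A w = foldi A i w := by
  have h' : ∀ j, j ≠ i → ¬ out A j w := fun j hj => not_out_of_pos (h j hj)
  unfold fold foldi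
  fin_cases i
  · simp [h' 1 (by decide), h' 2 (by decide)]
  · simp [h' 0 (by decide), h' 2 (by decide)]
  · simp [h' 0 (by decide), h' 1 (by decide)]

lemma fold_of_not_out {w : Phase} (h : ∀ i, ¬ out A i w) : fold A w = w := by
  simp [fold, foldi, h]

lemma measurableSet_out (i : Fin 3) : MeasurableSet {w | out A i w} := by
  have h1 : Measurable fun w : Phase => lam A i w.1 := Continuous.measurable (by fun_prop)
  have h2 : Measurable fun w : Phase => dl A i (vel w.2) := Continuous.measurable (by fun_prop)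
  exact (measurableSet_lt h1 measurable_const).union
    ((measurableSet_eq_fun h1 measurable_const).inter (measurableSet_lt h2 measurable_const))

@[fun_prop]
lemma measurable_fold : Measurable (fold A) := by
  unfold fold foldi
  exact Measurable.ite (measurableSet_out 0) (by fun_prop)
    (Measurable.ite (measurableSet_out 1) (by fun_prop)
      (Measurable.ite (measurableSet_out 2) (by fun_prop) measurable_id))

variable (hA : ar A ≠ 0)
include hA

lemma tau_ne (i : Fin 3) : tau A i ≠ 0 := by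
  intro h
  apply hA
  fin_cases i
  · have : A 2 = A 1 := sub_eq_zero.1 h
    rw [ar, this, conj_mul']
    norm_cast
  · have : A 0 = A 2 := sub_eq_zero.1 h
    simp [ar, this]
  · have : A 1 = A 0 := sub_eq_zero.1 h
    simp [ar, this]

lemma lam_sum (p : ℂ) : lam A 0 p + lam A 1 p + lam A 2 p = 1 := by
  simp only [lam, dl, tau]
  field_simp
  simp [ar]
  ring

lemma lam_vertex (i j : Fin 3) : lam A i (A j) = if i = j then 1 else 0 := by
  fin_cases i <;> fin_cases j <;> simp only [lam, dl, tau] <;> field_simp <;> simp [ar] <;> ring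

lemma bary (p : ℂ) : p = lam A 0 p • A 0 + lam A 1 p • A 1 + lam A 2 p • A 2 := by
  apply Complex.ext <;> simp only [lam, dl, tau, add_re, add_im, smul_re, smul_im, smul_eq_mul] <;>
    field_simp <;> simp [ar] <;> ring

lemma rl_eq_self {i : Fin 3} {z : ℂ} (h : dl A i z = 0) : rl A i z = z := by
  have h1 : (conj (tau A i) * z).im = 0 := by
    rw [dl, div_eq_zero_iff] at h
    exact h.resolve_right hA
  have h2 := conj_eq_iff_im.2 h1
  rw [map_mul, conj_conj] at h2
  have h3 : conj (tau A i) ≠ 0 := by simpa using tau_ne hA i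
  apply mul_left_cancel₀ h3
  rw [rl, ← mul_assoc, mul_comm (conj (tau A i)), vel_be_mul, h2]

lemma rp_eq_self {i : Fin 3} {p : ℂ} (h : lam A i p = 0) : rp A i p = p := by
  rw [rp, rl_eq_self hA h, add_sub_cancel]

lemma foldi_refl (i : Fin 3) (w : Phase) : foldi A i (refl A i w) = foldi A i w := by
  unfold foldi
  by_cases h : out A i w
  · rw [if_pos h, if_neg (foldi_refl_aux h)]
  · rw [if_neg h]
    split_ifs with h'
    · exact refl_refl i w
    · simp only [out, refl, lam_rp, vel_be_sub, dl_rl, not_or, not_lt, not_and] at h h'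
      have h1 : lam A i w.1 = 0 := by linarith [h.1, h'.1]
      have h2 : dl A i (vel w.2) = 0 := by linarith [h.2 h1, h'.2 (by linarith)]
      refine Prod.ext (rp_eq_self hA h1) (vel_inj ?_)
      rw [refl, vel_be_sub, rl_eq_self hA h2]

lemma foldi_mv (i : Fin 3) (s : ℝ) (w : Phase) :
    foldi A i (mv s (foldi A i w)) = foldi A i (mv s w) := by
  conv_lhs => arg 3; arg 2; unfold foldi
  split_ifs
  · rw [mv_refl, foldi_refl hA]
  · rfl

lemma Lc_pos : 0 < Lc A := by
  have := norm_pos_iff.2 (tau_ne hA 0)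
  have := abs_pos.2 hA
  unfold Lc
  positivity

omit hA in
lemma abs_dl_le (i : Fin 3) (z : ℂ) : |dl A i z| ≤ Lc A * ‖z‖ := by
  rw [dl, Lc, abs_div, div_mul_eq_mul_div]
  refine div_le_div_of_nonneg_right ((abs_im_le_norm _).trans ?_) (abs_nonneg _)
  rw [norm_mul, norm_conj]
  refine mul_le_mul_of_nonneg_right ?_ (norm_nonneg _)
  have h0 := norm_nonneg (tau A 0)
  have h1 := norm_nonneg (tau A 1)
  have h2 := norm_nonneg (tau A 2)
  fin_cases i <;> simp <;> linarith

lemma rad_le (p q : ℂ) : rad A p ≤ rad A q + ‖p - q‖ / 2 := by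
  have hL := Lc_pos hA
  have h := fun i => abs_le.1 (abs_dl_le (A := A) i (p - q))
  simp only [← lam_sub] at h
  unfold rad
  rw [div_add_div _ _ (by positivity) (by positivity), div_le_div_iff₀ (by positivity)
    (by positivity)]
  have : min (min (1 - lam A 0 p) (1 - lam A 1 p)) (1 - lam A 2 p) ≤
      min (min (1 - lam A 0 q) (1 - lam A 1 q)) (1 - lam A 2 q) + Lc A * ‖p - q‖ := by
    rw [← sub_le_iff_le_add]
    simp only [le_min_iff, sub_le_iff_le_add, min_le_iff]
    exact ⟨⟨Or.inl (Or.inl (by linarith [h 0])), Or.inl (Or.inr (by linarith [h 1]))⟩,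
      Or.inr (by linarith [h 2])⟩
  nlinarith

lemma chart {x : ℂ} (hx : x ∈ KK A) : ∃ i, ∀ z, ‖z - x‖ < rad A x → z ∈ Wd A i := by
  have hL := Lc_pos hA
  obtain ⟨i, -, hi⟩ := Finset.exists_min_image Finset.univ (fun j => lam A j x)
    Finset.univ_nonempty
  refine ⟨i, fun z hz j hj => ?_⟩
  have h1 := (abs_le.1 (abs_dl_le (A := A) j (z - x))).1
  rw [← lam_sub] at h1
  rw [rad, lt_div_iff₀ (by positivity)] at hz
  simp only [lt_min_iff] at hz
  have h2 := lam_sum hA x
  have h3 := hi j (Finset.mem_univ _)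
  fin_cases i <;> fin_cases j <;> simp at hj h1 h3 ⊢ <;> nlinarith [hz.1.1, hz.1.2, hz.2]

lemma norm_rp_le {i : Fin 3} {x z : ℂ} (hx : 0 ≤ lam A i x) (hz : lam A i z ≤ 0) :
    ‖rp A i z - x‖ ≤ ‖z - x‖ := by
  have t0 := tau_ne hA i
  have e1 : rp A i z - x = rl A i (z - A (i + 1)) - (x - A (i + 1)) := by
    rw [rp]
    ring
  have e2 : z - x = (z - A (i + 1)) - (x - A (i + 1)) := by ring
  rw [e1, e2]
  unfold lam dl at hx hz
  generalize z - A (i + 1) = a at *
  generalize x - A (i + 1) = b at *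
  have n0 := norm_pos_iff.2 t0
  have e3 : ∀ u : ℂ, ‖u‖ = ‖conj (tau A i) * u‖ / ‖tau A i‖ := fun u => by
    rw [norm_mul, norm_conj]
    field_simp
  rw [e3, e3 (a - b), mul_sub, mul_sub, rl, ← mul_assoc, mul_comm (conj (tau A i)), vel_be_mul]
  refine div_le_div_of_nonneg_right ?_ n0.le
  have e4 : tau A i * conj a = conj (conj (tau A i) * a) := by simp
  rw [e4]
  generalize conj (tau A i) * a = u at *
  generalize conj (tau A i) * b = v at *
  have h : u.im * v.im ≤ 0 := by
    have := mul_nonpos_of_nonpos_of_nonneg hz hx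
    rw [div_mul_div_comm] at this
    by_contra hc
    exact absurd this (not_le.2 (div_pos (not_le.1 hc) (mul_self_pos.2 hA)))
  rw [← sq_le_sq₀ (norm_nonneg _) (norm_nonneg _), ← normSq_eq_norm_sq, ← normSq_eq_norm_sq]
  simp only [normSq_apply, sub_re, sub_im, conj_re, conj_im]
  nlinarith

lemma norm_foldi_le {i : Fin 3} {x : ℂ} (hx : x ∈ KK A) (w : Phase) :
    ‖(foldi A i w).1 - x‖ ≤ ‖w.1 - x‖ := by
  unfold foldi
  split_ifs with h
  · exact norm_rp_le hA (hx i) (by rcases h with h | h <;> linarith [h])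
  · rfl

lemma norm_fold_le {x : ℂ} (hx : x ∈ KK A) {w : Phase} (hw : ‖w.1 - x‖ < rad A x) :
    ‖(fold A w).1 - x‖ ≤ ‖w.1 - x‖ := by
  obtain ⟨i, hi⟩ := chart hA hx
  rw [fold_eq (hi _ hw)]
  exact norm_foldi_le hA hx w

lemma fold_mem {x : ℂ} (hx : x ∈ KK A) {w : Phase} (hw : ‖w.1 - x‖ < rad A x) :
    fold A w ∈ Z0 A := by
  obtain ⟨i, hi⟩ := chart hA hx
  have h1 := norm_fold_le hA hx hw
  have h2 : ∀ j, ¬ out A j (fold A w) := fun j => by
    rcases eq_or_ne j i with rfl | h
    · rw [fold_eq (hi _ hw)]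
      exact foldi_mem j w
    · exact not_out_of_pos (hi _ (h1.trans_lt hw) j h)
  refine ⟨fun j => nonneg_of_not_out (h2 j), ?_, h2⟩
  have := rad_le hA x (fold A w).1
  rw [norm_sub_rev] at this
  linarith [norm_nonneg (w.1 - x)]

lemma fold_mv_fold {x : ℂ} (hx : x ∈ KK A) {w : Phase} {s : ℝ} (hw : ‖w.1 - x‖ < rad A x)
    (h1 : ‖(mv s w).1 - x‖ < rad A x) (h2 : ‖(mv s (fold A w)).1 - x‖ < rad A x) :
    fold A (mv s (fold A w)) = fold A (mv s w) := by
  obtain ⟨i, hi⟩ := chart hA hx
  rw [fold_eq (hi _ h2), fold_eq (hi _ h1), fold_eq (hi _ hw), foldi_mv hA]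

lemma step_inv {v : Phase} (hv : v ∈ Z0 A) {s : ℝ} (hs : 2 * |s| < rad A v.1) :
    fold A (mv (-s) (fold A (mv s v))) = v := by
  have h0 := abs_nonneg s
  have h1 : ‖(mv s v).1 - v.1‖ < rad A v.1 := by rw [norm_mv]; linarith
  rw [fold_mv_fold hA hv.1 h1, mv_mv, add_neg_cancel, mv_zero, fold_of_not_out hv.2.2]
  · rw [mv_mv, add_neg_cancel, mv_zero, sub_self, norm_zero]
    exact hv.2.1
  · have h2 := norm_fold_le hA hv.1 h1
    have h3 := norm_mv (-s) (fold A (mv s v))
    rw [norm_mv] at h2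
    rw [abs_neg] at h3
    linarith [norm_sub_le_norm_sub_add_norm_sub (mv (-s) (fold A (mv s v))).1
      (fold A (mv s v)).1 v.1]

lemma rad_pos_of {p : ℂ} {i : Fin 3} (h : p ∈ Wd A i) (h0 : 0 ≤ lam A i p) : 0 < rad A p := by
  have hL := Lc_pos hA
  have h2 := lam_sum hA p
  refine div_pos ?_ (by positivity)
  simp only [lt_min_iff]
  fin_cases i
  · have := h 1 (by decide)
    have := h 2 (by decide)
    simp at h0
    exact ⟨⟨by linarith, by linarith⟩, by linarith⟩
  · have := h 0 (by decide)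
    have := h 2 (by decide)
    simp at h0
    exact ⟨⟨by linarith, by linarith⟩, by linarith⟩
  · have := h 0 (by decide)
    have := h 1 (by decide)
    simp at h0
    exact ⟨⟨by linarith, by linarith⟩, by linarith⟩

lemma mem_Z0_of_QQ {w : Phase} (h : w.1 ∈ QQ A) : w ∈ Z0 A :=
  ⟨fun j => (h j).le, rad_pos_of hA (i := 0) (fun j _ => h j) (h 0).le,
    fun i => not_out_of_pos (h i)⟩

lemma hull_eq : convexHull ℝ (range A) = KK A := by
  apply Subset.antisymm
  · refine convexHull_min ?_ ?_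
    · rintro _ ⟨j, rfl⟩ i
      rw [lam_vertex hA]
      split_ifs <;> norm_num
    · intro p hp q hq a b ha hb hab i
      have : a • p + b • q = q + a • (p - q) := by
        rw [show b = 1 - a by linarith]
        module
      rw [this, lam_add, dl_smul, ← lam_sub]
      have h1 := mul_nonneg hb (hq i)
      rw [show b = 1 - a by linarith] at h1
      nlinarith [mul_nonneg ha (hp i)]
  · intro p hp
    have := (convex_convexHull ℝ (range A)).sum_mem (t := Finset.univ)
      (w := fun i => lam A i p) (z := A) (fun i _ => hp i)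
      (by rw [Fin.sum_univ_three]; exact lam_sum hA p)
      fun i _ => subset_convexHull ℝ _ (mem_range_self i)
    rwa [Fin.sum_univ_three, ← bary hA p] at this

omit hA in
lemma isOpen_QQ : IsOpen (QQ A) := by
  have : QQ A = ⋂ j, {p | 0 < lam A j p} := by
    ext p
    simp [QQ]
  rw [this]
  exact isOpen_iInter_of_finite fun j => isOpen_lt (by fun_prop) (by fun_prop)

lemma table_eq : table A = QQ A := by
  rw [table, hull_eq hA]
  refine Subset.antisymm (fun p hp i => ?_) (interior_maximal (fun p hp j => (hp j).le) isOpen_QQ)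
  have h1 : ∀ᶠ s in 𝓝 (0 : ℝ), p + s • (A i - A (i + 1)) ∈ KK A := by
    have : Tendsto (fun s : ℝ => p + s • (A i - A (i + 1))) (𝓝 0) (𝓝 p) :=
      Continuous.tendsto' (by fun_prop) _ _ (by simp)
    exact this.eventually (mem_interior_iff_mem_nhds.1 hp)
  obtain ⟨s, hs, hs0⟩ := ((h1.filter_mono nhdsWithin_le_nhds).and
    (self_mem_nhdsWithin (s := Iio (0 : ℝ)))).exists
  have h2 := hs i
  have h3 : dl A i (A i - A (i + 1)) = 1 := by
    have := lam_vertex hA i i
    rwa [if_pos rfl] at this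
  rw [lam_add, dl_smul, h3] at h2
  have : s < 0 := hs0
  linarith

end

end Vale.Agent.P099
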