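import Vale.Agent.P099.Est

open MeasureTheory Filter Topology Set Complex Metric
open scoped RealInnerProductSpace ComplexConjugate ENNReal ContDiff

namespace Vale.Agent.P099

noncomputable section

lemma smooth_md {H : Phase → ℂ} (h : BM H) {k : ℂ → ℂ} (hk : Ker k) {d : ℝ} (hd : d ≠ 0) (n : ℤ) :
    ContDiff ℝ ∞ (md n (cp k d H)) := by
  rw [md_cp h hk]
  exact contDiff_cv hk hd (h.md' n)

lemma md_const_mul (n : ℤ) (c : ℂ) (F : Phase → ℂ) (x : ℂ) :
    md n (fun v => c * F v) x = c * md n F x := by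
  simp only [md, mul_left_comm _ c, integral_const_mul]

lemma dz_md {H : Phase → ℂ} (h : BM H) {k : ℂ → ℂ} (hk : Ker k) {d : ℝ} (hd : d ≠ 0) (n : ℤ)
    (x : ℂ) : dz (md n (cp k d H)) x = md n (fun v => (d : ℂ)⁻¹ * cp (dz k) d H v) x := by
  rw [md_cp h hk, dz_cv hk hd (h.md' n), md_const_mul, md_cp h hk.dz]

lemma dzb_md {H : Phase → ℂ} (h : BM H) {k : ℂ → ℂ} (hk : Ker k) {d : ℝ} (hd : d ≠ 0) (n : ℤ)
    (x : ℂ) : dzb (md n (cp k d H)) x = md n (fun v => (d : ℂ)⁻¹ * cp (dzb k) d H v) x := by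
  rw [md_cp h hk, dzb_cv hk hd (h.md' n), md_const_mul, md_cp h hk.dzb]

lemma op_taylor {H₁ H₂ H₃ : Phase → ℂ} (h₁ : BM H₁) (h₂ : BM H₂) (h₃ : BM H₃) {k : ℂ → ℂ}
    (hk : Ker k) (d : ℝ) (n : ℤ) (x : ℂ) {s : ℂ} {e : ℝ} (h : ∀ q, ‖H₁ q - H₂ q - s * H₃ q‖ ≤ e) :
    ‖md n (cp k d H₁) x - md n (cp k d H₂) x - s * md n (cp k d H₃) x‖ ≤ (∫ z, ‖k z‖) * e := by
  have := int3 ((BM_fourier (-n)).int hc) ((h₁.cp' hk d).comp (g := Prod.mk x) (by fun_prop))
    ((h₂.cp' hk d).comp (g := Prod.mk x) (by fun_prop))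
    ((h₃.cp' hk d).comp (g := Prod.mk x) (by fun_prop)) (s := s) (e := (∫ z, ‖k z‖) * e)
    (ae_of_all _ fun θ _ => int3 hk.int (h₁.comp (g := fun z => (x - d • z, θ)) (by fun_prop))
      (h₂.comp (g := fun z => (x - d • z, θ)) (by fun_prop))
      (h₃.comp (g := fun z => (x - d • z, θ)) (by fun_prop)) (ae_of_all _ fun z _ => h _))
  simpa only [fourier_apply, Circle.norm_coe, integral_const, probReal_univ, smul_eq_mul, one_mul,
    md] using this

lemma md_add {F G : Phase → ℂ} (hF : BM F) (hG : BM G) (n : ℤ) (x : ℂ) :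
    md n (fun v => F v + G v) x = md n F x + md n G x := by
  simp only [md, mul_add]
  exact integral_add (((BM_fourier _).mul (hF.comp measurable_prodMk_left)).int hc)
    (((BM_fourier _).mul (hG.comp measurable_prodMk_left)).int hc)

lemma md_sub {F G : Phase → ℂ} (hF : BM F) (hG : BM G) (n : ℤ) (x : ℂ) :
    md n (fun v => F v - G v) x = md n F x - md n G x := by
  simp only [md, mul_sub]
  exact integral_sub (((BM_fourier _).mul (hF.comp measurable_prodMk_left)).int hc)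
    (((BM_fourier _).mul (hG.comp measurable_prodMk_left)).int hc)

lemma fourier_pred (n : ℤ) (θ : UnitAddCircle) : fourier (-(n - 1)) θ = fourier (-n) θ * vel θ := by
  rw [neg_sub, sub_eq_neg_add, fourier_add, fourier_one]
  rfl

lemma md_vel (F : Phase → ℂ) (n : ℤ) (x : ℂ) :
    md n (fun v => vel v.2 * F v) x = md (n - 1) F x := by
  simp only [md, fourier_pred, mul_assoc]

lemma md_cvel (F : Phase → ℂ) (n : ℤ) (x : ℂ) :
    md n (fun v => conj (vel v.2) * F v) x = md (n + 1) F x := by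
  have := md_vel (fun v => conj (vel v.2) * F v) (n + 1) x
  simp only [← mul_assoc, vel_mul_conj, one_mul, add_sub_cancel_right] at this
  exact this.symm

lemma BM_vel : BM fun v : Phase => vel v.2 :=
  ⟨Continuous.measurable (by fun_prop), 1, fun v => (norm_vel _).le⟩

lemma BM_cvel : BM fun v : Phase => conj (vel v.2) :=
  ⟨Continuous.measurable (by fun_prop), 1, fun v => by rw [norm_conj, norm_vel]⟩

structure Hyp (A : Fin 3 → ℂ) {Y : Type} [MeasurableSpace Y] (ν : Measure Y) (Ψ : ℝ → Y → Y)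
    (f f' : Y → Phase → ℝ) (M : ℝ) : Prop where
  mp : ∀ s, MeasurePreserving (Ψ s) ν ν
  bm : BM fun q : Y × Phase => f q.1 q.2
  bm' : BM fun q : Y × Phase => f' q.1 q.2
  le1 : ∀ y v, |f y v| ≤ 1
  leM : ∀ y v, |f' y v| ≤ M
  tay : ∀ s y v, |f (Ψ s y) v - f y v - s * f' y v| ≤ M * s ^ 2
  inv : ∀ y s v, |f y (flow A s v) - f y v + s * f' y v| ≤ M * s ^ 2

variable {A : Fin 3 → ℂ} (hA : ar A ≠ 0) {Y : Type} [MeasurableSpace Y] {ν : Measure Y}
  [IsProbabilityMeasure ν]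
include hA

lemma BM_Lam {η N : ℝ} (hη : 0 < η) (hN : 0 < N) (w : ℝ) : BM fun v => Lam η N (DD A w v) := by
  refine ⟨(measurable_Lam η N).comp (measurable_DD hA w), 2 / (N * η), fun v => ?_⟩
  rw [Real.norm_of_nonneg (Lam_nonneg hη hN _), Lam]
  split_ifs
  · exact div_le_div_of_nonneg_left zero_le_two (by positivity)
      (mul_le_mul_of_nonneg_left (le_max_right _ _) hN.le)
  · positivity

lemma int2_le {F : Y → Phase → ℂ} {f : Y → Phase → ℝ} (hf : BM fun q : Y × Phase => f q.1 q.2)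
    {d : ℝ} {L : Phase → ℝ} (hL : BM L) {a : ℝ}
    (h : ∀ y, ∀ᵐ v ∂liouville A, ‖F y v‖ ^ 2 ≤ L v + a * osc A d (f y) v) :
    ∫ y, ∫ v, ‖F y v‖ ^ 2 ∂(qq A).prod hc ∂ν ≤
      ∫ v, L v ∂liouville A + a * ∫ y, ∫ v, osc A d (f y) v ∂liouville A ∂ν := by
  have := prob_liouville hA
  have b1 := ((hf.osc (A := A) d).integral (liouville A)).int ν
  have b2 : ∀ y, BM (osc A d (f y)) := fun y =>
    (hf.osc (A := A) d).comp (g := Prod.mk y) measurable_prodMk_left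
  refine (integral_mono_of_nonneg (ae_of_all _ fun y => integral_nonneg fun _ => sq_nonneg _)
    ((integrable_const (∫ v, L v ∂liouville A)).add (b1.const_mul a))
    (ae_of_all _ fun y => ?_)).trans (le_of_eq ?_)
  · refine (integral_mono_of_nonneg (μ := liouville A) (ae_of_all _ fun _ => sq_nonneg _)
      ((hL.int _).add (((b2 y).int _).const_mul a)) (h y)).trans (le_of_eq ?_)
    simp only [Pi.add_apply]
    rw [integral_add (hL.int _) (((b2 y).int _).const_mul a), integral_const_mul]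
  · simp only [Pi.add_apply]
    rw [integral_add (integrable_const _) (b1.const_mul a), integral_const_mul]
    simp

def Sym (A : Fin 3 → ℂ) (n : ℤ) (u : ℂ → ℂ) : Prop :=
  ∀ i q, Side A i q → u q = fourier (-n) (be A i) * conj (u q)

def pd (k : ℂ → ℂ) (d : ℝ) (H : Phase → ℂ) (v : Phase) : ℂ := (d : ℂ)⁻¹ * cp k d H v

omit hA in
lemma BM.pd {G : Y → Phase → ℂ} (h : BM fun q : Y × Phase => G q.1 q.2) {k : ℂ → ℂ} (hk : Ker k)
    (d : ℝ) : BM fun q : Y × Phase => pd k d (G q.1) q.2 := (BM.const _).mul (h.cp hk d)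

omit hA in
lemma nf (n : ℤ) (θ : UnitAddCircle) : ‖fourier n θ‖ = 1 := Circle.norm_coe _

section Gen

variable {Ψ : ℝ → Y → Y} (mp : ∀ s, MeasurePreserving (Ψ s) ν ν) {G G' : Y → Phase → ℂ}
  (bG : BM fun q : Y × Phase => G q.1 q.2) (bG' : BM fun q : Y × Phase => G' q.1 q.2)
  {k : ℂ → ℂ} (hk : Ker k) {d : ℝ} (hd : d ≠ 0) (sG : ∀ y n, Sym A n (md n (cp k d (G y))))
  (sG' : ∀ y n, Sym A n (md n (cp k d (G' y)))) {M : ℝ}
  (tay : ∀ s y q, ‖G (Ψ s y) q - G y q - s * G' y q‖ ≤ M * s ^ 2)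
include bG hk hd sG

lemma gen_N (n : ℤ) : ∫ q, ‖md n (pd (dz k) d (G q.1)) q.2‖ ^ 2 ∂ν.prod (qq A) =
    ∫ q, ‖md n (pd (dzb k) d (G q.1)) q.2‖ ^ 2 ∂ν.prod (qq A) := by
  have := prob_qq hA
  rw [integral_prod _ ((BM.md (F := fun y => pd (dz k) d (G y)) (bG.pd hk.dz d) n).norm.sq.int _),
    integral_prod _ ((BM.md (F := fun y => pd (dzb k) d (G y)) (bG.pd hk.dzb d) n).norm.sq.int _)]
  refine integral_congr_ae (ae_of_all _ fun y => ?_)
  have := stokes1 hA (contDiff_infty.1 (smooth_md (bG.sec y) hk hd n) 2)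
    fun i => ⟨_, nf _ _, sG y n i⟩
  simp only [dz_md (bG.sec y) hk hd, dzb_md (bG.sec y) hk hd] at this
  exact this

include mp bG' sG' tay

lemma gen_S (n : ℤ) :
    ∫ q, ⟪md n (cp k d (G' q.1)) q.2, md (n - 1) (pd (dz k) d (G q.1)) q.2⟫ ∂ν.prod (qq A) =
    ∫ q, ⟪md (n - 1) (cp k d (G' q.1)) q.2, md n (pd (dzb k) d (G q.1)) q.2⟫ ∂ν.prod (qq A) := by
  have := prob_qq hA
  have mP := BM.md (F := fun y => pd (dz k) d (G y)) (bG.pd hk.dz d) (n - 1)
  have mQ := BM.md (F := fun y => pd (dzb k) d (G y)) (bG.pd hk.dzb d) n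
  have mQ' := BM.md (F := fun y => pd (dzb k) d (G' y)) (bG'.pd hk.dzb d) n
  have ma := BM.md (F := fun y => cp k d (G' y)) (bG'.cp hk d)
  have mU := BM.md (F := fun y => cp k d (G y)) (bG.cp hk d) (n - 1)
  have s1 := skew (μ := ν.prod (qq A)) (Ψ := fun s => Prod.map (Ψ s) id)
    (fun s => (mp s).prod (MeasurePreserving.id _)) mQ mQ' mU (ma (n - 1))
    (L := ‖(d : ℂ)⁻¹‖ * ((∫ z, ‖dzb k z‖) * M)) (L' := (∫ z, ‖k z‖) * M)
    (fun s q => ?_) (fun s q => ?_)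
  · refine Eq.trans ?_ (integral_congr_ae (ae_of_all _ fun q => real_inner_comm _ _))
    rw [← neg_inj, ← s1, integral_prod _ ((mQ'.inner mU).int _),
      integral_prod _ (((ma n).inner mP).int _), ← integral_neg]
    refine integral_congr_ae (ae_of_all _ fun y => ?_)
    have := stokes2 hA ((smooth_md (bG'.sec y) hk hd n).of_le (by simp))
      ((smooth_md (bG.sec y) hk hd (n - 1)).of_le (by simp)) fun i => ⟨_, nf _ _, fun q hq =>
        ⟨sG' y n i q hq, by rw [← fourier_pred]; exact sG y _ i q hq⟩⟩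
    simp only [dz_md (bG.sec y) hk hd, dzb_md (bG'.sec y) hk hd] at this
    exact neg_eq_iff_eq_neg.2 this
  · unfold pd
    simp only [md_const_mul, Prod.map, id]
    rw [mul_left_comm, ← mul_sub, ← mul_sub, norm_mul, mul_assoc, mul_assoc]
    exact mul_le_mul_of_nonneg_left (op_taylor (bG.sec _) (bG.sec _) (bG'.sec _) hk.dzb d n _
      (tay s q.1)) (norm_nonneg _)
  · rw [mul_assoc]
    exact op_taylor (bG.sec _) (bG.sec _) (bG'.sec _) hk d _ _ (tay s q.1)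

theorem gen_est {γ β : ℝ} (γ0 : 0 ≤ γ) (β0 : 0 ≤ β) (M0 : 0 ≤ M)
    (h1 : ∫ y, ∫ v, ‖vel v.2 * pd (dz k) d (G y) v + conj (vel v.2) * pd (dzb k) d (G y) v +
      cp k d (G' y) v‖ ^ 2 ∂(qq A).prod hc ∂ν ≤ γ ^ 2)
    (h2 : ∫ y, ∫ v, ‖conj (vel v.2) * pd (dzb k) d (G y) v - vel v.2 * pd (dz k) d (G y) v‖ ^ 2
      ∂(qq A).prod hc ∂ν ≤ β ^ 2)
    (h3 : ∫ y, ∫ v, ‖cp k d (G' y) v‖ ^ 2 ∂(qq A).prod hc ∂ν ≤ M ^ 2) (n : ℤ) {K : ℕ}
    (hK : 0 < K) : ∫ q, ‖md n (pd (dz k) d (G q.1)) q.2‖ ^ 2 ∂ν.prod (qq A) ≤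
      M ^ 2 / K + 4 * K ^ 2 * (γ * β + γ * M) := by
  have := prob_qq hA
  have bP := bG.pd hk.dz d
  have bQ := bG.pd hk.dzb d
  have ba := bG'.cp hk d
  have sP : ∀ y, BM (pd (dz k) d (G y)) := fun y => bP.comp (g := Prod.mk y) (by fun_prop)
  have sQ : ∀ y, BM (pd (dzb k) d (G y)) := fun y => bQ.comp (g := Prod.mk y) (by fun_prop)
  refine alg' _ _ _ (fun n q => md n (fun v => vel v.2 * pd (dz k) d (G q.1) v +
      conj (vel v.2) * pd (dzb k) d (G q.1) v + cp k d (G' q.1) v) q.2)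
    (BM.md (F := fun y => pd (dz k) d (G y)) bP) (BM.md (F := fun y => pd (dzb k) d (G y)) bQ)
    (BM.md (F := fun y => cp k d (G' y)) ba) γ0 β0 M0 (gen_N hA bG hk hd sG)
    (gen_S hA mp bG bG' hk hd sG sG' tay) (fun n q => ?_) (fun S => le_trans ?_ h1)
    (fun S => le_trans ?_ h2)
    (fun S => (bessel (F := fun y => cp k d (G' y)) ba ν (qq A) S).trans h3)
    (bessel (F := fun y => pd (dz k) d (G y)) bP ν (qq A)) n hK
  · rw [md_add ((BM_vel.mul (sP _)).add (BM_cvel.mul (sQ _))) ((bG'.sec _).cp' hk d),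
      md_add (BM_vel.mul (sP _)) (BM_cvel.mul (sQ _)), md_vel, md_cvel]
  · exact bessel (F := fun y v => vel v.2 * pd (dz k) d (G y) v +
      conj (vel v.2) * pd (dzb k) d (G y) v + cp k d (G' y) v)
      ((((BM_vel.comp measurable_snd).mul bP).add
      ((BM_cvel.comp measurable_snd).mul bQ)).add ba) ν (qq A) S
  · simp only [← md_vel, ← md_cvel, ← md_sub (BM_cvel.mul (sQ _)) (BM_vel.mul (sP _))]
    exact bessel (F := fun y v => conj (vel v.2) * pd (dzb k) d (G y) v -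
      vel v.2 * pd (dz k) d (G y) v) (((BM_cvel.comp measurable_snd).mul bQ).sub
      ((BM_vel.comp measurable_snd).mul bP)) ν (qq A) S

end Gen

variable {Ψ : ℝ → Y → Y} {f f' : Y → Phase → ℝ} {M : ℝ}

theorem main_est (H : Hyp A ν Ψ f f' M) {k : ℂ → ℂ} (hρ : Ker k)
    (h1 : ∫ z, ‖k z‖ = 1) {C : ℝ} (hC : ∀ z, ‖dz k z‖ ≤ C)
    (hC' : ∀ z, ‖dzb k z‖ ≤ C) {d η N w c : ℝ} (hη : 0 < η) (hN : 0 < N)
    (hw : 0 < w) (hd : 6 * d = η * w) (c0 : 0 ≤ c)
    (hsym : ∀ φ n, Sym A n (md n (cp k d (lf A d η N w φ))))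
    (hc1 : ∫ v, Lam η N (DD A w v) ^ 2 ∂liouville A ≤ c ^ 2)
    (hω : 8 * ∫ y, ∫ v, osc A d (f y) v ∂liouville A ∂ν ≤ η ^ 2 * c ^ 2) (n : ℤ) {K : ℕ}
    (hK : 0 < K) :
    ∫ q, ‖md n (pd (dz k) d (lf A d η N w (f q.1))) q.2‖ ^ 2 ∂ν.prod (qq A) ≤
      M ^ 2 / K + 4 * K ^ 2 * (24 * C * c ^ 2 + w * c * M) := by
  have := prob_liouville hA
  have d0 : 0 < d := by nlinarith [mul_pos hη hw]
  have C0 := (norm_nonneg _).trans (hC 0)
  have M0 : 0 ≤ M := by
    obtain ⟨y⟩ := nonempty_of_isProbabilityMeasure ν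
    exact (abs_nonneg _).trans (H.leM y 0)
  have bL := BM_Lam hA hη hN w
  have e0 : 24 * C * c ^ 2 = w * c * (24 * C * c / w) := by field_simp
  rw [e0]
  refine gen_est hA H.mp (G := fun y => lf A d η N w (f y)) (G' := fun y => lf A d η N w (f' y))
    (H.bm.lf hA d hη hN w) (H.bm'.lf hA d hη hN w) hρ d0.ne' (fun y => hsym _) (fun y => hsym _)
    (fun s y => lf_taylor hη hN (H.tay s y)) (by positivity) (by positivity) M0 ?_ ?_ ?_ n hK
  · refine (int2_le hA H.bm (d := d) (a := 0) (bL.sq.mul (BM.const (w ^ 2)))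
        fun y => (ae_nice hA d0.ne').mono fun v hv => ?_).trans ?_
    · rw [zero_mul, add_zero, ← mul_pow]
      exact pow_le_pow_left₀ (norm_nonneg _) (est_g hA hη hN hw hd (H.bm.sec y) (H.bm'.sec y)
        (H.le1 y) (H.inv y) hv hρ h1) 2
    · rw [zero_mul, add_zero, integral_mul_const, mul_pow, mul_comm]
      exact mul_le_mul_of_nonneg_left hc1 (sq_nonneg _)
  · refine (int2_le hA H.bm (d := d) (a := 8 * C ^ 2 / d ^ 2 * 8)
        ((BM.const (8 * C ^ 2 / d ^ 2 * η ^ 2)).mul bL.sq)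
        fun y => (ae_nice hA d0.ne').mono fun v hv => ?_).trans ?_
    · have a1 := est_k hA hη hN hw hd (H.bm.sec y) (H.le1 y) hv hρ.dz hC
      have a2 := est_k hA hη hN hw hd (H.bm.sec y) (H.le1 y) hv hρ.dzb hC'
      rw [hρ.int_dz.1, zero_mul, sub_zero] at a1
      rw [hρ.int_dz.2, zero_mul, sub_zero] at a2
      have a3 := osc_nonneg (A := A) d (f y) v
      have a4 := osc_le (A := A) d (H.le1 y) v
      have a5 : ‖(d : ℂ)⁻¹‖ = d⁻¹ := by rw [norm_inv, norm_real, Real.norm_of_nonneg d0.le]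
      refine (pow_le_pow_left₀ (norm_nonneg _) (norm_sub_le_of_le
        (norm_mul_le_of_le (norm_conj _).le (norm_mul_le_of_le a5.le a2))
        (norm_mul_le_of_le le_rfl (norm_mul_le_of_le a5.le a1))) 2).trans ?_
      generalize Lam η N (DD A w v) = L
      generalize osc A d (f y) v = o at *
      rw [norm_vel, show (1 * (d⁻¹ * (C * (L * η + o))) + 1 * (d⁻¹ * (C * (L * η + o)))) ^ 2 =
        8 * C ^ 2 / d ^ 2 * ((L * η + o) ^ 2 / 2) by field_simp; ring, mul_assoc _ (η ^ 2),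
        mul_assoc _ 8, ← mul_add]
      exact mul_le_mul_of_nonneg_left (by nlinarith [sq_nonneg (L * η - o)]) (by positivity)
    · rw [integral_const_mul, mul_assoc _ (η ^ 2), mul_assoc _ 8, ← mul_add]
      refine (mul_le_mul_of_nonneg_left (add_le_add (mul_le_mul_of_nonneg_left hc1 (sq_nonneg η))
        hω) (by positivity)).trans (le_of_eq ?_)
      rw [show d = η * w / 6 by linarith]
      field_simp
      ring
  · refine (int2_le hA H.bm (d := d) (a := 0) (BM.const (M ^ 2))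
        fun y => ae_of_all _ fun v => ?_).trans (by simp)
    rw [zero_mul, add_zero]
    refine pow_le_pow_left₀ (norm_nonneg _) ?_ 2
    rw [← one_mul M, ← h1, ← integral_mul_const]
    exact norm_integral_le_of_norm_le (hρ.int.norm.mul_const M)
      (ae_of_all _ fun z => norm_mul_le_of_le le_rfl (norm_lf_le hη hN (H.leM y) _))

theorem close_est (H : Hyp A ν Ψ f f' M) {k : ℂ → ℂ} (hρ : Ker k)
    (h1 : ∫ z, k z = 1) {C : ℝ} (hC : ∀ z, ‖k z‖ ≤ C) {d η N w c : ℝ} (hη : 0 < η) (hN : 0 < N)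
    (hw : 0 < w) (hd : 6 * d = η * w)
    (hc1 : ∫ v, Lam η N (DD A w v) ^ 2 ∂liouville A ≤ c ^ 2)
    (hω : 8 * ∫ y, ∫ v, osc A d (f y) v ∂liouville A ∂ν ≤ η ^ 2 * c ^ 2) (n : ℤ) :
    ∫ q, ‖md n (cp k d (lf A d η N w (f q.1))) q.2 - md n (fun v => f q.1 v) q.2‖ ^ 2
      ∂ν.prod (qq A) ≤ 8 * C ^ 2 * (η ^ 2 * c ^ 2) +
        2 * (liouville A).real {v | DD A w v ≤ η * Real.exp N} := by
  have := prob_qq hA
  have := prob_liouville hA
  have d0 : 0 < d := by nlinarith [mul_pos hη hw]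
  have bL := BM_Lam hA hη hN w
  have bG := H.bm.lf hA d hη hN w
  have sG : ∀ y, BM (lf A d η N w (f y)) := fun y => bG.comp (g := Prod.mk y) (by fun_prop)
  have hm : MeasurableSet {v | DD A w v ≤ η * Real.exp N} :=
    measurableSet_le (measurable_DD hA w) measurable_const
  have bI : BM (indicator {v | DD A w v ≤ η * Real.exp N} fun _ => (2 : ℝ)) :=
    ⟨measurable_const.indicator hm, ‖(2 : ℝ)‖, fun v => norm_indicator_le_norm_self _ _⟩
  have := bessel (F := fun y v => cp k d (lf A d η N w (f y)) v - f y v)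
    ((BM.cp (F := fun y => lf A d η N w (f y)) bG hρ d).sub H.bm.ofReal) ν (qq A) {n}
  simp only [Finset.sum_singleton, md_sub ((sG _).cp' hρ d) (H.bm.sec _).ofReal] at this
  refine this.trans ((int2_le hA H.bm (d := d) (a := 4 * C ^ 2 * 8)
    (((BM.const (4 * C ^ 2 * η ^ 2)).mul bL.sq).add bI)
    fun y => (ae_nice hA d0.ne').mono fun v hv => ?_).trans ?_)
  · have a1 := est_k hA hη hN hw hd (H.bm.sec y) (H.le1 y) hv hρ hC
    have a3 := osc_nonneg (A := A) d (f y) v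
    have a4 := osc_le (A := A) d (H.le1 y) v
    have a5 : 2 * ‖((kap η N (DD A w v) * f y v : ℝ) : ℂ) - f y v‖ ^ 2 ≤
        indicator {v | DD A w v ≤ η * Real.exp N} (fun _ => (2 : ℝ)) v := by
      rw [← ofReal_sub, norm_real, Real.norm_eq_abs, sq_abs]
      by_cases h : DD A w v ≤ η * Real.exp N
      · rw [indicator_of_mem (by exact h), ← sub_one_mul, mul_pow]
        have b1 := abs_le.1 (abs_kap_le hη hN (DD A w v))
        have b2 := kap_nonneg hη hN (DD A w v)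
        have b3 := (sq_le_one_iff_abs_le_one _).2 (H.le1 y v)
        nlinarith [mul_le_of_le_one_right (sq_nonneg (kap η N (DD A w v) - 1)) b3]
      · rw [indicator_of_notMem (by exact h), kap_one hη hN (not_le.1 h).le]
        simp
    rw [h1, one_mul] at a1
    have a6 := (norm_sub_le_norm_sub_add_norm_sub _ _ (f y v : ℂ)).trans (add_le_add a1 le_rfl)
    refine (pow_le_pow_left₀ (norm_nonneg _) a6 2).trans ?_
    generalize Lam η N (DD A w v) = L
    generalize osc A d (f y) v = o at *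
    generalize ‖((kap η N (DD A w v) * f y v : ℝ) : ℂ) - f y v‖ = e at *
    nlinarith [sq_nonneg (C * (L * η + o) - e), mul_nonneg (sq_nonneg C) (sq_nonneg (L * η - o)),
      mul_nonneg (sq_nonneg C) (mul_nonneg a3 (sub_nonneg.2 a4))]
  · rw [integral_add (((BM.const _).mul bL.sq).int _) (bI.int _), integral_const_mul,
      integral_indicator_const _ hm, smul_eq_mul]
    nlinarith [mul_le_mul_of_nonneg_left hc1 (mul_nonneg (sq_nonneg C) (sq_nonneg η)),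
      mul_le_mul_of_nonneg_left hω (sq_nonneg C)]

theorem approx (H : Hyp A ν Ψ f f' M) (n : ℤ) {ε : ℝ} (ε0 : 0 < ε) : ∃ u : Y → ℂ → ℂ,
    BM (fun q : Y × ℂ => u q.1 q.2) ∧ BM (fun q : Y × ℂ => dz (u q.1) q.2) ∧
    BM (fun q : Y × ℂ => dzb (u q.1) q.2) ∧ (∀ y, ContDiff ℝ 1 (u y)) ∧ (∀ y, Sym A n (u y)) ∧
    ∫ q, ‖dz (u q.1) q.2‖ ^ 2 ∂ν.prod (qq A) ≤ ε ∧ ∫ q, ‖dzb (u q.1) q.2‖ ^ 2 ∂ν.prod (qq A) ≤ ε ∧
    ∫ q, ‖u q.1 q.2 - md n (fun v => f q.1 v) q.2‖ ^ 2 ∂ν.prod (qq A) ≤ ε := by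
  obtain ⟨ρ, hρ, r1, r2⟩ := exists_rho
  obtain ⟨C0, hC0⟩ := hρ.supp.exists_bound_of_continuous hρ.1.continuous
  obtain ⟨C1, hC1⟩ := hρ.dz.supp.exists_bound_of_continuous hρ.dz.1.continuous
  obtain ⟨C2, hC2⟩ := hρ.dzb.supp.exists_bound_of_continuous hρ.dzb.1.continuous
  obtain ⟨D1, D10, hD1⟩ := DD_meas hA
  obtain ⟨D2, D20, hD2⟩ := int_Lam hA
  have lim : ∀ a : ℝ, ∃ K : ℕ, 0 < K ∧ a / K < ε / 3 := fun a =>
    ((eventually_gt_atTop 0).and ((tendsto_const_div_atTop_nhds_zero_nat a).eventually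
      (gt_mem_nhds (by positivity)))).exists
  obtain ⟨K, K0, hK⟩ := lim (M ^ 2)
  obtain ⟨N, N0, hN⟩ := lim (4 * K ^ 2 * (24 * max C1 C2 * (D2 + 1)))
  have N1 : (0 : ℝ) < N := by exact_mod_cast N0
  obtain ⟨c, c0, hc⟩ : ∃ c : ℝ, 0 < c ∧ c ^ 2 = (D2 + 1) / N :=
    ⟨√((D2 + 1) / N), Real.sqrt_pos.2 (by positivity), Real.sq_sqrt (by positivity)⟩
  have sm : ∀ g : ℝ → ℝ, Continuous g → g 0 = 0 → ∀ e > 0, ∀ᶠ t in 𝓝[>] (0 : ℝ), g t < e :=
    fun g h1 h2 e he => ((h1.tendsto' _ _ h2).eventually (gt_mem_nhds he)).filter_mono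
      nhdsWithin_le_nhds
  obtain ⟨η, hη1, hη⟩ := ((sm (fun η => 8 * C0 ^ 2 * (η ^ 2 * c ^ 2) +
    2 * (D1 * (η * Real.exp N) ^ 2)) (by fun_prop) (by simp) ε ε0).and self_mem_nhdsWithin).exists
  replace hη : 0 < η := hη
  have t1 : Tendsto (fun w : ℝ => η * w / 6) (𝓝[>] 0) (𝓝[>] 0) :=
    tendsto_nhdsWithin_iff.2 ⟨(Continuous.tendsto' (by fun_prop) _ _ (by simp)).mono_left
      nhdsWithin_le_nhds, eventually_mem_nhdsWithin.mono fun w (hw : 0 < w) => by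
        show 0 < η * w / 6
        positivity⟩
  obtain ⟨w, ⟨hw1, hw2⟩, hw, hw3⟩ := (((sm (fun w => 4 * K ^ 2 * (w * c * M)) (by fun_prop)
    (by simp) (ε / 3) (by positivity)).and (((osc_tendsto hA ν H.bm H.le1).comp t1).eventually
    (gt_mem_nhds (by positivity : 0 < η ^ 2 * c ^ 2 / 8)))).and
    (Ioc_mem_nhdsGT zero_lt_one)).exists
  obtain ⟨d, hd⟩ : ∃ d, d = η * w / 6 := ⟨_, rfl⟩
  have hd' : 6 * d = η * w := by linarith
  have d0 : 0 < d := by rw [hd]; positivity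
  have hω : 8 * ∫ y, ∫ v, osc A d (f y) v ∂liouville A ∂ν ≤ η ^ 2 * c ^ 2 := by
    rw [Function.comp, ← hd] at hw2
    linarith
  have hc1 : ∫ v, Lam η N (DD A w v) ^ 2 ∂liouville A ≤ c ^ 2 :=
    (hD2 w hw hw3 η hη N N0).trans (hc ▸ div_le_div_of_nonneg_right (by linarith) N1.le)
  have hs : ∀ φ n, Sym A n (md n (cp (fun z => ρ ‖z‖) d (lf A d η N w φ))) :=
    fun φ n i x hx => md_symm hA hη hw hd' hρ hx φ n
  have e1 := main_est hA H hρ r2 (fun z => (hC1 z).trans (le_max_left _ C2))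
    (fun z => (hC2 z).trans (le_max_right _ _)) hη N1 hw hd' c0.le hs hc1 hω n K0
  have e2 := close_est hA H hρ r1 hC0 hη N1 hw hd' hc1 hω n
  have bG := H.bm.lf hA d hη N1 w
  have sG : ∀ y, BM (lf A d η N w (f y)) := fun y => bG.comp (g := Prod.mk y) (by fun_prop)
  have e3 := gen_N hA (ν := ν) (G := fun y => lf A d η N w (f y)) bG hρ d0.ne' (fun y => hs _) n
  generalize (fun z : ℂ => (ρ ‖z‖ : ℂ)) = k at hρ hs e1 e2 e3
  have e4 : ∫ q, ‖md n (pd (dz k) d (lf A d η N w (f q.1))) q.2‖ ^ 2 ∂ν.prod (qq A) ≤ ε := by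
    refine e1.trans ?_
    rw [hc, ← mul_div_assoc, mul_add, ← mul_div_assoc]
    linarith
  refine ⟨fun y => md n (cp k d (lf A d η N w (f y))),
    BM.md (F := fun y => cp k d (lf A d η N w (f y)))
      (BM.cp (F := fun y => lf A d η N w (f y)) bG hρ d) n, ?_, ?_,
    fun y => (smooth_md (sG y) hρ d0.ne' n).of_le (by simp), fun y => hs _ n, ?_, ?_,
    e2.trans (by linarith [hD1 w hw hw3 (η * Real.exp N) (by positivity)])⟩
  · simp only [dz_md (sG _) hρ d0.ne']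
    exact BM.md (F := fun y => pd (dz k) d (lf A d η N w (f y)))
      (BM.pd (G := fun y => lf A d η N w (f y)) bG hρ.dz d) n
  · simp only [dzb_md (sG _) hρ d0.ne']
    exact BM.md (F := fun y => pd (dzb k) d (lf A d η N w (f y)))
      (BM.pd (G := fun y => lf A d η N w (f y)) bG hρ.dzb d) n
  · simp only [dz_md (sG _) hρ d0.ne']
    exact e4
  · simp only [dzb_md (sG _) hρ d0.ne']
    exact e3.symm.trans_le e4

end

end Vale.Agent.P099
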