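import Vale.Agent.P099.Orb

open MeasureTheory Filter Topology Set Complex
open scoped RealInnerProductSpace ComplexConjugate ENNReal

namespace Vale.Agent.P099

noncomputable section

abbrev hc : Measure UnitAddCircle := AddCircle.haarAddCircle

abbrev mm : Measure Phase := (volume : Measure ℂ).prod hc

variable (A : Fin 3 → ℂ)

def St (s : ℝ) (v : Phase) : Phase := fold A (mv s v)

def Us (s : ℝ) : Set Phase := {v | v ∈ Z0 A ∧ 2 * |s| < rad A v.1}

def Gs (s : ℝ) : ℕ → Set Phase
  | 0 => Z0 A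
  | n + 1 => Us A s ∩ St A s ⁻¹' Gs s n

def qq : Measure ℂ := (volume (table A))⁻¹ • volume.restrict (table A)

def Dm : ℝ := ‖tau A 0‖ + ‖tau A 1‖ + ‖tau A 2‖

variable {A}

lemma mp_rp (i : Fin 3) : MeasurePreserving (rp A i) volume volume :=
  (measurePreserving_add_left volume (A (i + 1))).comp
    ((conjLIE.trans (rotation (AddCircle.toCircle (be A i)))).measurePreserving.comp
      (measurePreserving_sub_right volume (A (i + 1))))

lemma mp_refl (i : Fin 3) : MeasurePreserving (refl A i) mm mm :=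
  (mp_rp i).prod (Measure.measurePreserving_sub_left hc (be A i))

lemma mp_mv (s : ℝ) : MeasurePreserving (mv s) mm mm := by
  have h := (MeasurePreserving.id hc).skew_product (μc := (volume : Measure ℂ))
    (g := fun θ x => x + s • vel θ) (Continuous.measurable (by unfold Function.uncurry; fun_prop))
    (ae_of_all _ fun θ => map_add_right_eq_self volume _)
  exact Measure.measurePreserving_swap.comp (h.comp Measure.measurePreserving_swap)

lemma exists_sel : ∃ (τ : Fin 4 → Phase → Phase) (c : Phase → Fin 4), Measurable c ∧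
    (∀ j, MeasurePreserving (τ j) mm mm) ∧ (∀ j w, τ j (τ j w) = w) ∧
    ∀ w, fold A w = τ (c w) w := by
  classical
  refine ⟨![refl A 0, refl A 1, refl A 2, id], fun w => if out A 0 w then 0 else
    if out A 1 w then 1 else if out A 2 w then 2 else 3, ?_, fun j => ?_, fun j w => ?_,
    fun w => ?_⟩
  · exact Measurable.ite (measurableSet_out 0) measurable_const
      (Measurable.ite (measurableSet_out 1) measurable_const
        (Measurable.ite (measurableSet_out 2) measurable_const measurable_const))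
  · fin_cases j
    exacts [mp_refl 0, mp_refl 1, mp_refl 2, MeasurePreserving.id _]
  · fin_cases j
    exacts [refl_refl 0 w, refl_refl 1 w, refl_refl 2 w, rfl]
  · unfold fold foldi
    dsimp only
    split_ifs <;> rfl

lemma fold_le {E C : Set Phase} (hE : MeasurableSet E) (inj : InjOn (fold A) E)
    (maps : MapsTo (fold A) E C) : mm E ≤ mm C := by
  obtain ⟨τ, c, hc, h1, h2, h3⟩ := exists_sel (A := A)
  have hm : ∀ j, MeasurableSet (E ∩ c ⁻¹' {j}) := fun j => hE.inter (hc (measurableSet_singleton j))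
  have key : ∀ j w, w ∈ τ j ⁻¹' (E ∩ c ⁻¹' {j}) → fold A (τ j w) = w := fun j w hw => by
    rw [h3, show c (τ j w) = j from hw.2, h2]
  calc mm E ≤ ∑' j, mm (E ∩ c ⁻¹' {j}) :=
        le_trans (measure_mono fun w hw => mem_iUnion.2 ⟨c w, mem_inter hw (mem_preimage.2 rfl)⟩)
          (measure_iUnion_le fun j => E ∩ c ⁻¹' {j})
    _ = ∑' j, mm (τ j ⁻¹' (E ∩ c ⁻¹' {j})) :=
        tsum_congr fun j => ((h1 j).measure_preimage (hm j).nullMeasurableSet).symm
    _ = mm (⋃ j, τ j ⁻¹' (E ∩ c ⁻¹' {j})) := by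
        refine (measure_iUnion (fun i j hij => ?_) fun j => (h1 j).measurable (hm j)).symm
        refine Set.disjoint_left.2 fun w hi hj => hij ?_
        have := inj hi.1 hj.1 ((key i w hi).trans (key j w hj).symm)
        rw [← show c (τ i w) = i from hi.2, this]
        exact hj.2
    _ ≤ mm C := measure_mono fun w hw => by
        obtain ⟨j, hj⟩ := mem_iUnion.1 hw
        exact key j w hj ▸ maps hj.1

lemma fold_null {N : Set Phase} (hN : mm N = 0) : mm (fold A ⁻¹' N) = 0 := by
  obtain ⟨τ, c, -, h1, -, h3⟩ := exists_sel (A := A)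
  refine measure_mono_null (fun w hw => mem_iUnion.2 ⟨c w, ?_⟩)
    (measure_iUnion_null fun j => (h1 j).quasiMeasurePreserving.preimage_null hN)
  rwa [mem_preimage, h3] at hw

lemma isClosed_KK : IsClosed (KK A) := by
  have : KK A = ⋂ j, {p | 0 ≤ lam A j p} := by
    ext p
    simp [KK]
  rw [this]
  exact isClosed_iInter fun j => isClosed_le (by fun_prop) (by fun_prop)

lemma measurableSet_Z0 : MeasurableSet (Z0 A) := by
  have : Z0 A = Prod.fst ⁻¹' KK A ∩ ({w | 0 < rad A w.1} ∩ ⋂ i, {w | out A i w}ᶜ) := by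
    ext w
    simp [Z0]
  rw [this]
  exact (measurable_fst isClosed_KK.measurableSet).inter
    ((isOpen_lt (by fun_prop) (by fun_prop)).measurableSet.inter
      (MeasurableSet.iInter fun i => (measurableSet_out i).compl))

lemma measurableSet_Us (s : ℝ) : MeasurableSet (Us A s) :=
  measurableSet_Z0.inter (isOpen_lt (f := fun _ : Phase => 2 * |s|) (by fun_prop)
    (by fun_prop)).measurableSet

lemma measurable_St_iter (n : ℕ) : Measurable fun q : ℝ × Phase => (St A q.1)^[n] q.2 := by
  induction n with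
  | zero => exact measurable_snd
  | succ n ih =>
    simp only [Function.iterate_succ_apply']
    exact measurable_fold.comp (continuous_mv.measurable.comp (measurable_fst.prodMk ih))

lemma measurable_St (s : ℝ) : Measurable (St A s) :=
  measurable_fold.comp (mp_mv s).measurable

lemma measurableSet_Gs (s : ℝ) (n : ℕ) : MeasurableSet (Gs A s n) := by
  induction n with
  | zero => exact measurableSet_Z0
  | succ n ih => exact (measurableSet_Us s).inter (measurable_St s ih)

variable (hA : ar A ≠ 0)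
include hA

lemma step_le (s : ℝ) {B : Set Phase} (hB : MeasurableSet B) :
    mm (Us A s ∩ St A s ⁻¹' B) ≤ mm (B ∩ Z0 A) := by
  have hE := (measurableSet_Us (A := A) s).inter (measurable_St (A := A) s hB)
  rw [← (mp_mv (-s)).measure_preimage hE.nullMeasurableSet]
  have e : ∀ w, mv s (mv (-s) w) = w := fun w => by rw [mv_mv, neg_add_cancel, mv_zero]
  refine fold_le (A := A) ((mp_mv (-s)).measurable hE) (fun w hw w' hw' h => ?_) fun w hw => ⟨?_, ?_⟩
  · have h1 := step_inv hA hw.1.1 hw.1.2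
    have h2 := step_inv hA hw'.1.1 hw'.1.2
    rw [e] at h1 h2
    rw [← e w, ← e w', ← h1, h, h2]
  · have := hw.2
    rwa [mem_preimage, St, e] at this
  · refine fold_mem hA hw.1.1.1 ?_
    have := norm_mv s (mv (-s) w)
    rw [e] at this
    linarith [hw.1.2, abs_nonneg s]

lemma Gs_le (s : ℝ) (n : ℕ) {B : Set Phase} (hB : MeasurableSet B) :
    mm (Gs A s n ∩ (St A s)^[n] ⁻¹' B) ≤ mm (B ∩ Z0 A) := by
  induction n with
  | zero => exact le_of_eq (congrArg _ (inter_comm _ _))
  | succ n ih =>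
    have := step_le hA s ((measurableSet_Gs (A := A) s n).inter
      ((measurable_St (A := A) s).iterate n hB))
    refine le_trans (le_of_eq ?_) (this.trans ((measure_mono inter_subset_left).trans ih))
    rw [Gs, inter_assoc]
    rfl

lemma Gs_compl (s : ℝ) (n : ℕ) : mm (Z0 A \ Gs A s n) ≤ n * mm (Z0 A \ Us A s) := by
  induction n with
  | zero => simp [Gs]
  | succ n ih =>
    have h := step_le hA s (measurableSet_Gs (A := A) s n).compl
    rw [inter_comm (Gs A s n)ᶜ, ← diff_eq] at h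
    calc mm (Z0 A \ Gs A s (n + 1))
        ≤ mm ((Us A s ∩ St A s ⁻¹' (Gs A s n)ᶜ) ∪ (Z0 A \ Us A s)) :=
          measure_mono fun v hv => by
            by_cases h : v ∈ Us A s
            exacts [Or.inl ⟨h, fun h' => hv.2 ⟨h, h'⟩⟩, Or.inr ⟨hv.1, h⟩]
      _ ≤ n * mm (Z0 A \ Us A s) + mm (Z0 A \ Us A s) :=
          (measure_union_le _ _).trans (add_le_add (h.trans ih) le_rfl)
      _ = _ := by
          push_cast
          ring

lemma norm_sub_vertex {x : ℂ} (hx : x ∈ KK A) (i : Fin 3) :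
    ‖x - A i‖ ≤ (1 - lam A i x) * Dm A := by
  have h1 := bary hA x
  have h2 := lam_sum hA x
  have e : x - A i = lam A (i + 1) x • tau A (i + 2) + lam A (i + 2) x • -tau A (i + 1) := by
    conv_lhs => rw [h1, ← one_smul ℝ (A i), ← h2]
    fin_cases i <;> simp only [tau] <;> simp <;> ring
  have e2 : 1 - lam A i x = lam A (i + 1) x + lam A (i + 2) x := by
    fin_cases i <;> simp <;> linarith
  have hD : ∀ j, ‖tau A j‖ ≤ Dm A := fun j => by
    have h0 := norm_nonneg (tau A 0)
    have h1 := norm_nonneg (tau A 1)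
    have h2 := norm_nonneg (tau A 2)
    fin_cases j <;> simp [Dm] <;> linarith
  rw [e, e2, add_mul]
  refine (norm_add_le _ _).trans (add_le_add ?_ ?_)
  · rw [norm_smul, Real.norm_of_nonneg (hx _)]
    exact mul_le_mul_of_nonneg_left (hD _) (hx _)
  · rw [norm_smul, Real.norm_of_nonneg (hx _), norm_neg]
    exact mul_le_mul_of_nonneg_left (hD _) (hx _)

omit hA in
lemma Dm_nonneg : 0 ≤ Dm A := by
  unfold Dm
  positivity

lemma KK_subset : KK A ⊆ Metric.closedBall (A 0) (Dm A) := fun x hx => by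
  have := norm_sub_vertex hA hx 0
  rw [mem_closedBall_iff_norm]
  nlinarith [hx 0, Dm_nonneg (A := A)]

lemma isCompact_KK : IsCompact (KK A) :=
  (isCompact_closedBall _ _).of_isClosed_subset isClosed_KK (KK_subset hA)

lemma vol_rad : ∃ C : ℝ, 0 ≤ C ∧ ∀ r, 0 ≤ r →
    volume {x | x ∈ KK A ∧ rad A x ≤ r} ≤ ENNReal.ofReal (C * r ^ 2) := by
  have hL := Lc_pos hA
  have hD := Dm_nonneg (A := A)
  refine ⟨3 * (Real.pi * (2 * Lc A * Dm A) ^ 2), by positivity, fun r hr => ?_⟩
  have : {x | x ∈ KK A ∧ rad A x ≤ r} ⊆ ⋃ i, Metric.closedBall (A i) (2 * Lc A * Dm A * r) := by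
    rintro x ⟨hx, h⟩
    rw [rad, div_le_iff₀ (by positivity)] at h
    obtain ⟨i, hi⟩ : ∃ i, 1 - lam A i x ≤ r * (2 * Lc A) := by
      simp only [min_le_iff] at h
      rcases h with (h | h) | h <;> exact ⟨_, h⟩
    refine mem_iUnion.2 ⟨i, mem_closedBall_iff_norm.2 ((norm_sub_vertex hA hx i).trans ?_)⟩
    nlinarith [mul_le_mul_of_nonneg_right hi hD]
  refine ((measure_mono this).trans (measure_iUnion_fintype_le _ _)).trans (le_of_eq ?_)
  simp only [Complex.volume_closedBall, Finset.sum_const, Finset.card_univ, Fintype.card_fin,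
    nsmul_eq_mul]
  rw [← ENNReal.ofReal_pow (by positivity), ← ENNReal.ofReal_coe_nnreal, NNReal.coe_real_pi,
    ← ENNReal.ofReal_mul (by positivity), ← ENNReal.ofReal_natCast,
    ← ENNReal.ofReal_mul (by positivity)]
  congr 1
  push_cast
  ring

lemma Gs_orbit {s : ℝ} (hs : s ≠ 0) (n : ℕ) : ∀ v ∈ Gs A s n,
    ∃ γ : ℝ → Phase, γ 0 = v ∧ ∀ t, 0 ≤ t / s → t / s ≤ n → Loc A γ t := by
  induction n with
  | zero =>
    intro v hv
    refine ⟨fun t => fold A (mv t v), by simp only [mv_zero, fold_of_not_out hv.2.2],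
      fun t h0 h1 => loc_chart hA hv.1 ?_⟩
    have : t = 0 := (div_eq_zero_iff.1 (le_antisymm (by simpa using h1) h0)).resolve_right hs
    rw [norm_mv, this, abs_zero]
    exact hv.2.1
  | succ n ih =>
    rintro v ⟨⟨hv, hr⟩, h2⟩
    obtain ⟨γ, hγ, hl⟩ := ih _ h2
    have s0 := abs_pos.2 hs
    have cd : Continuous fun t : ℝ => t / s := by fun_prop
    refine ⟨fun t => if t / s < 1 then fold A (mv t v) else γ (t + -s),
      by simp [mv_zero, fold_of_not_out hv.2.2], fun t h0 h1 => ?_⟩
    rcases lt_or_ge (t / s) 1 with h | h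
    · refine (loc_chart hA hv.1 (w := v) ?_).congr ?_
      · have : |t| = |t / s| * |s| := by rw [← abs_mul, div_mul_cancel₀ _ hs]
        rw [norm_mv, this, abs_of_nonneg h0]
        nlinarith
      · filter_upwards [cd.continuousAt.eventually_lt continuousAt_const h] with u hu
        rw [if_pos hu]
    have e : (t + -s) / s = t / s - 1 := by
      field_simp
      ring
    refine (hl (t + -s) (by linarith) (by push_cast at h1; linarith)).shift.congr ?_
    rcases h.lt_or_eq with h | h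
    · filter_upwards [continuousAt_const.eventually_lt cd.continuousAt h] with u hu
      rw [if_neg (not_lt.2 hu.le)]
    obtain rfl : t = s := (div_eq_one_iff_eq hs).1 h.symm
    have h3 := ((hl (t + -t) (by simp) (by simp)).shift).2
    simp only [add_neg_cancel, hγ] at h3
    filter_upwards [h3, ev_abs_lt t s0] with u h4 h5
    split_ifs
    · have a1 : ‖(mv t v).1 - v.1‖ < rad A v.1 := by rw [norm_mv]; linarith
      have e2 : mv (u - t) (mv t v) = mv u v := by rw [mv_mv, add_sub_cancel]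
      rw [h4, St, fold_mv_fold hA hv.1 a1, e2]
      · rw [e2, norm_mv]
        linarith [abs_sub_abs_le_abs_sub u t]
      · have b1 := norm_fold_le hA hv.1 a1
        have b2 := norm_mv (u - t) (fold A (mv t v))
        rw [norm_mv] at b1
        linarith [norm_sub_le_norm_sub_add_norm_sub (mv (u - t) (fold A (mv t v))).1
          (fold A (mv t v)).1 v.1]
    · rfl

lemma good_of {v : Phase} (h1 : ∀ N : ℕ, ∃ γ : ℝ → Phase, γ 0 = v ∧ ∀ t ∈ Icc (0 : ℝ) N, Loc A γ t)
    (h2 : ∀ N : ℕ, ∃ γ : ℝ → Phase, γ 0 = v ∧ ∀ t ∈ Icc (-N : ℝ) 0, Loc A γ t) : v ∈ Good A := by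
  have h3 : ∀ N : ℕ, ∃ γ : ℝ → Phase, γ 0 = v ∧ ∀ t : ℝ, |t| ≤ N → Loc A γ t := fun N => by
    obtain ⟨γ, a1, a2⟩ := h1 N
    obtain ⟨γ', b1, b2⟩ := h2 N
    refine ⟨fun t => if 0 ≤ t then γ t else γ' t, by simpa, fun t ht => ?_⟩
    rw [abs_le] at ht
    rcases lt_trichotomy t 0 with h | rfl | h
    · refine (b2 t ⟨ht.1, h.le⟩).congr ?_
      filter_upwards [gt_mem_nhds h] with u hu
      rw [if_neg (not_le.2 hu)]
    · refine (a2 0 ⟨le_rfl, ht.2⟩).congr ?_
      filter_upwards [(a2 0 ⟨le_rfl, ht.2⟩).2, (b2 0 ⟨ht.1, le_rfl⟩).2] with u c1 c2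
      split_ifs
      · rfl
      · rw [c1, c2, a1, b1]
    · refine (a2 t ⟨h.le, ht.2⟩).congr ?_
      filter_upwards [lt_mem_nhds h] with u hu
      rw [if_pos hu.le]
  choose γ a1 a2 using h3
  refine ⟨fun t => γ (⌈|t|⌉₊ + 1) t, (isOrbit_iff hA).2 fun t => ?_, a1 _⟩
  have b : ∀ u : ℝ, |u| ≤ ((⌈|u|⌉₊ + 1 : ℕ) : ℝ) - 1 := fun u => by
    simpa using Nat.le_ceil |u|
  refine (a2 (⌈|t|⌉₊ + 1) t (by linarith [b t])).congr ?_
  filter_upwards [ev_abs_lt t one_pos] with u hu
  refine loc_unique hA (isPreconnected_Icc (a := -|u|) (b := |u|)) (fun r hr => a2 _ r ?_)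
    (fun r hr => a2 _ r ?_) (a := 0) (by simp) (abs_le.1 le_rfl) (by rw [a1, a1])
  · linarith [abs_le.2 hr, b t, abs_sub_abs_le_abs_sub u t]
  · linarith [abs_le.2 hr, b u]

lemma Gs_of_good (s : ℝ) (n : ℕ) : ∀ v ∈ Good A,
    (∀ t, |t| ≤ n * |s| → 2 * |s| < rad A (flow A t v).1) →
      v ∈ Gs A s n ∧ (St A s)^[n] v = flow A (n * s) v := by
  induction n with
  | zero => exact fun v hv _ => ⟨Good.z0 hA hv, by simp [flow_zero]⟩
  | succ n ih =>
    intro v hv h
    have h0 := h 0 (by rw [abs_zero]; positivity)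
    rw [flow_zero] at h0
    have e : St A s v = flow A s v := (flow_step hA hv (by linarith [abs_nonneg s])).symm
    obtain ⟨h1, h2⟩ := ih _ (flow_good hA hv s) fun t ht => by
      rw [flow_add hA]
      refine h _ ((abs_add_le t s).trans ?_)
      push_cast
      linarith
    refine ⟨⟨⟨Good.z0 hA hv, h0⟩, by rwa [mem_preimage, e]⟩, ?_⟩
    rw [Function.iterate_succ_apply, e, h2, flow_add hA]
    push_cast
    rw [add_mul, one_mul]

lemma ev_Gs {v : Phase} (hv : v ∈ Good A) (t : ℝ) : ∀ᶠ n : ℕ in atTop,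
    v ∈ Gs A (t / (n + 1)) (n + 1) ∧ (St A (t / (n + 1)))^[n + 1] v = flow A t v := by
  obtain ⟨u, -, hu⟩ := (isCompact_Icc (a := -|t|) (b := |t|)).exists_isMinOn ⟨0, by simp⟩
    (continuous_rad.comp (continuous_flow_pos hA v)).continuousOn
  have h0 : 0 < rad A (flow A u v).1 := (Good.z0 hA (flow_good hA hv u)).2.1
  have h1 : Tendsto (fun n : ℕ => 2 * |t / (n + 1)|) atTop (𝓝 0) := by
    have := ((tendsto_one_div_add_atTop_nhds_zero_nat (𝕜 := ℝ)).const_mul t).abs.const_mul 2
    simpa [div_eq_mul_inv] using this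
  filter_upwards [h1.eventually (gt_mem_nhds h0)] with n hn
  have n0 : (0 : ℝ) < n + 1 := by positivity
  have e : ((n + 1 : ℕ) : ℝ) * (t / (n + 1)) = t := by
    push_cast
    field_simp
  have := Gs_of_good hA (t / (n + 1)) (n + 1) v hv fun r hr => hn.trans_le (hu (abs_le.1 ?_))
  · rwa [e] at this
  · rwa [← Nat.abs_cast, ← abs_mul, e] at hr

lemma good_eq : Good A = ⋂ N : ℕ, ((⋃ n : ℕ, Gs A ((N + 1) / (n + 1)) (n + 1)) ∩
    ⋃ n : ℕ, Gs A (-(N + 1) / (n + 1)) (n + 1)) := by
  ext v
  simp only [mem_iInter, mem_inter_iff, mem_iUnion]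
  refine ⟨fun hv N => ⟨(ev_Gs hA hv _).exists.imp fun _ h => h.1,
    (ev_Gs hA hv _).exists.imp fun _ h => h.1⟩, fun h => good_of hA (fun N => ?_) fun N => ?_⟩
  · obtain ⟨n, hn⟩ := (h N).1
    have s0 : (0 : ℝ) < (N + 1) / (n + 1) := by positivity
    obtain ⟨γ, h1, h2⟩ := Gs_orbit hA s0.ne' _ v hn
    refine ⟨γ, h1, fun t ht => h2 t (div_nonneg ht.1 s0.le) ?_⟩
    rw [div_le_iff₀ s0]
    push_cast
    field_simp
    linarith [ht.2]
  · obtain ⟨n, hn⟩ := (h N).2
    have s0 : (0 : ℝ) < (N + 1) / (n + 1) := by positivity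
    rw [neg_div] at hn
    obtain ⟨γ, h1, h2⟩ := Gs_orbit hA (neg_ne_zero.2 s0.ne') _ v hn
    refine ⟨γ, h1, fun t ht => h2 t (div_nonneg_of_nonpos ht.2 (by linarith)) ?_⟩
    rw [div_neg, ← neg_div, div_le_iff₀ s0]
    push_cast
    field_simp
    linarith [ht.1]

lemma measurableSet_good : MeasurableSet (Good A) := by
  rw [good_eq hA]
  exact MeasurableSet.iInter fun N => (MeasurableSet.iUnion fun n => measurableSet_Gs _ _).inter
    (MeasurableSet.iUnion fun n => measurableSet_Gs _ _)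

lemma measurable_flow : Measurable fun q : ℝ × Phase => flow A q.1 q.2 := by
  classical
  refine measurable_of_tendsto_metrizable (f := fun (n : ℕ) (q : ℝ × Phase) =>
    if q.2 ∈ Good A then (St A (q.1 / (n + 1)))^[n + 1] q.2 else q.2) (fun n => ?_)
    (tendsto_pi_nhds.2 fun q => ?_)
  · have h1 : Measurable fun q : ℝ × Phase => (q.1 / (n + 1), q.2) := by fun_prop
    have h2 := (measurable_St_iter (A := A) (n + 1)).comp h1
    exact Measurable.ite (measurable_snd (measurableSet_good hA)) h2 measurable_snd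
  · by_cases h : q.2 ∈ Good A
    · simp only [if_pos h]
      exact tendsto_const_nhds.congr' ((ev_Gs hA h q.1).mono fun n hn => hn.2.symm)
    · simp only [if_neg h, flow_of_not h]
      exact tendsto_const_nhds

lemma measurable_flow' (t : ℝ) : Measurable (flow A t) :=
  (measurable_flow hA).comp measurable_prodMk_left

lemma bad_null : mm (Z0 A \ Good A) = 0 := by
  obtain ⟨C, C0, hC⟩ := vol_rad hA
  have key : ∀ t : ℝ, mm (Z0 A \ ⋃ n : ℕ, Gs A (t / (n + 1)) (n + 1)) = 0 := fun t => by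
    have h1 : Tendsto (fun n : ℕ => ENNReal.ofReal (C * 4 * t ^ 2 * (1 / (n + 1)))) atTop
        (𝓝 0) := by
      have := ENNReal.tendsto_ofReal
        ((tendsto_one_div_add_atTop_nhds_zero_nat (𝕜 := ℝ)).const_mul (C * 4 * t ^ 2))
      simpa only [mul_zero, ENNReal.ofReal_zero] using this
    refine le_antisymm (ge_of_tendsto' h1 fun n => ?_) zero_le
    refine (measure_mono (diff_subset_diff_right (subset_iUnion _ n))).trans
      ((Gs_compl hA _ _).trans ?_)
    have h2 : mm (Z0 A \ Us A (t / (n + 1))) ≤ ENNReal.ofReal (C * (2 * |t / (n + 1)|) ^ 2) := by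
      refine le_trans (measure_mono (t := {x | x ∈ KK A ∧ rad A x ≤ 2 * |t / (n + 1)|} ×ˢ univ)
        fun v hv => ⟨⟨hv.1.1, not_lt.1 fun h => hv.2 ⟨hv.1, h⟩⟩, trivial⟩) ?_
      rw [Measure.prod_prod, measure_univ, mul_one]
      exact hC _ (by positivity)
    refine (mul_le_mul_right h2 _).trans (le_of_eq ?_)
    rw [← ENNReal.ofReal_natCast, ← ENNReal.ofReal_mul (by positivity), mul_pow, sq_abs]
    congr 1
    push_cast
    field_simp
    ring
  rw [good_eq hA, diff_iInter]
  refine measure_iUnion_null fun N => ?_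
  rw [diff_inter]
  exact measure_union_null (key _) (key _)

lemma flow_le (t : ℝ) {B : Set Phase} (hB : MeasurableSet B) :
    mm (flow A t ⁻¹' B ∩ Z0 A) ≤ mm (B ∩ Z0 A) := by
  let S : ℕ → Set Phase := fun N => ⋂ n ≥ N,
    Gs A (t / (n + 1)) (n + 1) ∩ (St A (t / (n + 1)))^[n + 1] ⁻¹' B
  have hS : Monotone S := fun a b hab => biInter_subset_biInter_left fun n hn => hab.trans hn
  calc mm (flow A t ⁻¹' B ∩ Z0 A) ≤ mm ((⋃ N, S N) ∪ (Z0 A \ Good A)) :=
        measure_mono fun v hv => by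
          by_cases h : v ∈ Good A
          · obtain ⟨N, hN⟩ := eventually_atTop.1 (ev_Gs hA h t)
            refine Or.inl (mem_iUnion.2 ⟨N, mem_iInter₂.2 fun n hn => ⟨(hN n hn).1, ?_⟩⟩)
            rw [mem_preimage, (hN n hn).2]
            exact hv.1
          · exact Or.inr ⟨hv.2, h⟩
    _ ≤ mm (⋃ N, S N) := by
        refine (measure_union_le _ _).trans ?_
        rw [bad_null hA, add_zero]
    _ ≤ mm (B ∩ Z0 A) := by
        rw [hS.measure_iUnion]
        exact iSup_le fun N => (measure_mono (biInter_subset_of_mem (le_refl N))).trans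
          (Gs_le hA _ _ hB)

lemma vol_QQ_ne_top : volume (QQ A) ≠ ∞ :=
  ((measure_mono fun _ hp j => (hp j).le).trans_lt (isCompact_KK hA).measure_lt_top).ne

lemma vol_QQ_ne_zero : volume (QQ A) ≠ 0 := by
  refine (isOpen_QQ.measure_pos volume ⟨A 0 + (1 / 3 : ℝ) • (A 1 - A 0) +
    (1 / 3 : ℝ) • (A 2 - A 0), fun j => ?_⟩).ne'
  simp only [lam_add, dl_smul, ← lam_sub, lam_vertex hA]
  fin_cases j <;> simp <;> norm_num

lemma qq_eq : qq A = (volume (QQ A))⁻¹ • volume.restrict (QQ A) := by rw [qq, table_eq hA]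

lemma prob_qq : IsProbabilityMeasure (qq A) := by
  constructor
  rw [qq_eq hA, Measure.smul_apply, Measure.restrict_apply_univ, smul_eq_mul,
    ENNReal.inv_mul_cancel (vol_QQ_ne_zero hA) (vol_QQ_ne_top hA)]

lemma ae_qq : ∀ᵐ x ∂qq A, x ∈ QQ A := by
  rw [qq_eq hA]
  exact Measure.ae_smul_measure (ae_restrict_mem isOpen_QQ.measurableSet) _

lemma prob_liouville : IsProbabilityMeasure (liouville A) := by
  have := prob_qq hA
  exact inferInstanceAs (IsProbabilityMeasure ((qq A).prod hc))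

lemma liouville_eq : liouville A = (volume (QQ A))⁻¹ • mm.restrict (Z0 A) := by
  rw [liouville, table_eq hA, Measure.prod_smul_left, Measure.restrict_prod_eq_prod_univ]
  congr 1
  refine Measure.restrict_congr_set (ae_eq_set.2 ⟨?_, ?_⟩)
  · rw [diff_eq_empty.2 fun w hw => mem_Z0_of_QQ hA hw.1, measure_empty]
  · refine measure_mono_null (t := frontier (KK A) ×ˢ univ) (fun w hw => ⟨⟨subset_closure
      hw.1.1, fun h => hw.2 ⟨?_, trivial⟩⟩, trivial⟩) ?_
    · rwa [← table_eq hA, table, hull_eq hA]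
    · rw [Measure.prod_prod, Convex.addHaar_frontier, zero_mul]
      rw [← hull_eq hA]
      exact convex_convexHull ℝ _

lemma ae_good : ∀ᵐ v ∂liouville A, v ∈ Good A := by
  rw [liouville_eq hA]
  refine Measure.ae_smul_measure ?_ _
  rw [ae_iff, Measure.restrict_apply' measurableSet_Z0, inter_comm]
  exact bad_null hA

lemma mp_flow (t : ℝ) : MeasurePreserving (flow A t) (liouville A) (liouville A) := by
  have := prob_liouville hA
  have hm := measurable_flow' hA t
  have key : ∀ B, MeasurableSet B → liouville A (flow A t ⁻¹' B) ≤ liouville A B := fun B hB => by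
    rw [liouville_eq hA, Measure.smul_apply, Measure.smul_apply, Measure.restrict_apply (hm hB),
      Measure.restrict_apply hB]
    exact mul_le_mul_right (flow_le hA t hB) _
  refine ⟨hm, Measure.ext fun B hB => ?_⟩
  rw [Measure.map_apply hm hB]
  refine le_antisymm (key B hB) ?_
  have h := key Bᶜ hB.compl
  rw [preimage_compl, prob_compl_eq_one_sub (hm hB), prob_compl_eq_one_sub hB] at h
  exact (ENNReal.sub_le_sub_iff_left prob_le_one ENNReal.one_ne_top).1 h

lemma ae_fold_good : ∀ᵐ θ ∂hc, ∀ᵐ p : ℂ, fold A (p, θ) ∈ Z0 A → fold A (p, θ) ∈ Good A := by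
  have h : ∀ᵐ w ∂mm, fold A w ∈ Z0 A → fold A w ∈ Good A := by
    rw [ae_iff]
    refine measure_mono_null (fun w hw => ?_) (fold_null (A := A) (bad_null hA))
    simpa using hw
  exact Measure.ae_ae_of_ae_prod (Measure.measurePreserving_swap.quasiMeasurePreserving.ae h)

end

end Vale.Agent.P099
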