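import Vale.Agent.P099.Stokes
import Vale.Agent.P099.Alg

open MeasureTheory Filter Topology Set Complex
open scoped RealInnerProductSpace ComplexConjugate ENNReal Convolution ContDiff

namespace Vale.Agent.P099

noncomputable section

def BM {α E : Type} [MeasurableSpace α] [MeasurableSpace E] [NormedAddCommGroup E] (F : α → E) :
    Prop := Measurable F ∧ ∃ C, ∀ a, ‖F a‖ ≤ C

section BM

variable {α β E : Type} [MeasurableSpace α] [MeasurableSpace β] [MeasurableSpace E]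
  [NormedAddCommGroup E]

lemma BM.comp {F : α → E} (h : BM F) {g : β → α} (hg : Measurable g) : BM fun b => F (g b) :=
  ⟨h.1.comp hg, h.2.imp fun _ hC _ => hC _⟩

lemma BM.const (c : E) : BM fun _ : α => c := ⟨measurable_const, ‖c‖, fun _ => le_rfl⟩

variable [BorelSpace E] [SecondCountableTopology E]

lemma BM.add {F G : α → E} (h : BM F) (h' : BM G) : BM fun a => F a + G a := by
  obtain ⟨C, hC⟩ := h.2
  obtain ⟨D, hD⟩ := h'.2
  exact ⟨h.1.add h'.1, C + D, fun a => norm_add_le_of_le (hC a) (hD a)⟩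

lemma BM.sub {F G : α → E} (h : BM F) (h' : BM G) : BM fun a => F a - G a := by
  obtain ⟨C, hC⟩ := h.2
  obtain ⟨D, hD⟩ := h'.2
  exact ⟨h.1.sub h'.1, C + D, fun a => norm_sub_le_of_le (hC a) (hD a)⟩

omit [SecondCountableTopology E] in
lemma BM.norm {F : α → E} (h : BM F) : BM fun a => ‖F a‖ :=
  ⟨h.1.norm, h.2.imp fun _ hC a => by simpa using hC a⟩

lemma BM.memLp {F : α → E} (h : BM F) (μ : Measure α) [IsFiniteMeasure μ] (p : ℝ≥0∞) :
    MemLp F p μ := by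
  obtain ⟨C, hC⟩ := h.2
  exact MemLp.of_bound h.1.aestronglyMeasurable C (ae_of_all _ hC)

lemma BM.int {F : α → E} (h : BM F) (μ : Measure α) [IsFiniteMeasure μ] : Integrable F μ :=
  memLp_one_iff_integrable.1 (h.memLp μ 1)

lemma BM.integral [NormedSpace ℝ E] {F : α × β → E} (h : BM F) (μ : Measure β)
    [IsFiniteMeasure μ] : BM fun a => ∫ b, F (a, b) ∂μ := by
  obtain ⟨C, hC⟩ := h.2
  exact ⟨h.1.stronglyMeasurable.integral_prod_right'.measurable, C * μ.real univ,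
    fun a => norm_integral_le_of_norm_le_const (ae_of_all _ fun b => hC _)⟩

end BM

section BM2

variable {α : Type} [MeasurableSpace α]

lemma BM.mul {𝕜 : Type} [RCLike 𝕜] {F G : α → 𝕜} (h : BM F) (h' : BM G) : BM fun a => F a * G a := by
  obtain ⟨C, hC⟩ := h.2
  obtain ⟨D, hD⟩ := h'.2
  exact ⟨h.1.mul h'.1, C * D, fun a => norm_mul_le_of_le (hC a) (hD a)⟩

lemma BM.sq {F : α → ℝ} (h : BM F) : BM fun a => F a ^ 2 := by
  simpa only [pow_two] using h.mul h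

lemma BM.inner {F G : α → ℂ} (h : BM F) (h' : BM G) : BM fun a => ⟪F a, G a⟫ := by
  obtain ⟨C, hC⟩ := h.2
  obtain ⟨D, hD⟩ := h'.2
  exact ⟨h.1.inner h'.1, C * D, fun a => (norm_inner_le_norm _ _).trans
    (mul_le_mul (hC a) (hD a) (norm_nonneg _) ((norm_nonneg _).trans (hC a)))⟩

lemma BM.ofReal {F : α → ℝ} (h : BM F) : BM fun a => (F a : ℂ) :=
  ⟨measurable_ofReal.comp h.1, h.2.imp fun _ hC a => by simpa using hC a⟩

lemma BM.kint {F : α → ℂ} (h : BM F) {μ : Measure α} {k : α → ℂ} (hk : Integrable k μ) :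
    Integrable (fun z => k z * F z) μ := by
  obtain ⟨C, hC⟩ := h.2
  exact hk.mul_bdd h.1.aestronglyMeasurable (ae_of_all _ hC)

lemma int3 {μ : Measure α} {k : α → ℂ} (hk : Integrable k μ) {a b c : α → ℂ} (ha : BM a)
    (hb : BM b) (hc : BM c) {s : ℂ} {e : ℝ}
    (h : ∀ᵐ z ∂μ, k z ≠ 0 → ‖a z - b z - s * c z‖ ≤ e) :
    ‖∫ z, k z * a z ∂μ - ∫ z, k z * b z ∂μ - s * ∫ z, k z * c z ∂μ‖ ≤ (∫ z, ‖k z‖ ∂μ) * e := by
  have i1 : Integrable (fun z => k z * a z - k z * b z) μ := (ha.kint hk).sub (hb.kint hk)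
  rw [← integral_const_mul, ← integral_sub (ha.kint hk) (hb.kint hk),
    ← integral_sub i1 ((hc.kint hk).const_mul s), ← integral_mul_const]
  refine norm_integral_le_of_norm_le (hk.norm.mul_const e) (h.mono fun z hz => ?_)
  rw [show k z * a z - k z * b z - s * (k z * c z) = k z * (a z - b z - s * c z) by
    ring, norm_mul]
  by_cases h0 : k z = 0
  · simp [h0]
  · exact mul_le_mul_of_nonneg_left (hz h0) (norm_nonneg _)

lemma skew {μ : Measure α} [IsProbabilityMeasure μ] {Ψ : ℝ → α → α}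
    (hΨ : ∀ s, MeasurePreserving (Ψ s) μ μ) {a a' b b' : α → ℂ} (ha : BM a) (ha' : BM a')
    (hb : BM b) (hb' : BM b') {L L' : ℝ} (h1 : ∀ s y, ‖a (Ψ s y) - a y - s * a' y‖ ≤ L * s ^ 2)
    (h2 : ∀ s y, ‖b (Ψ s y) - b y - s * b' y‖ ≤ L' * s ^ 2) :
    ∫ y, ⟪a' y, b y⟫ ∂μ = -∫ y, ⟪a y, b' y⟫ ∂μ := by
  obtain ⟨C1, c1⟩ := ha.2
  obtain ⟨C2, c2⟩ := ha'.2
  obtain ⟨C3, c3⟩ := hb.2
  obtain ⟨C4, c4⟩ := hb'.2
  have i0 := (ha.inner hb).int μ
  have i1 := ((ha'.inner hb).add (ha.inner hb')).int μ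
  rw [eq_neg_iff_add_eq_zero, ← integral_add ((ha'.inner hb).int μ) ((ha.inner hb').int μ)]
  have key : ∀ s : ℝ, 0 < s → s ≤ 1 → ‖∫ y, ⟪a' y, b y⟫ + ⟪a y, b' y⟫ ∂μ‖ ≤
      (L * C3 + (C1 + C2) * L' + C2 * C4) * s := fun s s0 s1 => by
    have e : ∫ y, ⟪a (Ψ s y), b (Ψ s y)⟫ ∂μ = ∫ y, ⟪a y, b y⟫ ∂μ := by
      rw [← integral_map (hΨ s).aemeasurable (ha.inner hb).1.aestronglyMeasurable, (hΨ s).map_eq]
    have i2 := ((ha.inner hb).comp (hΨ s).measurable).int μ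
    have := norm_integral_le_of_norm_le_const (μ := μ) (f := fun y => ⟪a (Ψ s y), b (Ψ s y)⟫ -
      ⟪a y, b y⟫ - s * (⟪a' y, b y⟫ + ⟪a y, b' y⟫))
      (C := (L * C3 + (C1 + C2) * L' + C2 * C4) * s * s) (ae_of_all _ fun y => ?_)
    · erw [integral_sub (i2.sub i0) (i1.const_mul s), integral_sub i2 i0] at this
      rw [e, integral_const_mul,
        sub_self, zero_sub, norm_neg, norm_mul, Real.norm_of_nonneg s0.le, probReal_univ, mul_one,
        mul_comm] at this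
      exact le_of_mul_le_mul_right this s0
    · have e2 : ⟪a (Ψ s y), b (Ψ s y)⟫ - ⟪a y, b y⟫ - s * (⟪a' y, b y⟫ + ⟪a y, b' y⟫) =
          ⟪a (Ψ s y) - a y - s * a' y, b (Ψ s y)⟫ + ⟪a y + s * a' y, b (Ψ s y) - b y - s * b' y⟫ +
            s ^ 2 * ⟪a' y, b' y⟫ := by
        simp only [← real_smul, inner_sub_left, inner_sub_right, inner_add_left, inner_smul_left,
          inner_smul_right, conj_trivial]
        ring
      have b1 := (norm_inner_le_norm (𝕜 := ℝ) _ _).trans (mul_le_mul (h1 s y) (c3 (Ψ s y))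
        (norm_nonneg _) ((norm_nonneg _).trans (h1 s y)))
      have b0 : ‖a y + s * a' y‖ ≤ C1 + C2 := norm_add_le_of_le (c1 y) (by
        rw [norm_mul, norm_real, Real.norm_of_nonneg s0.le]
        nlinarith [c2 y, norm_nonneg (a' y)])
      have b2 := (norm_inner_le_norm (𝕜 := ℝ) _ _).trans (mul_le_mul b0 (h2 s y)
        (norm_nonneg _) ((norm_nonneg _).trans b0))
      have b3 := (norm_inner_le_norm (𝕜 := ℝ) _ _).trans (mul_le_mul (c2 y) (c4 y)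
        (norm_nonneg _) ((norm_nonneg _).trans (c2 y)))
      rw [e2]
      refine (norm_add_le_of_le (norm_add_le_of_le b1 b2) (norm_mul_le_of_le
        (le_of_eq (Real.norm_of_nonneg (sq_nonneg s))) b3)).trans (le_of_eq ?_)
      ring
  refine norm_le_zero_iff.1 (ge_of_tendsto (f := fun s : ℝ =>
    (L * C3 + (C1 + C2) * L' + C2 * C4) * s) (x := 𝓝[>] 0) ?_ ?_)
  · exact (Continuous.tendsto' (by fun_prop) _ _ (by simp)).mono_left nhdsWithin_le_nhds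
  · filter_upwards [Ioc_mem_nhdsGT zero_lt_one] with s hs using key s hs.1 hs.2

theorem alg' {μ : Measure α} [IsFiniteMeasure μ] (P Q a g : ℤ → α → ℂ) (hP : ∀ k, BM (P k))
    (hQ : ∀ k, BM (Q k)) (ha : ∀ k, BM (a k)) {γ β M R : ℝ} (γ0 : 0 ≤ γ) (β0 : 0 ≤ β) (M0 : 0 ≤ M)
    (hN : ∀ k, ∫ x, ‖P k x‖ ^ 2 ∂μ = ∫ x, ‖Q k x‖ ^ 2 ∂μ)
    (hS : ∀ k, ∫ x, ⟪a k x, P (k - 1) x⟫ ∂μ = ∫ x, ⟪a (k - 1) x, Q k x⟫ ∂μ)
    (hg : ∀ k x, g k x = P (k - 1) x + Q (k + 1) x + a k x)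
    (h1 : ∀ S : Finset ℤ, ∑ k ∈ S, ∫ x, ‖g k x‖ ^ 2 ∂μ ≤ γ ^ 2)
    (h2 : ∀ S : Finset ℤ, ∑ k ∈ S, ∫ x, ‖Q (k + 1) x - P (k - 1) x‖ ^ 2 ∂μ ≤ β ^ 2)
    (h3 : ∀ S : Finset ℤ, ∑ k ∈ S, ∫ x, ‖a k x‖ ^ 2 ∂μ ≤ M ^ 2)
    (h4 : ∀ S : Finset ℤ, ∑ k ∈ S, ∫ x, ‖P k x‖ ^ 2 ∂μ ≤ R) (k : ℤ) {K : ℕ} (hK : 0 < K) :
    ∫ x, ‖P k x‖ ^ 2 ∂μ ≤ M ^ 2 / K + 4 * K ^ 2 * (γ * β + γ * M) := by
  have e1 : ∀ {F G : α → ℂ} (hF : MemLp F 2 μ) (hG : MemLp G 2 μ),
      ⟪hF.toLp F, hG.toLp G⟫ = ∫ x, ⟪F x, G x⟫ ∂μ := fun hF hG => by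
    rw [L2.inner_def]
    refine integral_congr_ae ?_
    filter_upwards [hF.coeFn_toLp, hG.coeFn_toLp] with x h1 h2
    rw [h1, h2]
  have e2 : ∀ {F : α → ℂ} (hF : MemLp F 2 μ), ‖hF.toLp F‖ ^ 2 = ∫ x, ‖F x‖ ^ 2 ∂μ := fun hF => by
    simp only [← real_inner_self_eq_norm_sq, e1]
  have := alg (fun k => ((hP k).memLp μ 2).toLp _) (fun k => ((hQ k).memLp μ 2).toLp _)
    (fun k => ((ha k).memLp μ 2).toLp _) _ (R := R) γ0 β0 M0
    (fun k => (sq_eq_sq₀ (norm_nonneg _) (norm_nonneg _)).1 (by rw [e2, e2, hN]))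
    (fun k => by rw [e1, e1, hS]) (fun k => rfl)
    (fun S => by simpa only [← MemLp.toLp_add, e2, Pi.add_apply, ← hg] using h1 S)
    (fun S => by simpa only [← MemLp.toLp_sub, e2, Pi.sub_apply] using h2 S)
    (fun S => by simpa only [e2] using h3 S) (fun S => by simpa only [e2] using h4 S) k hK
  rwa [e2] at this

end BM2

def Ker (k : ℂ → ℂ) : Prop := ContDiff ℝ ∞ k ∧ ∀ z, 1 < ‖z‖ → k z = 0

def cv (k : ℂ → ℂ) (d : ℝ) (φ : ℂ → ℂ) (x : ℂ) : ℂ := ∫ z, k z * φ (x - d • z)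

lemma Ker.supp {k : ℂ → ℂ} (h : Ker k) : HasCompactSupport k :=
  HasCompactSupport.intro (isCompact_closedBall 0 1) fun z hz => h.2 z (by simpa using hz)

lemma Ker.int {k : ℂ → ℂ} (h : Ker k) : Integrable k :=
  h.1.continuous.integrable_of_hasCompactSupport h.supp

lemma Ker.le {k : ℂ → ℂ} (h : Ker k) {z : ℂ} (hz : k z ≠ 0) : ‖z‖ ≤ 1 :=
  not_lt.1 fun h' => hz (h.2 z h')

lemma Ker.fderiv {k : ℂ → ℂ} (h : Ker k) (ζ : ℂ) : Ker fun z => fderiv ℝ k z ζ := by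
  refine ⟨(h.1.fderiv_right (m := ∞) le_rfl).clm_apply contDiff_const, fun z hz => ?_⟩
  have : k =ᶠ[𝓝 z] fun _ => 0 :=
    (continuousAt_const.eventually_lt continuous_norm.continuousAt hz).mono h.2
  simp [this.fderiv_eq]

lemma Ker.dz {k : ℂ → ℂ} (h : Ker k) : Ker (dz k) :=
  ⟨((h.fderiv 1).1.sub (contDiff_const.mul (h.fderiv I).1)).div_const 2, fun z hz => by
    simp [P099.dz, (h.fderiv 1).2 z hz, (h.fderiv I).2 z hz]⟩

lemma Ker.dzb {k : ℂ → ℂ} (h : Ker k) : Ker (dzb k) :=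
  ⟨((h.fderiv 1).1.add (contDiff_const.mul (h.fderiv I).1)).div_const 2, fun z hz => by
    simp [P099.dzb, (h.fderiv 1).2 z hz, (h.fderiv I).2 z hz]⟩

lemma BM.loc {φ : ℂ → ℂ} (h : BM φ) : LocallyIntegrable φ := by
  obtain ⟨C, hC⟩ := h.2
  exact (memLp_top_of_bound h.1.aestronglyMeasurable C (ae_of_all _ hC)).locallyIntegrable le_top

lemma cv_eq (k : ℂ → ℂ) {d : ℝ} (hd : d ≠ 0) (φ : ℂ → ℂ) : cv k d φ = fun x =>
    (k ⋆[ContinuousLinearMap.mul ℝ ℂ, volume] fun q => φ (d • q)) (d⁻¹ • x) := by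
  ext x
  simp only [cv, convolution_def, ContinuousLinearMap.mul_apply', smul_sub, smul_inv_smul₀ hd]

lemma contDiff_cv {k : ℂ → ℂ} (hk : Ker k) {d : ℝ} (hd : d ≠ 0) {φ : ℂ → ℂ} (h : BM φ) :
    ContDiff ℝ ∞ (cv k d φ) := by
  rw [cv_eq k hd]
  exact (hk.supp.contDiff_convolution_left _ hk.1 (h.comp (by fun_prop)).loc).comp
    (contDiff_const_smul _)

lemma fderiv_cv {k : ℂ → ℂ} (hk : Ker k) {d : ℝ} (hd : d ≠ 0) {φ : ℂ → ℂ} (h : BM φ) (x ζ : ℂ) :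
    fderiv ℝ (cv k d φ) x ζ = (d : ℂ)⁻¹ * cv (fun z => fderiv ℝ k z ζ) d φ x := by
  have h1 := (h.comp (g := fun q : ℂ => d • q) (by fun_prop)).loc
  have h2 := (hk.supp.hasFDerivAt_convolution_left (ContinuousLinearMap.mul ℝ ℂ)
    (hk.1.of_le (by simp)) h1 (d⁻¹ • x)).comp x ((hasFDerivAt_id x).const_smul d⁻¹)
  have h3 := (hk.supp.fderiv ℝ).convolutionExists_left ((ContinuousLinearMap.mul ℝ ℂ).precompL ℂ)
    (hk.1.continuous_fderiv (by simp)) h1 (d⁻¹ • x)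
  rw [cv_eq k hd, cv_eq _ hd]
  erw [h2.fderiv]
  simp only [ContinuousLinearMap.comp_apply, ContinuousLinearMap.smul_apply,
    ContinuousLinearMap.id_apply, map_smul, convolution_def]
  rw [ContinuousLinearMap.integral_apply h3, real_smul, ofReal_inv]
  rfl

lemma cv_int {k : ℂ → ℂ} (hk : Ker k) (d : ℝ) {φ : ℂ → ℂ} (h : BM φ) (x : ℂ) :
    Integrable fun z => k z * φ (x - d • z) := (h.comp (by fun_prop)).kint hk.int

lemma dz_cv {k : ℂ → ℂ} (hk : Ker k) {d : ℝ} (hd : d ≠ 0) {φ : ℂ → ℂ} (h : BM φ) (x : ℂ) :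
    dz (cv k d φ) x = (d : ℂ)⁻¹ * cv (dz k) d φ x := by
  rw [dz, fderiv_cv hk hd h, fderiv_cv hk hd h, mul_left_comm, ← mul_sub, mul_div_assoc, cv, cv,
    ← integral_const_mul I, ← integral_sub (cv_int (hk.fderiv 1) d h x)
    ((cv_int (hk.fderiv I) d h x).const_mul I), ← integral_div, cv]
  congr 2
  ext z
  rw [dz]
  ring

lemma dzb_cv {k : ℂ → ℂ} (hk : Ker k) {d : ℝ} (hd : d ≠ 0) {φ : ℂ → ℂ} (h : BM φ) (x : ℂ) :
    dzb (cv k d φ) x = (d : ℂ)⁻¹ * cv (dzb k) d φ x := by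
  rw [dzb, fderiv_cv hk hd h, fderiv_cv hk hd h, mul_left_comm, ← mul_add, mul_div_assoc, cv, cv,
    ← integral_const_mul I, ← integral_add (cv_int (hk.fderiv 1) d h x)
    ((cv_int (hk.fderiv I) d h x).const_mul I), ← integral_div, cv]
  congr 2
  ext z
  rw [dzb]
  ring

lemma Ker.int_dz {k : ℂ → ℂ} (hk : Ker k) : ∫ z, P099.dz k z = 0 ∧ ∫ z, P099.dzb k z = 0 := by
  have h1 := dz_cv hk one_ne_zero (BM.const 1) 0
  have h2 := dzb_cv hk one_ne_zero (BM.const 1) 0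
  have e : cv k 1 (fun _ => 1) = fun _ => ∫ z, k z := by
    ext x
    simp [cv]
  rw [e] at h1 h2
  simp only [P099.dz, P099.dzb, fderiv_fun_const, cv] at h1 h2
  constructor
  · simpa [P099.dz] using h1.symm
  · simpa [P099.dzb] using h2.symm

lemma exists_rho : ∃ ρ : ℝ → ℝ, Ker (fun z => ρ ‖z‖) ∧ ∫ z : ℂ, (ρ ‖z‖ : ℂ) = 1 ∧
    ∫ z : ℂ, ‖(ρ ‖z‖ : ℂ)‖ = 1 := by
  have h1 : ContDiff ℝ ∞ fun z : ℂ => expNegInvGlue (1 - ‖z‖ ^ 2) :=
    expNegInvGlue.contDiff.comp (contDiff_const.sub (contDiff_norm_sq ℝ))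
  have h2 : ∀ z : ℂ, 1 < ‖z‖ → expNegInvGlue (1 - ‖z‖ ^ 2) = 0 := fun z hz =>
    expNegInvGlue.zero_of_nonpos (by nlinarith)
  have h3 : 0 < ∫ z : ℂ, expNegInvGlue (1 - ‖z‖ ^ 2) :=
    h1.continuous.integral_pos_of_hasCompactSupport_nonneg_nonzero (x := 0)
      (HasCompactSupport.intro (isCompact_closedBall 0 1) fun z hz => h2 z (by simpa using hz))
      (fun z => expNegInvGlue.nonneg _) (expNegInvGlue.pos_of_pos (by simp)).ne'
  have h4 : ∫ z : ℂ, expNegInvGlue (1 - ‖z‖ ^ 2) / ∫ z : ℂ, expNegInvGlue (1 - ‖z‖ ^ 2) = 1 := by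
    rw [integral_div, div_self h3.ne']
  refine ⟨fun r => expNegInvGlue (1 - r ^ 2) / ∫ z : ℂ, expNegInvGlue (1 - ‖z‖ ^ 2),
    ⟨ofRealCLM.contDiff.comp (h1.div_const _), fun z hz => by simp [h2 z hz]⟩, ?_, ?_⟩
  · rw [integral_complex_ofReal, h4, ofReal_one]
  · refine Eq.trans (integral_congr_ae (ae_of_all _ fun z => ?_)) h4
    dsimp only
    rw [norm_real, Real.norm_of_nonneg (div_nonneg (expNegInvGlue.nonneg _) h3.le)]

def md (n : ℤ) (F : Phase → ℂ) (x : ℂ) : ℂ := ∫ θ, fourier (-n) θ * F (x, θ) ∂hc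

def cp (k : ℂ → ℂ) (d : ℝ) (H : Phase → ℂ) (v : Phase) : ℂ := cv k d (fun p => H (p, v.2)) v.1

lemma BM_fourier (n : ℤ) : BM fun θ : UnitAddCircle => fourier n θ :=
  ⟨(fourier n).continuous.measurable, 1, fun θ => (Circle.norm_coe _).le⟩

section Fam

variable {Y : Type} [MeasurableSpace Y]

lemma BM.md {F : Y → Phase → ℂ} (h : BM fun q : Y × Phase => F q.1 q.2) (n : ℤ) :
    BM fun q : Y × ℂ => md n (F q.1) q.2 :=
  BM.integral (F := fun r : (Y × ℂ) × UnitAddCircle => fourier (-n) r.2 * F r.1.1 (r.1.2, r.2))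
    (((BM_fourier _).comp measurable_snd).mul
      (h.comp (g := fun r : (Y × ℂ) × UnitAddCircle => (r.1.1, (r.1.2, r.2))) (by fun_prop))) hc

lemma BM.cp {F : Y → Phase → ℂ} (h : BM fun q : Y × Phase => F q.1 q.2) {k : ℂ → ℂ} (hk : Ker k)
    (d : ℝ) : BM fun q : Y × Phase => cp k d (F q.1) q.2 := by
  obtain ⟨C, hC⟩ := h.2
  have h1 := h.1.comp (g := fun q : Y × Phase => F q.1 q.2)
    (f := fun r : (Y × Phase) × ℂ => (r.1.1, (r.1.2.1 - d • r.2, r.1.2.2))) (by fun_prop)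
  refine ⟨((hk.1.continuous.measurable.comp measurable_snd).mul
    h1).stronglyMeasurable.integral_prod_right'.measurable, (∫ z, ‖k z‖) * C, fun q => ?_⟩
  rw [← integral_mul_const]
  exact norm_integral_le_of_norm_le (hk.int.norm.mul_const C)
    (ae_of_all _ fun z => norm_mul_le_of_le le_rfl (hC (q.1, (q.2.1 - d • z, q.2.2))))

lemma BM.sec {E : Type} [MeasurableSpace E] [NormedAddCommGroup E] {X : Type} [MeasurableSpace X]
    {F : Y → X → E} (h : BM fun q : Y × X => F q.1 q.2) (y : Y) : BM (F y) :=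
  h.comp (g := Prod.mk y) measurable_prodMk_left

end Fam

lemma BM.md' {F : Phase → ℂ} (h : BM F) (n : ℤ) : BM (P099.md n F) :=
  (BM.md (F := fun _ : Unit => F) (h.comp measurable_snd) n).comp (g := Prod.mk ())
    measurable_prodMk_left

lemma BM.cp' {F : Phase → ℂ} (h : BM F) {k : ℂ → ℂ} (hk : Ker k) (d : ℝ) : BM (P099.cp k d F) :=
  (BM.cp (F := fun _ : Unit => F) (h.comp measurable_snd) hk d).comp (g := Prod.mk ())
    measurable_prodMk_left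

lemma md_cp {H : Phase → ℂ} (h : BM H) {k : ℂ → ℂ} (hk : Ker k) (d : ℝ) (n : ℤ) :
    md n (cp k d H) = cv k d (md n H) := by
  ext x
  simp only [md, cp, cv, ← integral_const_mul]
  rw [integral_integral_swap]
  · simp only [mul_left_comm (k _)]
  · have := (((BM_fourier (-n)).comp measurable_fst).mul (h.comp
      (g := fun r : UnitAddCircle × ℂ => (x - d • r.2, r.1)) (by fun_prop))).kint
      (hk.int.comp_snd hc)
    refine this.congr (ae_of_all _ fun r => ?_)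
    simp only [mul_left_comm (k _), Function.uncurry]

lemma parseval {F : Phase → ℂ} (h : BM F) (x : ℂ) :
    HasSum (fun n => ‖md n F x‖ ^ 2) (∫ θ, ‖F (x, θ)‖ ^ 2 ∂hc) := by
  have h1 := (h.comp (g := Prod.mk x) measurable_prodMk_left).memLp hc 2
  have h2 := hasSum_sq_fourierCoeff (h1.toLp _)
  rw [fourierCoeff_congr_ae h1.coeFn_toLp,
    integral_congr_ae (h1.coeFn_toLp.mono fun θ hθ => congrArg (‖·‖ ^ 2) hθ)] at h2
  exact h2

lemma bessel {Y : Type} [MeasurableSpace Y] {F : Y → Phase → ℂ}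
    (h : BM fun q : Y × Phase => F q.1 q.2) (ν : Measure Y) [IsFiniteMeasure ν] (m : Measure ℂ)
    [IsFiniteMeasure m] (S : Finset ℤ) : ∑ n ∈ S, ∫ q, ‖md n (F q.1) q.2‖ ^ 2 ∂ν.prod m ≤
      ∫ y, ∫ v, ‖F y v‖ ^ 2 ∂m.prod hc ∂ν := by
  have h1 := (h.norm.sq.comp (g := fun r : (Y × ℂ) × UnitAddCircle => (r.1.1, (r.1.2, r.2)))
    (by fun_prop)).integral hc
  rw [← integral_finset_sum _ fun n _ => (h.md n).norm.sq.int _]
  refine (integral_mono (integrable_finset_sum _ fun n _ => (h.md n).norm.sq.int _) (h1.int _)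
    fun q => sum_le_hasSum S (fun _ _ => sq_nonneg _) (parseval (h.sec q.1) q.2)).trans
    (le_of_eq ?_)
  rw [integral_prod _ (h1.int _)]
  congr 1
  ext y
  rw [integral_prod _ ((h.sec y).norm.sq.int _)]

end

end Vale.Agent.P099
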