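import Vale.Agent.P099.Geo

open MeasureTheory Filter Topology Set Complex
open scoped RealInnerProductSpace ComplexConjugate

namespace Vale.Agent.P099

noncomputable section

variable (A : Fin 3 → ℂ)

def Loc (γ : ℝ → Phase) (t : ℝ) : Prop :=
  γ t ∈ Z0 A ∧ ∀ᶠ s in 𝓝 t, γ s = fold A (mv (s - t) (γ t))

def Good : Set Phase := {v | ∃ γ, IsOrbit A γ ∧ γ 0 = v}

variable {A}

lemma Loc.congr {γ γ' : ℝ → Phase} {t : ℝ} (h : Loc A γ t) (e : γ =ᶠ[𝓝 t] γ') : Loc A γ' t := by
  refine ⟨e.eq_of_nhds ▸ h.1, ?_⟩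
  filter_upwards [h.2, e] with s h1 h2
  rw [← h2, h1, e.eq_of_nhds]

lemma Loc.shift {γ : ℝ → Phase} {t a : ℝ} (h : Loc A γ (t + a)) :
    Loc A (fun s => γ (s + a)) t := by
  refine ⟨h.1, ?_⟩
  have : Tendsto (fun s : ℝ => s + a) (𝓝 t) (𝓝 (t + a)) := (continuous_add_const a).tendsto t
  filter_upwards [this.eventually h.2] with s hs
  rw [hs, add_sub_add_right_eq_sub]

lemma ev_abs_lt (t : ℝ) {r : ℝ} (hr : 0 < r) : ∀ᶠ s in 𝓝 t, |s - t| < r := by
  filter_upwards [Metric.ball_mem_nhds t hr] with s hs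
  rwa [Metric.mem_ball, Real.dist_eq] at hs

lemma third (i j : Fin 3) (h : i ≠ j) :
    ∃ k : Fin 3, (i = k + 1 ∧ j = k + 2) ∨ (i = k + 2 ∧ j = k + 1) := by
  revert i j
  decide

variable (hA : ar A ≠ 0)
include hA

lemma Loc.near {γ : ℝ → Phase} {t : ℝ} (h : Loc A γ t) :
    ∀ᶠ s in 𝓝 t, ‖(γ s).1 - (γ t).1‖ ≤ |s - t| := by
  filter_upwards [h.2, ev_abs_lt t h.1.2.1] with s h1 h2
  rw [h1, ← norm_mv (s - t) (γ t)]
  exact norm_fold_le hA h.1.1 (by rwa [norm_mv])

lemma Loc.cont {γ : ℝ → Phase} {t : ℝ} (h : Loc A γ t) : ContinuousAt (fun s => (γ s).1) t := by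
  rw [ContinuousAt, tendsto_iff_norm_sub_tendsto_zero]
  refine squeeze_zero' (Eventually.of_forall fun _ => norm_nonneg _) (h.near hA) ?_
  exact Continuous.tendsto' (by fun_prop) _ _ (by simp)

lemma loc_chart {x : ℂ} (hx : x ∈ KK A) {w : Phase} {t : ℝ} (h : ‖(mv t w).1 - x‖ < rad A x) :
    Loc A (fun s => fold A (mv s w)) t := by
  refine ⟨fold_mem hA hx h, ?_⟩
  have h1 := (norm_fold_le hA hx h).trans_lt h
  have c1 : Continuous fun s : ℝ => ‖(mv s w).1 - x‖ := by
    unfold mv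
    fun_prop
  have c2 : Continuous fun s : ℝ => ‖(mv (s - t) (fold A (mv t w))).1 - x‖ := by
    unfold mv
    fun_prop
  filter_upwards [c1.continuousAt.eventually_lt continuousAt_const h,
    c2.continuousAt.eventually_lt (x₀ := t) continuousAt_const (by simpa [mv_zero] using h1)]
    with s h2 h3
  have e : mv (s - t) (mv t w) = mv s w := by rw [mv_mv, add_sub_cancel]
  rw [fold_mv_fold hA hx h (by rwa [e]) h3, e]

lemma loc_unique {J : Set ℝ} (hJ : IsPreconnected J) {γ γ' : ℝ → Phase}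
    (h : ∀ t ∈ J, Loc A γ t) (h' : ∀ t ∈ J, Loc A γ' t) {a b : ℝ} (ha : a ∈ J) (hb : b ∈ J)
    (e : γ a = γ' a) : γ b = γ' b := by
  refine hJ.induction₂' (fun s t => γ s = γ' s → γ t = γ' t) (fun t ht => ?_)
    (fun _ _ _ _ _ _ h1 h2 h3 => h2 (h1 h3)) ha hb e
  refine Eventually.filter_mono nhdsWithin_le_nhds ?_
  filter_upwards [(h t ht).2, (h' t ht).2, ev_abs_lt t (half_pos (h t ht).1.2.1),
    ev_abs_lt t (half_pos (h' t ht).1.2.1)] with s h1 h2 h3 h4
  refine ⟨fun e => by rw [h1, h2, e], fun e => ?_⟩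
  rw [← step_inv hA (h t ht).1 (s := s - t) (by linarith), ← h1, e, h2,
    step_inv hA (h' t ht).1 (by linarith)]

lemma seg_iff (k : Fin 3) (x : ℂ) :
    x ∈ openSegment ℝ (A (k + 1)) (A (k + 2)) ↔ lam A k x = 0 ∧ x ∈ Wd A k := by
  constructor
  · rintro ⟨a, b, ha, hb, hab, rfl⟩
    have e : ∀ j, lam A j (a • A (k + 1) + b • A (k + 2)) =
        a * lam A j (A (k + 1)) + b * lam A j (A (k + 2)) := fun j => by
      have : a • A (k + 1) + b • A (k + 2) = A (k + 2) + a • (A (k + 1) - A (k + 2)) := by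
        rw [show b = 1 - a by linarith]
        module
      rw [this, lam_add, dl_smul, ← lam_sub, show b = 1 - a by linarith]
      ring
    simp only [Wd, mem_ofPred_eq, e, lam_vertex hA]
    fin_cases k <;> refine ⟨by simp, fun j hj => ?_⟩ <;> fin_cases j <;> simp_all
  · rintro ⟨h0, h⟩
    have h1 := bary hA x
    have h2 := lam_sum hA x
    refine ⟨lam A (k + 1) x, lam A (k + 2) x, h _ (by fin_cases k <;> decide),
      h _ (by fin_cases k <;> decide), ?_, ?_⟩
    · fin_cases k <;> simp at h0 ⊢ <;> linarith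
    · conv_rhs => rw [h1]
      fin_cases k <;> simp at h0 ⊢ <;> simp [h0, add_comm]

lemma law_iff (k : Fin 3) (a b : ℂ) :
    (⟪a, tau A k⟫ = ⟪b, tau A k⟫ ∧ ⟪a, I * tau A k⟫ = -⟪b, I * tau A k⟫) ↔ a = rl A k b := by
  have h3 : conj (tau A k) ≠ 0 := by simpa using tau_ne hA k
  rw [← mul_right_inj' h3, rl, ← mul_assoc, mul_comm (conj (tau A k)) (vel _), vel_be_mul,
    Complex.ext_iff]
  simp only [Complex.inner, mul_re, mul_im, conj_re, conj_im, I_re, I_im]
  constructor <;> rintro ⟨h1, h2⟩ <;> constructor <;> linarith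

lemma IsOrbit.cases {γ : ℝ → Phase} (h : IsOrbit A γ) (t : ℝ) :
    ((γ t).1 ∈ QQ A ∧ ∀ᶠ s in 𝓝 t, γ s = mv (s - t) (γ t)) ∨
      ∃ k, lam A k (γ t).1 = 0 ∧ (γ t).1 ∈ Wd A k ∧ (∀ᶠ s in 𝓝[<] t, γ s =
        ((γ t).1 + (s - t) • vel (be A k - (γ t).2), be A k - (γ t).2)) ∧
        ∀ᶠ s in 𝓝[>] t, γ s = mv (s - t) (γ t) := by
  rcases h t with h | ⟨i, j, hij, h1, θ, h2, h3, h4, h5⟩
  · exact Or.inl ⟨table_eq hA ▸ h.1, h.2⟩
  obtain ⟨k, hk⟩ := third i j hij
  have : (γ t).1 ∈ openSegment ℝ (A (k + 1)) (A (k + 2)) ∧ vel θ = rl A k (vel (γ t).2) := by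
    rw [← law_iff hA]
    rcases hk with ⟨rfl, rfl⟩ | ⟨rfl, rfl⟩
    · exact ⟨h1, h2, h3⟩
    · rw [← neg_sub, mul_neg] at h3
      rw [← neg_sub] at h2
      simp only [inner_neg_right, neg_inj] at h2 h3
      exact ⟨by rwa [openSegment_symm], h2, h3⟩
  obtain ⟨h6, h7⟩ := this
  rw [← vel_be_sub] at h7
  obtain rfl := vel_inj h7
  exact Or.inr ⟨k, ((seg_iff hA k _).1 h6).1, ((seg_iff hA k _).1 h6).2, h4, h5⟩

lemma isOrbit_iff {γ : ℝ → Phase} : IsOrbit A γ ↔ ∀ t, Loc A γ t := by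
  have hW : ∀ (k : Fin 3) (w : Phase) (t : ℝ), w.1 ∈ Wd A k →
      ∀ᶠ s in 𝓝 t, (mv (s - t) w).1 ∈ Wd A k := fun k w t hw => by
    simp only [Wd, mem_ofPred_eq, eventually_all]
    intro j hj
    have c : Continuous fun s : ℝ => lam A j (mv (s - t) w).1 := by
      unfold mv
      fun_prop
    exact continuousAt_const.eventually_lt c.continuousAt (by simpa [mv_zero] using hw j hj)
  have hQ : ∀ (w : Phase) (t : ℝ), w.1 ∈ QQ A →
      ∀ᶠ s in 𝓝 t, fold A (mv (s - t) w) = mv (s - t) w := fun w t hw => by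
    filter_upwards [hW 0 w t fun j _ => hw j, hW 1 w t fun j _ => hw j] with s h0 h1
    refine fold_of_not_out fun j => not_out_of_pos ?_
    rcases eq_or_ne j 0 with rfl | hj
    exacts [h1 0 (by decide), h0 j hj]
  have hS : ∀ (k : Fin 3) (w : Phase) (t : ℝ), lam A k w.1 = 0 → w.1 ∈ Wd A k →
      0 ≤ dl A k (vel w.2) → (∀ᶠ s in 𝓝[<] t, fold A (mv (s - t) w) =
        (w.1 + (s - t) • vel (be A k - w.2), be A k - w.2)) ∧
      ∀ᶠ s in 𝓝[>] t, fold A (mv (s - t) w) = mv (s - t) w := fun k w t h0 hw hd => by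
    have e : ∀ s, lam A k (mv s w).1 = s * dl A k (vel w.2) := fun s => by
      rw [mv, lam_add, h0, dl_smul, zero_add]
    constructor
    · filter_upwards [(hW k w t hw).filter_mono nhdsWithin_le_nhds, self_mem_nhdsWithin]
        with s h1 h2
      have h2' : s - t < 0 := sub_neg.2 h2
      have e2 : (w.1 + (s - t) • vel (be A k - w.2), be A k - w.2) = refl A k (mv (s - t) w) := by
        rw [← mv_refl, mv, refl, rp_eq_self hA h0]
      rw [e2, fold_eq h1, ← foldi_refl hA, foldi, if_neg]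
      simp only [out, refl, lam_rp, e, vel_be_sub, dl_rl, not_or, not_lt, not_and,
        show (mv (s - t) w).2 = w.2 from rfl]
      refine ⟨by nlinarith, fun h => ?_⟩
      have := (mul_eq_zero.1 (neg_eq_zero.1 h)).resolve_left h2'.ne
      linarith
    · filter_upwards [(hW k w t hw).filter_mono nhdsWithin_le_nhds, self_mem_nhdsWithin]
        with s h1 h2
      have h2' : 0 < s - t := sub_pos.2 h2
      rw [fold_eq h1, foldi, if_neg]
      simp only [out, e, not_or, not_lt, not_and]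
      exact ⟨by positivity, fun _ => hd⟩
  constructor
  · intro h
    have hs := h.cases hA
    have hK : ∀ t, (γ t).1 ∈ KK A := fun t j => by
      rcases hs t with h | ⟨k, h0, h1, -⟩
      · exact (h.1 j).le
      · rcases eq_or_ne j k with rfl | hj
        exacts [h0.ge, (h1 j hj).le]
    intro t
    rcases hs t with h | ⟨k, h0, h1, h2, h3⟩
    · refine ⟨mem_Z0_of_QQ hA h.1, ?_⟩
      filter_upwards [h.2, hQ _ t h.1] with s h1 h2
      rw [h2, h1]
    have hd : 0 ≤ dl A k (vel (γ t).2) := by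
      obtain ⟨s, h4, h5⟩ := (h3.and self_mem_nhdsWithin).exists
      have h6 := hK s k
      rw [h4, mv, lam_add, h0, dl_smul, zero_add] at h6
      exact nonneg_of_mul_nonneg_right h6 (sub_pos.2 h5) |> fun h => h
    have hZ : γ t ∈ Z0 A := by
      refine ⟨hK t, rad_pos_of hA h1 h0.ge, fun j => ?_⟩
      rcases eq_or_ne j k with rfl | hj
      · rintro (h | h) <;> linarith [h]
      · exact not_out_of_pos (h1 j hj)
    refine ⟨hZ, ?_⟩
    obtain ⟨a1, a2⟩ := hS k _ t h0 h1 hd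
    rw [← nhdsLT_sup_nhdsGE, ← Ioi_insert, nhdsWithin_insert]
    simp only [eventually_sup, eventually_pure, sub_self, mv_zero, fold_of_not_out hZ.2.2,
      true_and]
    constructor
    · filter_upwards [h2, a1] with s b1 b2
      rw [b1, b2]
    · filter_upwards [h3, a2] with s b1 b2
      rw [b2, ← b1]
  · intro h t
    obtain ⟨hZ, hl⟩ := h t
    by_cases hq : (γ t).1 ∈ QQ A
    · refine Or.inl ⟨(table_eq hA).symm ▸ hq, ?_⟩
      filter_upwards [hl, hQ _ t hq] with s h1 h2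
      rw [h1, h2, mv]
    obtain ⟨k, hk⟩ := chart hA hZ.1
    have h1 := hk _ (by simpa using hZ.2.1 : ‖(γ t).1 - (γ t).1‖ < _)
    have h0 : lam A k (γ t).1 = 0 := by
      refine le_antisymm (not_lt.1 fun h => hq fun j => ?_) (hZ.1 k)
      rcases eq_or_ne j k with rfl | hj
      exacts [h, h1 j hj]
    obtain ⟨a1, a2⟩ := hS k _ t h0 h1 (not_lt.1 fun h => hZ.2.2 k (Or.inr ⟨h0, h⟩))
    have a3 := (law_iff hA k _ _).2 (vel_be_sub k (γ t).2)
    refine Or.inr ⟨k + 1, k + 2, by fin_cases k <;> decide, (seg_iff hA k _).2 ⟨h0, h1⟩,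
      be A k - (γ t).2, a3.1, a3.2, ?_, ?_⟩
    · filter_upwards [hl.filter_mono nhdsWithin_le_nhds, a1] with s b1 b2
      rw [b1, b2]
    · filter_upwards [hl.filter_mono nhdsWithin_le_nhds, a2] with s b1 b2
      rw [b1, b2, mv]

lemma orbit_unique {γ γ' : ℝ → Phase} (h : IsOrbit A γ) (h' : IsOrbit A γ') (e : γ 0 = γ' 0) :
    γ = γ' := by
  rw [isOrbit_iff hA] at h h'
  ext1 t
  exact loc_unique hA isPreconnected_univ (fun t _ => h t) (fun t _ => h' t) (mem_univ 0)
    (mem_univ t) e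

lemma IsOrbit.shift {γ : ℝ → Phase} (h : IsOrbit A γ) (a : ℝ) : IsOrbit A fun s => γ (s + a) := by
  rw [isOrbit_iff hA] at h ⊢
  exact fun t => (h (t + a)).shift

omit hA in
lemma flow_orbit {v : Phase} (hv : v ∈ Good A) :
    IsOrbit A (fun t => flow A t v) ∧ flow A 0 v = v := by
  have hv' : ∃ γ, IsOrbit A γ ∧ γ 0 = v := hv
  simp only [flow, dif_pos hv']
  exact hv'.choose_spec

omit hA in
lemma flow_of_not {v : Phase} (hv : v ∉ Good A) (t : ℝ) : flow A t v = v := dif_neg hv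

omit hA in
lemma flow_zero (v : Phase) : flow A 0 v = v := by
  by_cases hv : v ∈ Good A
  exacts [(flow_orbit hv).2, flow_of_not hv 0]

lemma flow_loc {v : Phase} (hv : v ∈ Good A) (t : ℝ) : Loc A (fun t => flow A t v) t :=
  (isOrbit_iff hA).1 (flow_orbit hv).1 t

lemma flow_good {v : Phase} (hv : v ∈ Good A) (t : ℝ) : flow A t v ∈ Good A :=
  ⟨_, (flow_orbit hv).1.shift hA t, by simp⟩

lemma flow_add (s t : ℝ) (v : Phase) : flow A s (flow A t v) = flow A (s + t) v := by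
  by_cases hv : v ∈ Good A
  · exact congrFun (orbit_unique hA (flow_orbit (flow_good hA hv t)).1
      ((flow_orbit hv).1.shift hA t) (by simp [flow_zero])) s
  · simp only [flow_of_not hv]

lemma Good.z0 {v : Phase} (hv : v ∈ Good A) : v ∈ Z0 A := by
  simpa only [flow_zero] using (flow_loc hA hv 0).1

lemma flow_chart {x : ℂ} (hx : x ∈ KK A) {w : Phase} (hw : ‖w.1 - x‖ < rad A x)
    (hg : fold A w ∈ Good A) {s : ℝ} (hs : ‖(mv s w).1 - x‖ < rad A x) :
    flow A s (fold A w) = fold A (mv s w) := by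
  have hJ : Convex ℝ {t : ℝ | ‖(mv t w).1 - x‖ < rad A x} := by
    intro a ha b hb c d hc hd hcd
    have := convex_ball x (rad A x) (mem_ball_iff_norm.2 ha) (mem_ball_iff_norm.2 hb) hc hd hcd
    rw [mem_ball_iff_norm] at this
    have e : (mv (c • a + d • b) w).1 = c • (mv a w).1 + d • (mv b w).1 := by
      simp only [mv, smul_eq_mul]
      rw [show d = 1 - c by linarith]
      module
    rwa [mem_ofPred_eq, e]
  exact loc_unique hA hJ.isPreconnected (γ := fun t => flow A t (fold A w))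
    (γ' := fun t => fold A (mv t w)) (fun t _ => flow_loc hA hg t)
    (fun t ht => loc_chart hA hx ht) (a := 0) (by simpa [mv_zero] using hw) hs
    (by simp [flow_zero, mv_zero])

lemma flow_step {v : Phase} (hv : v ∈ Good A) {s : ℝ} (hs : |s| < rad A v.1) :
    flow A s v = fold A (mv s v) := by
  have hZ := Good.z0 hA hv
  have e := fold_of_not_out hZ.2.2
  have := flow_chart hA hZ.1 (w := v) (by simpa using hZ.2.1) (by rwa [e]) (s := s)
    (by rwa [norm_mv])
  rwa [e] at this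

lemma norm_flow_le {v : Phase} (hv : v ∈ Good A) {s : ℝ} (hs : |s| < rad A v.1) :
    ‖(flow A s v).1 - v.1‖ ≤ |s| := by
  rw [flow_step hA hv hs, ← norm_mv s v]
  exact norm_fold_le hA (Good.z0 hA hv).1 (by rwa [norm_mv])

lemma continuous_flow_pos (v : Phase) : Continuous fun t => (flow A t v).1 := by
  by_cases hv : v ∈ Good A
  · exact continuous_iff_continuousAt.2 fun t => (flow_loc hA hv t).cont hA
  · simp only [flow_of_not hv]
    exact continuous_const

end

end Vale.Agent.P099
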