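import Vale.Agent.P099.Meas

open MeasureTheory Filter Topology Set Complex
open scoped RealInnerProductSpace ComplexConjugate ENNReal

namespace Vale.Agent.P099

noncomputable section

def dz (u : ℂ → ℂ) (x : ℂ) : ℂ := (fderiv ℝ u x 1 - I * fderiv ℝ u x I) / 2

def dzb (u : ℂ → ℂ) (x : ℂ) : ℂ := (fderiv ℝ u x 1 + I * fderiv ℝ u x I) / 2

lemma fderiv_eq (u : ℂ → ℂ) (x ζ : ℂ) : fderiv ℝ u x ζ = ζ * dz u x + conj ζ * dzb u x := by
  have e : ζ = ζ.re • (1 : ℂ) + ζ.im • I := by simp
  have e2 : conj ζ = ζ.re - ζ.im * I := by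
    apply Complex.ext <;> simp
  conv_lhs => rw [e, map_add, map_smul, map_smul]
  rw [e2, dz, dzb]
  conv_rhs => rw [← re_add_im ζ]
  simp only [real_smul, add_re, ofReal_re, mul_re, I_re, mul_zero, ofReal_im, I_im, mul_one,
    sub_self, add_zero, add_im, mul_im, zero_add]
  linear_combination (ζ.im * fderiv ℝ u x I) * I_mul_I

lemma norm_fderiv_le (u : ℂ → ℂ) (x ζ : ℂ) :
    ‖fderiv ℝ u x ζ‖ ≤ ‖ζ‖ * (‖dz u x‖ + ‖dzb u x‖) := by
  rw [fderiv_eq, mul_add]
  refine (norm_add_le _ _).trans (le_of_eq ?_)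
  rw [norm_mul, norm_mul, norm_conj]

lemma contDiff_dz {n : ℕ} {u : ℂ → ℂ} (hu : ContDiff ℝ (n + 1 : ℕ) u) : ContDiff ℝ n (dz u) := by
  have := hu.fderiv_right (m := n) (by norm_cast)
  unfold dz
  fun_prop

lemma contDiff_dzb {n : ℕ} {u : ℂ → ℂ} (hu : ContDiff ℝ (n + 1 : ℕ) u) :
    ContDiff ℝ n (dzb u) := by
  have := hu.fderiv_right (m := n) (by norm_cast)
  unfold dzb
  fun_prop

lemma continuous_dz {u : ℂ → ℂ} (hu : ContDiff ℝ 1 u) : Continuous (dz u) :=
  (contDiff_dz (n := 0) hu).continuous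

lemma continuous_dzb {u : ℂ → ℂ} (hu : ContDiff ℝ 1 u) : Continuous (dzb u) :=
  (contDiff_dzb (n := 0) hu).continuous

lemma contDiff_cj {n : WithTop ℕ∞} {u : ℂ → ℂ} (hu : ContDiff ℝ n u) :
    ContDiff ℝ n fun x => conj (u x) := conjCLE.contDiff.comp hu

lemma fderiv_cj {u : ℂ → ℂ} (hu : ContDiff ℝ 1 u) (x ζ : ℂ) :
    fderiv ℝ (fun x => conj (u x)) x ζ = conj (fderiv ℝ u x ζ) := by
  have := (conjCLE.hasFDerivAt.comp x (hu.differentiable one_ne_zero x).hasFDerivAt).fderiv
  exact DFunLike.congr_fun this ζ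

lemma dz_cj {u : ℂ → ℂ} (hu : ContDiff ℝ 1 u) (x : ℂ) :
    dz (fun x => conj (u x)) x = conj (dzb u x) := by
  simp only [dz, dzb, fderiv_cj hu, map_div₀, map_add, map_mul, conj_I, map_ofNat]
  ring

lemma dz_mul {u v : ℂ → ℂ} (hu : ContDiff ℝ 1 u) (hv : ContDiff ℝ 1 v) (x : ℂ) :
    dz (fun x => u x * v x) x = dz u x * v x + u x * dz v x := by
  simp only [dz, fderiv_fun_mul (hu.differentiable one_ne_zero x) (hv.differentiable one_ne_zero x),
    ContinuousLinearMap.add_apply, ContinuousLinearMap.smul_apply, smul_eq_mul]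
  ring

lemma dz_sub {u v : ℂ → ℂ} (hu : ContDiff ℝ 1 u) (hv : ContDiff ℝ 1 v) (x : ℂ) :
    dz (fun x => u x - v x) x = dz u x - dz v x := by
  simp only [dz, fderiv_fun_sub (hu.differentiable one_ne_zero x) (hv.differentiable one_ne_zero x),
    ContinuousLinearMap.sub_apply]
  ring

lemma dz_dzb {u : ℂ → ℂ} (hu : ContDiff ℝ 2 u) (x : ℂ) : dz (dzb u) x = dzb (dz u) x := by
  have h1 : DifferentiableAt ℝ (fderiv ℝ u) x :=
    (hu.fderiv_right (m := 1) (by norm_num)).differentiable one_ne_zero x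
  have h2 : ∀ a, HasFDerivAt (fun y => fderiv ℝ u y a) ((fderiv ℝ (fderiv ℝ u) x).flip a) x :=
    fun a => by simpa using h1.hasFDerivAt.clm_apply (hasFDerivAt_const a x)
  have h3 := (((h2 1).sub ((h2 I).const_mul I)).mul_const (2⁻¹ : ℂ)).fderiv
  have h4 := (((h2 1).add ((h2 I).const_mul I)).mul_const (2⁻¹ : ℂ)).fderiv
  have h5 := (hu.contDiffAt (x := x)).isSymmSndFDerivAt (by simp) 1 I
  have e3 : dz u = fun y => (fderiv ℝ u y 1 - I * fderiv ℝ u y I) * 2⁻¹ := rfl
  have e4 : dzb u = fun y => (fderiv ℝ u y 1 + I * fderiv ℝ u y I) * 2⁻¹ := rfl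
  conv_lhs => rw [dz, e4]
  conv_rhs => rw [dzb, e3]
  erw [h3, h4]
  simp only [ContinuousLinearMap.add_apply, ContinuousLinearMap.smul_apply, smul_eq_mul,
    ContinuousLinearMap.sub_apply, ContinuousLinearMap.flip_apply, h5]
  ring

lemma integral_fourier {n : ℤ} (hn : n ≠ 0) : ∫ θ, fourier n θ ∂hc = 0 :=
  integral_eq_zero_of_add_right_eq_neg (fourier_add_half_inv_index hn one_pos)

variable (A : Fin 3 → ℂ)

def Side (i : Fin 3) (q : ℂ) : Prop := lam A i q = 0 ∧ q ∈ Wd A i

variable {A} (hA : ar A ≠ 0)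
include hA

lemma integrable_qq {E : Type} [NormedAddCommGroup E] {f : ℂ → E} (hf : Continuous f) :
    Integrable f (qq A) := by
  have := prob_qq hA
  obtain ⟨C, hC⟩ := (isCompact_KK hA).exists_bound_of_continuousOn hf.continuousOn
  exact Integrable.of_bound hf.aestronglyMeasurable C
    ((ae_qq hA).mono fun x hx => hC x fun j => (hx j).le)

lemma integrable_mu {f : Phase → ℝ} (hf : Continuous f) : Integrable f (liouville A) := by
  have := prob_liouville hA
  obtain ⟨C, hC⟩ := ((isCompact_KK hA).prod isCompact_univ).exists_bound_of_continuousOn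
    hf.continuousOn
  exact Integrable.of_bound hf.aestronglyMeasurable C
    ((ae_good hA).mono fun x hx => hC x ⟨(Good.z0 hA hx).1, trivial⟩)

theorem stokes {W : ℂ → ℂ} (hW : ContDiff ℝ 1 W) (ht : ∀ i q, Side A i q → dl A i (W q) = 0) :
    ∫ x, (dz W x).re ∂qq A = 0 := by
  have := prob_liouville hA
  have := prob_qq hA
  have cW := hW.continuous
  have cD := hW.continuous_fderiv one_ne_zero
  let U : Phase → ℝ := fun v => (W v.1 * conj (vel v.2)).re
  let U' : Phase → ℝ := fun v => (fderiv ℝ W v.1 (vel v.2) * conj (vel v.2)).re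
  have cU : Continuous U := by fun_prop
  have cU' : Continuous U' := by fun_prop
  obtain ⟨L, hL⟩ := ((isCompact_KK hA).prod isCompact_univ).exists_bound_of_continuousOn
    cU'.continuousOn
  have cm : ∀ (w : Phase) (t : ℝ), Tendsto (fun s => U (mv (s - t) w)) (𝓝 t) (𝓝 (U w)) :=
    fun w t => Continuous.tendsto' (by unfold mv; fun_prop) _ _ (by simp [mv_zero])
  have hd : ∀ v ∈ Good A, ∀ t, HasDerivWithinAt (fun t => U (flow A t v)) (U' (flow A t v))
      (Ici t) t := fun v hv t => by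
    generalize hw : flow A t v = w
    have h1 : HasDerivAt (fun s : ℝ => w.1 + (s - t) • vel w.2) (vel w.2) t := by
      simpa using (((hasDerivAt_id t).sub_const t).smul_const (vel w.2)).const_add w.1
    have h2 := (hW.differentiable one_ne_zero w.1).hasFDerivAt.comp_hasDerivAt_of_eq t h1
      (by simp)
    have h3 := reCLM.hasFDerivAt.comp_hasDerivAt t (h2.mul_const (conj (vel w.2)))
    refine h3.hasDerivWithinAt.congr_of_eventuallyEq ?_ (by simp [hw, U])
    have h4 : ∀ᶠ s in 𝓝[>] t, flow A s v = mv (s - t) w := by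
      rcases (flow_orbit hv).1.cases hA t with h | ⟨k, -, -, -, h⟩
      exacts [hw ▸ h.2.filter_mono nhdsWithin_le_nhds, hw ▸ h]
    rw [← Ioi_insert, nhdsWithin_insert, EventuallyEq, eventually_sup, eventually_pure]
    exact ⟨by simp [hw, U], h4.mono fun s hs => by rw [hs]; rfl⟩
  have hc' : ∀ v ∈ Good A, Continuous fun t => U (flow A t v) := fun v hv => by
    refine continuous_iff_continuousAt.2 fun t => ?_
    rcases (flow_orbit hv).1.cases hA t with h | ⟨k, h0, h1, h2, -⟩
    · exact (cm _ t).congr' (h.2.mono fun s hs => congrArg U hs.symm)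
    refine continuousAt_iff_continuous_left'_right'.2 ⟨?_, (hd v hv t).continuousWithinAt.mono
      Ioi_subset_Ici_self⟩
    generalize hw : flow A t v = w at *
    have e : U (w.1, be A k - w.2) = U w := by
      have h := rl_eq_self hA (ht k _ ⟨h0, h1⟩)
      simp only [U, vel_be_sub, rl] at h ⊢
      rw [← conj_re (W w.1 * conj (vel w.2))]
      congr 1
      simp only [map_mul, conj_conj]
      linear_combination (vel w.2 * conj (W w.1)) * vel_mul_conj (be A k) -
        (vel w.2 * conj (vel (be A k))) * h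
    have := (cm (w.1, be A k - w.2) t).mono_left (nhdsWithin_le_nhds (s := Iio t))
    rw [ContinuousWithinAt, hw, ← e]
    exact this.congr' (h2.mono fun s hs => congrArg U hs.symm)
  have iU := integrable_mu hA cU
  have key := tendsto_integral_of_dominated_convergence (μ := liouville A)
    (F := fun (n : ℕ) v => (1 / (n + 1 : ℝ))⁻¹ • (U (flow A (0 + 1 / (n + 1)) v) - U (flow A 0 v)))
    (f := U') (fun _ => L) (fun n => Measurable.aestronglyMeasurable
      (Measurable.const_mul ((cU.measurable.comp (measurable_flow' hA _)).sub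
      (cU.measurable.comp (measurable_flow' hA _))) _))
    (integrable_const _) (fun n => (ae_good hA).mono fun v hv => ?_)
    ((ae_good hA).mono fun v hv => ?_)
  · have e : ∀ t, ∫ v, U (flow A t v) ∂liouville A = ∫ v, U v ∂liouville A := fun t => by
      rw [← integral_map (mp_flow hA t).aemeasurable cU.aestronglyMeasurable,
        (mp_flow hA t).map_eq]
    have i2 : ∀ t, Integrable (fun v => U (flow A t v)) (liouville A) := fun t =>
      (mp_flow hA t).integrable_comp_of_integrable iU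
    simp only [integral_smul, integral_sub (i2 _) (i2 _), e, sub_self, smul_zero] at key
    rw [tendsto_nhds_unique tendsto_const_nhds key]
    refine Eq.symm ((integral_prod _ (integrable_mu hA cU')).trans
      (integral_congr_ae (ae_of_all _ fun x => ?_)))
    have e2 : ∀ θ, U' (x, θ) = (dz W x).re + (fourier (-2) θ * dzb W x).re := fun θ => by
      have a : fourier (-2) θ = conj (vel θ) * conj (vel θ) := by
        rw [fourier_neg, ← one_add_one_eq_two, fourier_add, fourier_one, map_mul]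
        rfl
      simp only [U', fderiv_eq]
      rw [← add_re, a]
      congr 1
      linear_combination dz W x * vel_mul_conj θ
    have i3 : Integrable (fun θ : UnitAddCircle => fourier (-2) θ * dzb W x) hc :=
      Continuous.integrable_of_hasCompactSupport (by fun_prop) (HasCompactSupport.of_compactSpace _)
    simp only [e2]
    erw [integral_add (integrable_const _) i3.re, integral_re i3]
    rw [integral_mul_const, integral_fourier (by norm_num)]
    simp
  · have n0 : (0 : ℝ) < 1 / (n + 1) := by positivity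
    have := norm_image_sub_le_of_norm_deriv_right_le_segment (hc' v hv).continuousOn
      (fun t _ => hd v hv t) (fun t _ => hL _ ⟨(Good.z0 hA (flow_good hA hv t)).1, trivial⟩)
      (a := 0) (b := 0 + 1 / (n + 1)) _ ⟨by linarith, le_rfl⟩
    rw [norm_smul, norm_inv, Real.norm_of_nonneg n0.le, inv_mul_le_iff₀ n0]
    linarith
  · have h1 := hasDerivWithinAt_iff_tendsto_slope.1 (hd v hv 0)
    rw [flow_zero] at h1
    have h2 : Tendsto (fun n : ℕ => 0 + 1 / (n + 1 : ℝ)) atTop (𝓝[Ici 0 \ {0}] 0) := by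
      refine tendsto_nhdsWithin_iff.2 ⟨by
        simpa only [zero_add] using tendsto_one_div_add_atTop_nhds_zero_nat,
        Eventually.of_forall fun n => ?_⟩
      have n0 : (0 : ℝ) < 0 + 1 / (n + 1) := by positivity
      exact ⟨n0.le, n0.ne'⟩
    refine (h1.comp h2).congr fun n => ?_
    simp [slope]

omit hA in
lemma fderiv_side {h : ℂ → ℂ} (hh : ContDiff ℝ 1 h) {i : Fin 3} (h0 : ∀ q, Side A i q → h q = 0)
    {q : ℂ} (hq : Side A i q) : fderiv ℝ h q (tau A i) = 0 := by
  have h1 : HasDerivAt (fun s : ℝ => q + s • tau A i) (tau A i) 0 := by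
    simpa using ((hasDerivAt_id (0 : ℝ)).smul_const (tau A i)).const_add q
  have h2 := (hh.differentiable one_ne_zero q).hasFDerivAt.comp_hasDerivAt_of_eq 0 h1 (by simp)
  refine h2.unique ((hasDerivAt_const (0 : ℝ) (0 : ℂ)).congr_of_eventuallyEq ?_)
  have h3 : ∀ᶠ s in 𝓝 (0 : ℝ), q + s • tau A i ∈ Wd A i := by
    simp only [Wd, mem_ofPred_eq, eventually_all]
    intro j hj
    have c : Continuous fun s : ℝ => lam A j (q + s • tau A i) := by fun_prop
    exact continuousAt_const.eventually_lt c.continuousAt (by simpa using hq.2 j hj)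
  refine h3.mono fun s hs => h0 _ ⟨?_, hs⟩
  rw [lam_add, dl_smul, hq.1, dl, conj_mul']
  norm_cast
  simp

lemma stokes1 {u : ℂ → ℂ} (hu : ContDiff ℝ 2 u)
    (hs : ∀ i, ∃ φ : ℂ, ‖φ‖ = 1 ∧ ∀ q, Side A i q → u q = φ * conj (u q)) :
    ∫ x, ‖dz u x‖ ^ 2 ∂qq A = ∫ x, ‖dzb u x‖ ^ 2 ∂qq A := by
  have h1 : ContDiff ℝ 1 u := hu.of_le (by norm_num)
  have h2 : ContDiff ℝ 1 (dz u) := contDiff_dz (n := 1) hu
  have h3 : ContDiff ℝ 1 (dzb u) := contDiff_dzb (n := 1) hu
  have a1 := h1.mul (contDiff_cj h2)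
  have a2 := (contDiff_cj h1).mul h3
  have := stokes hA (a1.sub a2) fun i q hq => ?_
  · have c2 := h2.continuous
    have c3 := h3.continuous
    rw [← sub_eq_zero, ← integral_sub (integrable_qq hA (by fun_prop))
      (integrable_qq hA (by fun_prop)), ← this]
    refine integral_congr_ae (ae_of_all _ fun x => ?_)
    simp only [dz_sub a1 a2, dz_mul h1 (contDiff_cj h2), dz_mul (contDiff_cj h1) h3, dz_cj h1,
      dz_cj h2, dz_dzb hu, ← normSq_eq_norm_sq, normSq_apply, sub_re, add_re, mul_re, conj_re,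
      conj_im]
    ring
  · obtain ⟨φ, hφ, h⟩ := hs i
    have b1 := fderiv_side (h1.sub (contDiff_const.mul (contDiff_cj h1)))
      (fun q hq => sub_eq_zero.2 (h q hq)) hq
    rw [fderiv_fun_sub (h1.differentiable one_ne_zero q)
      ((contDiff_const.mul (contDiff_cj h1)).differentiable one_ne_zero q),
      fderiv_const_mul ((contDiff_cj h1).differentiable one_ne_zero q),
      ContinuousLinearMap.sub_apply, ContinuousLinearMap.smul_apply, fderiv_cj h1, sub_eq_zero,
      smul_eq_mul] at b1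
    have b2 : (conj (u q) * fderiv ℝ u q (tau A i)).im = 0 := by
      rw [← conj_eq_iff_im, map_mul, conj_conj]
      linear_combination conj (fderiv ℝ u q (tau A i)) * h q hq - conj (u q) * b1
    rw [fderiv_eq] at b2
    rw [dl, div_eq_zero_iff]
    left
    simp only [mul_im, add_im, add_re, sub_im, sub_re, mul_re, conj_re, conj_im] at b2 ⊢
    linarith

lemma stokes2 {v w : ℂ → ℂ} (hv : ContDiff ℝ 1 v) (hw : ContDiff ℝ 1 w)
    (hs : ∀ i, ∃ φ : ℂ, ‖φ‖ = 1 ∧ ∀ q, Side A i q →
      v q = φ * conj (v q) ∧ w q = φ * vel (be A i) * conj (w q)) :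
    ∫ x, ⟪v x, dz w x⟫ ∂qq A = -∫ x, ⟪dzb v x, w x⟫ ∂qq A := by
  have := stokes hA ((contDiff_cj hv).mul hw) fun i q hq => ?_
  · rw [eq_neg_iff_add_eq_zero, ← integral_add (integrable_qq hA (hv.continuous.inner
      (continuous_dz hw))) (integrable_qq hA ((continuous_dzb hv).inner hw.continuous)), ← this]
    refine integral_congr_ae (ae_of_all _ fun x => ?_)
    simp only [dz_mul (contDiff_cj hv) hw, dz_cj hv, Complex.inner, add_re, mul_re, conj_re,
      conj_im]
    ring
  · obtain ⟨φ, hφ, h⟩ := hs i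
    obtain ⟨h1, h2⟩ := h q hq
    have e : rl A i (conj (v q) * w q) = conj (v q) * w q := by
      rw [rl, map_mul, conj_conj]
      linear_combination vel (be A i) * conj (w q) * h1 - conj (v q) * h2
    have := dl_rl (A := A) i (conj (v q) * w q)
    rw [e] at this
    linarith

lemma stokes3 {h : ℂ → ℂ} (hh : ContDiff ℝ 1 h) {i : Fin 3} (h0 : ∀ q, Side A i q → h q = 0) :
    ∫ x, ‖h x‖ ^ 2 ∂qq A ≤ ∫ x, ‖fderiv ℝ h x (x - A i)‖ ^ 2 ∂qq A := by
  have a1 := hh.mul (contDiff_cj hh)
  have a2 : ContDiff ℝ 1 fun x : ℂ => x - A i := by fun_prop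
  have cD := hh.continuous_fderiv one_ne_zero
  have ch := hh.continuous
  have := stokes hA (a1.mul a2) fun j q hq => ?_
  · have c3 := continuous_dz (a1.mul a2)
    have i1 : Integrable (fun x => ‖fderiv ℝ h x (x - A i)‖ ^ 2) (qq A) :=
      integrable_qq hA (by fun_prop)
    have i2 : Integrable (fun x => 2 * (dz (fun x => h x * conj (h x) * (x - A i)) x).re) (qq A) :=
      integrable_qq hA (by fun_prop)
    rw [← add_zero (∫ x, ‖fderiv ℝ h x (x - A i)‖ ^ 2 ∂qq A), ← mul_zero 2, ← this,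
      ← integral_const_mul, ← integral_add i1 i2]
    refine integral_mono (integrable_qq hA (by fun_prop)) (i1.add i2) fun x => ?_
    have e : dz (fun x : ℂ => x - A i) x = 1 := by
      simp only [dz, fderiv_sub_const, fderiv_fun_id, ContinuousLinearMap.id_apply, I_mul_I]
      norm_num
    have e2 : (dz (fun x => h x * conj (h x) * (x - A i)) x).re =
        ‖h x‖ ^ 2 + ⟪h x, fderiv ℝ h x (x - A i)⟫ := by
      simp only [dz_mul a1 a2, dz_mul hh (contDiff_cj hh), dz_cj hh, e, fderiv_eq,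
        ← normSq_eq_norm_sq, normSq_apply, Complex.inner, add_re, add_im, mul_re, mul_im, conj_re,
        conj_im, one_re, one_im]
      ring
    have := norm_add_sq_real (h x) (fderiv ℝ h x (x - A i))
    simp only [e2]
    nlinarith [sq_nonneg ‖h x + fderiv ℝ h x (x - A i)‖]
  · rcases eq_or_ne j i with rfl | hj
    · simp [h0 q hq, dl]
    · rw [mul_conj, ← real_smul, dl_smul, ← lam_sub, hq.1, lam_vertex hA, if_neg hj]
      simp

lemma poinc1 {u : ℂ → ℂ} (hu : ContDiff ℝ 1 u) {i j : Fin 3} {φ ψ : ℂ} (hφ : ‖φ‖ = 1)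
    (hψ : ‖ψ‖ = 1) (hi : ∀ q, Side A i q → u q = φ * conj (u q))
    (hj : ∀ q, Side A j q → u q = ψ * conj (u q)) :
    ‖φ - ψ‖ ^ 2 * ∫ x, ‖u x‖ ^ 2 ∂qq A ≤
      32 * Dm A ^ 2 * (∫ x, ‖dz u x‖ ^ 2 ∂qq A + ∫ x, ‖dzb u x‖ ^ 2 ∂qq A) := by
  have cu := hu.continuous
  have c1 := continuous_dz hu
  have c2 := continuous_dzb hu
  have key : ∀ (i : Fin 3) (φ : ℂ), ‖φ‖ = 1 → (∀ q, Side A i q → u q = φ * conj (u q)) →
      ∫ x, ‖u x - φ * conj (u x)‖ ^ 2 ∂qq A ≤
        8 * Dm A ^ 2 * (∫ x, ‖dz u x‖ ^ 2 ∂qq A + ∫ x, ‖dzb u x‖ ^ 2 ∂qq A) := fun i φ hφ h => by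
    refine (stokes3 hA (hu.sub (contDiff_const.mul (contDiff_cj hu)))
      fun q hq => sub_eq_zero.2 (h q hq)).trans ?_
    rw [← integral_add (integrable_qq hA (by fun_prop)) (integrable_qq hA (by fun_prop)),
      ← integral_const_mul]
    refine integral_mono_of_nonneg (ae_of_all _ fun x => sq_nonneg _)
      (integrable_qq hA (by fun_prop)) ((ae_qq hA).mono fun x hx => ?_)
    dsimp only
    rw [fderiv_fun_sub (hu.differentiable one_ne_zero x)
      ((contDiff_const.mul (contDiff_cj hu)).differentiable one_ne_zero x),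
      fderiv_const_mul ((contDiff_cj hu).differentiable one_ne_zero x),
      ContinuousLinearMap.sub_apply, ContinuousLinearMap.smul_apply, fderiv_cj hu, smul_eq_mul]
    have b1 := norm_sub_le (fderiv ℝ u x (x - A i)) (φ * conj (fderiv ℝ u x (x - A i)))
    rw [norm_mul, hφ, norm_conj] at b1
    have b2 := norm_fderiv_le u x (x - A i)
    have b3 := norm_sub_vertex hA (fun j => (hx j).le) i
    have b4 : ‖x - A i‖ ≤ Dm A := by nlinarith [hx i, Dm_nonneg (A := A)]
    have b5 := mul_le_mul_of_nonneg_right b4 (add_nonneg (norm_nonneg (dz u x))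
      (norm_nonneg (dzb u x)))
    refine (pow_le_pow_left₀ (norm_nonneg _) (by linarith : _ ≤
      2 * (Dm A * (‖dz u x‖ + ‖dzb u x‖))) 2).trans ?_
    nlinarith [mul_nonneg (sq_nonneg (Dm A)) (sq_nonneg (‖dz u x‖ - ‖dzb u x‖))]
  have h1 := key i φ hφ hi
  have h2 := key j ψ hψ hj
  have h3 : ‖φ - ψ‖ ^ 2 * ∫ x, ‖u x‖ ^ 2 ∂qq A ≤
      2 * (∫ x, ‖u x - φ * conj (u x)‖ ^ 2 ∂qq A + ∫ x, ‖u x - ψ * conj (u x)‖ ^ 2 ∂qq A) := by
    rw [← integral_add (integrable_qq hA (by fun_prop)) (integrable_qq hA (by fun_prop)),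
      ← integral_const_mul, ← integral_const_mul]
    refine integral_mono (integrable_qq hA (by fun_prop)) (integrable_qq hA (by fun_prop))
      fun x => ?_
    have b1 := norm_sub_le (u x - ψ * conj (u x)) (u x - φ * conj (u x))
    rw [show u x - ψ * conj (u x) - (u x - φ * conj (u x)) = (φ - ψ) * conj (u x) by ring,
      norm_mul, norm_conj] at b1
    dsimp only
    rw [← mul_pow]
    refine (pow_le_pow_left₀ (by positivity) b1 2).trans ?_
    nlinarith [sq_nonneg (‖u x - ψ * conj (u x)‖ - ‖u x - φ * conj (u x)‖)]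
  linarith

end

end Vale.Agent.P099
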